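import Vale.Agent.P098.Regularity.B3.Lipschitz

/-!
P098, block B4: gradient vectors of Lipschitz functions and elementary integrability.
-/

open MeasureTheory Filter
open scoped Topology ContDiff NNReal RealInnerProductSpace Gradient

namespace Vale.Agent.P098

variable {d : ℕ} {C : ℝ≥0} {f g F : Euc d → ℝ}

lemma gradient_coord (f : Euc d → ℝ) (x : Euc d) (i : Fin d) : ∇ f x i = pd i f x := by
  rw [pd, ← inner_gradient_left, EuclideanSpace.inner_single_right]
  simp

lemma inner_gradient_eq_sum (f g : Euc d → ℝ) (x : Euc d) :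
    ⟪∇ f x, ∇ g x⟫ = ∑ i, pd i f x * pd i g x := by
  rw [PiLp.inner_apply]
  simp [gradient_coord, mul_comm]

lemma inner_gradient_left_sum (f : Euc d → ℝ) (x v : Euc d) :
    ⟪∇ f x, v⟫ = ∑ i, pd i f x * v i := by
  rw [PiLp.inner_apply]
  simp [gradient_coord, mul_comm]

lemma norm_gradient_sq (f : Euc d → ℝ) (x : Euc d) : ‖∇ f x‖ ^ 2 = ∑ i, pd i f x ^ 2 := by
  rw [← real_inner_self_eq_norm_sq, inner_gradient_eq_sum]
  simp [sq]

lemma norm_gradient_eq (f : Euc d → ℝ) (x : Euc d) : ‖∇ f x‖ = ‖fderiv ℝ f x‖ := by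
  simp [gradient]

lemma norm_gradient_le (hf : LipschitzWith C f) (x : Euc d) : ‖∇ f x‖ ≤ C :=
  (norm_gradient_eq f x).trans_le (norm_fderiv_le_of_lipschitz ℝ hf)

lemma measurable_gradient (f : Euc d → ℝ) : Measurable (∇ f) := by
  have h : Measurable fun x => fderiv ℝ f x := measurable_fderiv ℝ f
  exact (InnerProductSpace.toDual ℝ (Euc d)).symm.continuous.measurable.comp h

lemma gradient_eq_zero_of_eq_zero (hn : ∀ y, 0 ≤ f y) {x : Euc d} (hx : f x = 0) :
    ∇ f x = 0 := by
  have h : IsLocalMin f x := Eventually.of_forall fun y => hx.trans_le (hn y)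
  simp [gradient, h.fderiv_eq_zero]

lemma gradient_eq_zero_of_notMem (hn : ∀ y, 0 ≤ f y) {x : Euc d} (hx : x ∉ posSet f) :
    ∇ f x = 0 :=
  gradient_eq_zero_of_eq_zero hn (le_antisymm (not_lt.1 hx) (hn x))

lemma continuous_gradient (hf : ContDiff ℝ 1 f) : Continuous (∇ f) :=
  (InnerProductSpace.toDual ℝ (Euc d)).symm.continuous.comp (hf.continuous_fderiv one_ne_zero)

lemma hasCompactSupport_gradient (hf : HasCompactSupport f) : HasCompactSupport (∇ f) :=
  (hf.fderiv ℝ).comp_left (g := (InnerProductSpace.toDual ℝ (Euc d)).symm) (map_zero _)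

lemma gradient_eq_zero_of_notMem_tsupport {x : Euc d} (hx : x ∉ tsupport f) : ∇ f x = 0 := by
  rw [(notMem_tsupport_iff_eventuallyEq.1 hx).gradient_eq]
  exact gradient_fun_const x (0 : ℝ)

/-- Bounded measurable times continuous with compact support is integrable. -/
lemma integrable_bdd_mul (hF : Measurable F) {M : ℝ} (hg : Continuous g) (hgs : HasCompactSupport g)
    (hM : ∀ x ∈ tsupport g, |F x| ≤ M) : Integrable fun x => F x * g x := by
  refine Integrable.mono' ((hg.norm.integrable_of_hasCompactSupport hgs.norm).const_mul M)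
    (hF.aestronglyMeasurable.mul hg.aestronglyMeasurable) (Eventually.of_forall fun x => ?_)
  rw [norm_mul]
  by_cases hx : x ∈ tsupport g
  · exact mul_le_mul_of_nonneg_right (hM x hx) (norm_nonneg _)
  · simp [image_eq_zero_of_notMem_tsupport hx]

lemma exists_abs_le_on_compact (hf : Continuous f) {K : Set (Euc d)} (hK : IsCompact K) :
    ∃ M, 0 ≤ M ∧ ∀ x ∈ K, |f x| ≤ M := by
  obtain ⟨M, hM⟩ := hK.exists_bound_of_continuousOn hf.continuousOn
  exact ⟨max M 0, le_max_right _ _, fun x hx => le_max_of_le_left (hM x hx)⟩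

/-- Zero off a set where `f` vanishes. -/
lemma setIntegral_posSet_eq {G : Euc d → ℝ} (hn : ∀ y, 0 ≤ f y)
    (hG : ∀ x, f x = 0 → G x = 0) : ∫ x in posSet f, G x = ∫ x, G x :=
  setIntegral_eq_integral_of_forall_compl_eq_zero fun x hx =>
    hG x (le_antisymm (not_lt.1 hx) (hn x))

lemma eq_zero_of_quad_nonneg {a b : ℝ} (h : ∀ᶠ s : ℝ in 𝓝 0, 0 ≤ s * a + s ^ 2 * b) : a = 0 := by
  obtain ⟨δ, hδ, hball⟩ := Metric.eventually_nhds_iff.1 h
  by_contra ha
  set s : ℝ := min (δ / 2) (|a| / (2 * (|b| + 1))) with hs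
  have ha' : 0 < |a| := abs_pos.2 ha
  have hs0 : 0 < s := lt_min (by linarith) (by positivity)
  have hs1 : s < δ := (min_le_left _ _).trans_lt (by linarith)
  have hs2 : s * (2 * (|b| + 1)) ≤ |a| := (le_div_iff₀ (by positivity)).1 (min_le_right _ _)
  have h1 := hball (y := s) (by simpa [abs_of_pos hs0] using hs1)
  have h2 := hball (y := -s) (by simpa [abs_of_pos hs0] using hs1)
  rw [neg_sq] at h2
  have h3 : s * (s * b) ≤ s * (|a| / 2) := by
    refine mul_le_mul_of_nonneg_left ?_ hs0.le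
    nlinarith [le_abs_self b]
  rcases abs_cases a with ⟨e, -⟩ | ⟨e, -⟩ <;> nlinarith

end Vale.Agent.P098
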