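import Vale.Agent.P098.Regularity.Flatness.Slab

/-!
P098, block B4: the excess on a small ball is controlled by the gradient above the layer about the
plane and by the excess on the unit ball times the relative width of the layer.
-/

open MeasureTheory Filter
open scoped Topology ContDiff NNReal RealInnerProductSpace Gradient

namespace Vale.Agent.P098

variable {d : ℕ} {L : ℝ≥0} {c : ℝ} {u : Euc d → ℝ} {e : Euc d}

/-! ### The cutoff -/

/-- One below `1`, zero above `4`. -/
noncomputable def cutProfile (r : ℝ) : ℝ := Real.smoothTransition ((4 - r) / 3)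

lemma contDiff_cutProfile : ContDiff ℝ ∞ cutProfile :=
  Real.smoothTransition.contDiff.comp ((contDiff_const.sub contDiff_id).div_const 3)

lemma cutProfile_one {r : ℝ} (h : r ≤ 1) : cutProfile r = 1 :=
  Real.smoothTransition.one_of_one_le (by linarith)

lemma cutProfile_zero {r : ℝ} (h : 4 ≤ r) : cutProfile r = 0 :=
  Real.smoothTransition.zero_of_nonpos (by linarith)

lemma cutProfile_mem (r : ℝ) : cutProfile r ∈ Set.Icc (0 : ℝ) 1 :=
  ⟨Real.smoothTransition.nonneg _, Real.smoothTransition.le_one _⟩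

lemma deriv_cutProfile_eq_zero {r : ℝ} (h : r < 1 ∨ 4 < r) : deriv cutProfile r = 0 := by
  rcases h with h | h
  · have e : cutProfile =ᶠ[𝓝 r] fun _ => (1 : ℝ) :=
      (eventually_lt_nhds h).mono fun s hs => cutProfile_one hs.le
    rw [e.deriv_eq, deriv_const]
  · have e : cutProfile =ᶠ[𝓝 r] fun _ => (0 : ℝ) :=
      (eventually_gt_nhds h).mono fun s hs => cutProfile_zero hs.le
    rw [e.deriv_eq, deriv_const]

lemma exists_deriv_cutProfile_le : ∃ K, 0 ≤ K ∧ ∀ r, |deriv cutProfile r| ≤ K := by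
  obtain ⟨K, hK⟩ := (isCompact_Icc (a := (1 : ℝ)) (b := 4)).exists_bound_of_continuousOn
    ((contDiff_cutProfile.of_le (by simp)).continuous_deriv (le_refl (1 : WithTop ℕ∞))).continuousOn
  refine ⟨max K 0, le_max_right _ _, fun r => ?_⟩
  by_cases h : r ∈ Set.Icc (1 : ℝ) 4
  · exact le_max_of_le_left (hK r h)
  · rw [deriv_cutProfile_eq_zero (by
      rcases not_and_or.1 h with h | h
      · exact Or.inl (not_le.1 h)
      · exact Or.inr (not_le.1 h)), abs_zero]
    exact le_max_right _ _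

/-- The component orthogonal to `e`. -/
noncomputable def perp (e x : Euc d) : Euc d := x - ⟪e, x⟫ • e

/-- The cutoff of the layer `|⟪e, ·⟫| ≤ 2 T` over the disc of radius `θ`. -/
noncomputable def layerCut (e : Euc d) (θ T : ℝ) (x : Euc d) : ℝ :=
  cutProfile (‖perp e x‖ ^ 2 / θ ^ 2) * cutProfile (⟪e, x⟫ ^ 2 / (4 * T ^ 2))

lemma norm_le_perp_add (he : ‖e‖ = 1) (x : Euc d) : ‖x‖ ≤ ‖perp e x‖ + |⟪e, x⟫| := by
  calc ‖x‖ = ‖perp e x + ⟪e, x⟫ • e‖ := by rw [perp, sub_add_cancel]
    _ ≤ _ := (norm_add_le _ _).trans_eq (by rw [norm_smul, he, mul_one, Real.norm_eq_abs])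

lemma norm_perp_le (he : ‖e‖ = 1) (x : Euc d) : ‖perp e x‖ ≤ ‖x‖ := (path_bounds he x).2.2.1

lemma contDiff_perp : ContDiff ℝ ∞ (perp e : Euc d → Euc d) :=
  contDiff_id.sub ((contDiff_const.inner ℝ contDiff_id).smul contDiff_const)

lemma contDiff_layerCut (θ T : ℝ) : ContDiff ℝ ∞ (layerCut e θ T) :=
  (contDiff_cutProfile.comp (((contDiff_norm_sq ℝ).comp contDiff_perp).div_const _)).mul
    (contDiff_cutProfile.comp (((contDiff_const.inner ℝ contDiff_id).pow 2).div_const _))

lemma layerCut_nonneg (θ T : ℝ) (x : Euc d) : 0 ≤ layerCut e θ T x :=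
  mul_nonneg (cutProfile_mem _).1 (cutProfile_mem _).1

lemma layerCut_eq_zero {θ T : ℝ} (hθ : 0 < θ) (hT : 0 < T) {x : Euc d}
    (h : 2 * θ ≤ ‖perp e x‖ ∨ 4 * T ≤ |⟪e, x⟫|) : layerCut e θ T x = 0 := by
  rcases h with h | h
  · rw [layerCut, cutProfile_zero (r := ‖perp e x‖ ^ 2 / θ ^ 2), zero_mul]
    rw [le_div_iff₀ (by positivity)]
    nlinarith
  · rw [layerCut, cutProfile_zero (r := ⟪e, x⟫ ^ 2 / (4 * T ^ 2)), mul_zero]
    rw [le_div_iff₀ (by positivity), ← sq_abs ⟪e, x⟫]
    nlinarith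

lemma layerCut_eq_one (he : ‖e‖ = 1) {θ T : ℝ} (hθ : 0 < θ) (hT : 0 < T) {x : Euc d}
    (h1 : ‖x‖ ≤ θ) (h2 : |⟪e, x⟫| ≤ 2 * T) : layerCut e θ T x = 1 := by
  rw [layerCut, cutProfile_one, cutProfile_one, one_mul]
  · rw [div_le_one (by positivity), ← sq_abs ⟪e, x⟫]
    nlinarith [abs_nonneg ⟪e, x⟫]
  · rw [div_le_one (by positivity)]
    nlinarith [norm_perp_le he x, norm_nonneg (perp e x)]

lemma hasCompactSupport_layerCut (he : ‖e‖ = 1) {θ T : ℝ} (hθ : 0 < θ) (hT : 0 < T) :
    HasCompactSupport (layerCut e θ T) :=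
  HasCompactSupport.intro (isCompact_closedBall (0 : Euc d) (2 * θ + 4 * T)) fun x hx => by
    rw [mem_closedBall_zero_iff, not_le] at hx
    refine layerCut_eq_zero hθ hT ?_
    by_contra! hh
    linarith [norm_le_perp_add he x, hh.1, hh.2]

lemma norm_gradient_layerCut_le (he : ‖e‖ = 1) {K : ℝ} (hK : ∀ r, |deriv cutProfile r| ≤ K)
    {θ T : ℝ} (hθ : 0 < θ) (hT : 0 < T) (x : Euc d) :
    ‖∇ (layerCut e θ T) x‖ ≤ 4 * K / θ + 2 * K / T ∧
      (|⟪e, x⟫| < 2 * T → ‖∇ (layerCut e θ T) x‖ ≤ 4 * K / θ) := by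
  have hK0 : 0 ≤ K := (abs_nonneg _).trans (hK 0)
  set P : Euc d →L[ℝ] Euc d := ContinuousLinearMap.id ℝ (Euc d) - (innerSL ℝ e).smulRight e
  have hP : (P : Euc d → Euc d) = perp e := by
    funext y
    simp [P, perp]
  have ha : HasFDerivAt (fun y => ‖perp e y‖ ^ 2 / θ ^ 2)
      ((θ ^ 2)⁻¹ • ((2 • innerSL ℝ (perp e x)).comp P)) x := by
    have h1 := ((hasStrictFDerivAt_norm_sq (perp e x)).hasFDerivAt.comp x
      (hP ▸ P.hasFDerivAt : HasFDerivAt (perp e) P x)).mul_const (θ ^ 2)⁻¹
    simpa [div_eq_mul_inv, Function.comp_def] using h1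
  have hb : HasFDerivAt (fun y => ⟪e, y⟫ ^ 2 / (4 * T ^ 2))
      ((4 * T ^ 2)⁻¹ • ((2 * ⟪e, x⟫) • innerSL ℝ e)) x := by
    have h1 := ((innerSL ℝ e).hasFDerivAt (x := x)).pow 2 |>.mul_const (4 * T ^ 2)⁻¹
    simpa [div_eq_mul_inv] using h1
  have hf : ∀ r, HasDerivAt cutProfile (deriv cutProfile r) r := fun r =>
    (contDiff_cutProfile.differentiable (by simp) r).hasDerivAt
  have hH := ((hf _).comp_hasFDerivAt x ha).mul ((hf _).comp_hasFDerivAt x hb)
  have hA : ‖deriv cutProfile (‖perp e x‖ ^ 2 / θ ^ 2) •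
      (θ ^ 2)⁻¹ • (2 • innerSL ℝ (perp e x)).comp P‖ ≤ 4 * K / θ := by
    refine ContinuousLinearMap.opNorm_le_bound _ (by positivity) fun h => ?_
    by_cases hr : 4 < ‖perp e x‖ ^ 2 / θ ^ 2
    · simp [deriv_cutProfile_eq_zero (Or.inr hr)]
      positivity
    rw [not_lt, div_le_iff₀ (by positivity)] at hr
    have hx2 : ‖perp e x‖ ≤ 2 * θ := by nlinarith [norm_nonneg (perp e x)]
    have h1 : |⟪perp e x, perp e h⟫| ≤ 2 * θ * ‖h‖ :=
      (abs_real_inner_le_norm _ _).trans
        (mul_le_mul hx2 (norm_perp_le he h) (norm_nonneg _) (by positivity))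
    simp only [_root_.smul_apply, ContinuousLinearMap.comp_apply, hP,
      innerSL_apply_apply, smul_eq_mul, nsmul_eq_mul, Real.norm_eq_abs, abs_mul,
      abs_of_nonneg (inv_nonneg.2 (sq_nonneg θ)), Nat.cast_ofNat, abs_two]
    calc _ ≤ K * ((θ ^ 2)⁻¹ * (2 * (2 * θ * ‖h‖))) := by
          gcongr
          exact hK _
      _ = _ := by field_simp; ring
  have hB : ‖deriv cutProfile (⟪e, x⟫ ^ 2 / (4 * T ^ 2)) •
      (4 * T ^ 2)⁻¹ • (2 * ⟪e, x⟫) • innerSL ℝ e‖ ≤ 2 * K / T ∧
      (|⟪e, x⟫| < 2 * T → deriv cutProfile (⟪e, x⟫ ^ 2 / (4 * T ^ 2)) = 0) := by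
    refine ⟨?_, fun h => deriv_cutProfile_eq_zero (Or.inl ?_)⟩
    · by_cases hr : 4 < ⟪e, x⟫ ^ 2 / (4 * T ^ 2)
      · simp [deriv_cutProfile_eq_zero (Or.inr hr)]
        positivity
      rw [not_lt, div_le_iff₀ (by positivity)] at hr
      have hx2 : |⟪e, x⟫| ≤ 4 * T := abs_le_of_sq_le_sq (by linarith) (by positivity)
      simp only [norm_smul, innerSL_apply_norm, he, mul_one, Real.norm_eq_abs, abs_mul, abs_two,
        abs_of_nonneg (inv_nonneg.2 (by positivity : (0 : ℝ) ≤ 4 * T ^ 2))]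
      calc _ ≤ K * ((4 * T ^ 2)⁻¹ * (2 * (4 * T))) := by
            gcongr
            exact hK _
        _ = _ := by field_simp
    · rw [div_lt_one (by positivity), ← sq_abs ⟪e, x⟫]
      nlinarith [abs_nonneg ⟪e, x⟫]
  rw [norm_gradient_eq, show layerCut e θ T = ((cutProfile ∘ fun y => ‖perp e y‖ ^ 2 / θ ^ 2) *
      (cutProfile ∘ fun y => ⟪e, y⟫ ^ 2 / (4 * T ^ 2))) from rfl, hH.fderiv]
  simp only [Function.comp_apply]
  set f₁ := cutProfile (‖perp e x‖ ^ 2 / θ ^ 2)
  set f₂ := cutProfile (⟪e, x⟫ ^ 2 / (4 * T ^ 2))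
  have h1 : |f₁| ≤ 1 := abs_le.2 ⟨by linarith [(cutProfile_mem (‖perp e x‖ ^ 2 / θ ^ 2)).1],
    (cutProfile_mem _).2⟩
  have h2 : |f₂| ≤ 1 := abs_le.2 ⟨by linarith [(cutProfile_mem (⟪e, x⟫ ^ 2 / (4 * T ^ 2))).1],
    (cutProfile_mem _).2⟩
  refine ⟨(norm_add_le _ _).trans ?_, fun h => ?_⟩
  · rw [add_comm]
    refine add_le_add ?_ ?_
    · exact (norm_smul_le f₂ _).trans ((mul_le_of_le_one_left (norm_nonneg _) h2).trans hA)
    · exact (norm_smul_le f₁ _).trans ((mul_le_of_le_one_left (norm_nonneg _) h1).trans hB.1)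
  · rw [hB.2 h, zero_smul, smul_zero, zero_add]
    exact (norm_smul_le f₂ _).trans ((mul_le_of_le_one_left (norm_nonneg _) h2).trans hA)

/-! ### Above the layer and across it -/

lemma fderiv_sub_inner_norm {x : Euc d} (hx : DifferentiableAt ℝ u x) :
    ‖fderiv ℝ (fun y => u y - ⟪e, y⟫) x‖ = ‖∇ u x - e‖ := by
  rw [show (fun y => u y - ⟪e, y⟫) = fun y => u y - innerSL ℝ e y from rfl,
    fderiv_fun_sub hx (innerSL ℝ e).differentiableAt, ContinuousLinearMap.fderiv,
    ← (InnerProductSpace.toDual ℝ (Euc d)).norm_map (∇ u x - e), map_sub]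
  congr 1
  simp only [gradient, LinearIsometryEquiv.apply_symm_apply]
  rfl

/-- In a convex set where the gradient is near `e`, the minimizer is near an affine function. -/
lemma IsRegMin.abs_affine_sub_le (hu : IsRegMin L c u) {S : Set (Euc d)} (hS : Convex ℝ S)
    (hpos : S ⊆ posSet u) {M : ℝ} (hM : ∀ y ∈ S, ‖∇ u y - e‖ ≤ M) {y z : Euc d} (hy : y ∈ S)
    (hz : z ∈ S) : |u y - ⟪e, y⟫ - (u z - ⟪e, z⟫)| ≤ M * ‖y - z‖ := by
  have h := hS.norm_image_sub_le_of_norm_fderiv_le (f := fun y => u y - ⟪e, y⟫) (C := M)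
    (fun x hx => ((hu.contDiffAt_one (hpos hx)).differentiableAt one_ne_zero).sub
      (innerSL ℝ e).differentiableAt) (fun x hx => ?_) hz hy
  · simpa using h
  · rw [fderiv_sub_inner_norm ((hu.contDiffAt_one (hpos hx)).differentiableAt one_ne_zero)]
    exact hM x hx

lemma segInt_sq_le {F : Euc d → ℝ} (hF : Measurable F) {B : ℝ} (hB : ∀ x, |F x| ≤ B)
    (z v : Euc d) : segInt F z v ^ 2 ≤ segInt (fun x => F x ^ 2) z v := by
  set m := segInt F z v
  have i1 := intervalIntegrable_seg hF hB z v 0 1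
  have i2 := intervalIntegrable_seg (F := fun x => F x ^ 2) (hF.pow_const 2) (M := B ^ 2)
    (fun x => by rw [abs_pow]; exact pow_le_pow_left₀ (abs_nonneg _) (hB x) 2) z v 0 1
  have h : 0 ≤ ∫ s in (0 : ℝ)..1, (F (z + s • v) ^ 2 - 2 * m * F (z + s • v) + m ^ 2) :=
    intervalIntegral.integral_nonneg zero_le_one fun s _ => by
      nlinarith [sq_nonneg (F (z + s • v) - m)]
  rw [intervalIntegral.integral_add (i2.sub (i1.const_mul _)) intervalIntegrable_const,
    intervalIntegral.integral_sub i2 (i1.const_mul _), intervalIntegral.integral_const_mul,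
    intervalIntegral.integral_const] at h
  simp only [sub_zero, one_smul] at h
  have e1 : ∫ s in (0 : ℝ)..1, F (z + s • v) = m := rfl
  rw [e1] at h
  show m ^ 2 ≤ _
  linarith [h, show segInt (fun x => F x ^ 2) z v = ∫ s in (0 : ℝ)..1, F (z + s • v) ^ 2 from rfl,
    show 2 * m * m = 2 * m ^ 2 by ring]

lemma one_sub_segInt (hu : Continuous u) (z v : Euc d) :
    1 - segInt ((posSet u).indicator 1) z v = segInt ((posSet u)ᶜ.indicator 1) z v := by
  have i := intervalIntegrable_seg (F := (posSet u).indicator 1)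
    (measurable_one.indicator (isOpen_lt continuous_const hu).measurableSet) (M := 1)
    (fun x => by by_cases hx : x ∈ posSet u <;> simp [hx]) z v 0 1
  rw [segInt, segInt]
  conv_lhs => arg 1; rw [show (1 : ℝ) = ∫ _s in (0 : ℝ)..1, (1 : ℝ) by simp]
  rw [← intervalIntegral.integral_sub intervalIntegrable_const i]
  refine intervalIntegral.integral_congr fun s _ => ?_
  by_cases hx : z + s • v ∈ posSet u <;> simp [hx]

/-- Integrals over moving balls against the integral over their union. -/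
lemma setIntegral_ball_le_mul {F : Euc d → ℝ} (hF : Measurable F) {B : ℝ} (hB : ∀ x, |F x| ≤ B)
    (h0 : ∀ x, 0 ≤ F x) {Z A : Set (Euc d)} (hZb : Bornology.IsBounded Z) (hZ : MeasurableSet Z)
    (hAb : Bornology.IsBounded A) {r : ℝ}
    (hsub : ∀ y ∈ Z, ∀ z ∈ Metric.ball (0 : Euc d) r, y + z ∈ A) :
    IntegrableOn (fun y => ∫ x in Metric.ball y r, F x) Z ∧
      ∫ y in Z, ∫ x in Metric.ball y r, F x ≤
        volume.real (Metric.ball (0 : Euc d) r) * ∫ x in A, F x := by
  have := isFiniteMeasure_restrict hZb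
  have := isFiniteMeasure_restrict (Metric.isBounded_ball (x := (0 : Euc d)) (r := r))
  have e : ∀ y, ∫ x in Metric.ball y r, F x = ∫ z in Metric.ball (0 : Euc d) r, F (y + z) :=
    fun y => by
    rw [← integral_indicator measurableSet_ball, ← integral_indicator measurableSet_ball,
      ← integral_add_left_eq_self _ y]
    refine integral_congr_ae (Eventually.of_forall fun z => ?_)
    beta_reduce
    by_cases hz : z ∈ Metric.ball (0 : Euc d) r
    · rw [Set.indicator_of_mem hz, Set.indicator_of_mem]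
      simpa [dist_eq_norm] using hz
    · rw [Set.indicator_of_notMem hz, Set.indicator_of_notMem]
      simpa [dist_eq_norm] using hz
  have hp : Integrable (Function.uncurry fun y z => F (y + z))
      ((volume.restrict Z).prod (volume.restrict (Metric.ball (0 : Euc d) r))) :=
    Integrable.of_bound (hF.comp (measurable_fst.add measurable_snd)).aestronglyMeasurable B
      (Eventually.of_forall fun p => hB _)
  refine ⟨hp.integral_prod_left.congr (Eventually.of_forall fun y => (e y).symm), ?_⟩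
  simp only [e]
  rw [integral_integral_swap hp, ← smul_eq_mul, ← setIntegral_const (μ := volume) (s := Metric.ball (0 : Euc d) r)]
  refine setIntegral_mono_on hp.integral_prod_right (integrable_const _) measurableSet_ball
    fun z hz => ?_
  have hA : IntegrableOn F A := Measure.integrableOn_of_bounded hAb.measure_lt_top.ne
    hF.aestronglyMeasurable (Eventually.of_forall hB)
  calc ∫ y in Z, F (y + z) = ∫ y in (fun y => y + z) '' Z, F y :=
        ((measurePreserving_add_right volume z).setIntegral_image_emb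
          (measurableEmbedding_addRight z) F Z).symm
    _ ≤ ∫ x in A, F x := setIntegral_mono_set hA (Eventually.of_forall h0)
        (Set.image_subset_iff.2 fun y hy => hsub y hy z hz).eventuallyLE

/-- The positive points of the layer whose vertical segment meets the zero set carry little
measure, by the gap lemma. -/
lemma setIntegral_gap_le (hu : IsRegMin L c u) (he : ‖e‖ = 1) {κ : ℝ} (hκ : 0 < κ)
    (hgap : ∀ (y y' : Euc d) (g : ℝ), y ∈ closure (posSet u) → 0 < g → ‖y' - y‖ ≤ g →
      g / 4 ≤ ⟪e, y' - y⟫ → u y' = 0 → κ * g ^ d ≤ ∫ x in Metric.ball y (2 * g), exDens u e x)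
    {S : Set (Euc d)} (hS : MeasurableSet S) (hSb : Bornology.IsBounded S) {a : ℝ} (ha : 0 < a)
    (hsub : ∀ y ∈ S, ∀ z ∈ Metric.ball (0 : Euc d) (2 * a), y + z ∈ Metric.ball (0 : Euc d) 1) :
    IntegrableOn ((posSet u).indicator fun y => segInt ((posSet u)ᶜ.indicator 1) y (a • e)) S ∧
      ∫ y in S, (posSet u).indicator (fun y => segInt ((posSet u)ᶜ.indicator 1) y (a • e)) y ≤
        2 ^ d * volume.real (Metric.ball (0 : Euc d) 1) / κ *
          ∫ x in Metric.ball (0 : Euc d) 1, exDens u e x := by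
  have := isFiniteMeasure_restrict hSb
  have hIfin : IsFiniteMeasure (volume.restrict (Set.Ioc (0 : ℝ) 1)) :=
    ⟨by rw [Measure.restrict_apply_univ]; exact measure_Ioc_lt_top⟩
  have hO : MeasurableSet (posSet u) := hu.isOpen_posSet.measurableSet
  set F : Euc d → ℝ → ℝ := fun y s =>
    (posSet u).indicator 1 y * (posSet u)ᶜ.indicator 1 (y + s • (a • e))
  have hp : Integrable (Function.uncurry F)
      ((volume.restrict S).prod (volume.restrict (Set.Ioc (0 : ℝ) 1))) := by
    refine Integrable.of_bound (((measurable_one.indicator hO).comp measurable_fst).mul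
      ((measurable_one.indicator hO.compl).comp
        (measurable_fst.add (measurable_snd.smul_const _)))).aestronglyMeasurable 1
      (Eventually.of_forall fun p => ?_)
    simp only [Function.uncurry, F, norm_mul]
    refine mul_le_one₀ ?_ (norm_nonneg _) ?_
    · by_cases h : p.1 ∈ posSet u <;> simp [h]
    · by_cases h : p.1 + p.2 • a • e ∈ posSet u <;> simp [h]
  have e1 : ∀ y, (posSet u).indicator (fun y => segInt ((posSet u)ᶜ.indicator 1) y (a • e)) y =
      ∫ s in Set.Ioc (0 : ℝ) 1, F y s := fun y => by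
    simp only [F, integral_const_mul, ← intervalIntegral.integral_of_le zero_le_one]
    by_cases h : y ∈ posSet u <;> simp [h, segInt]
  refine ⟨hp.integral_prod_left.congr (Eventually.of_forall fun y => (e1 y).symm), ?_⟩
  simp only [e1]
  rw [integral_integral_swap hp]
  set E := ∫ x in Metric.ball (0 : Euc d) 1, exDens u e x
  calc ∫ s in Set.Ioc (0 : ℝ) 1, ∫ y in S, F y s
      ≤ ∫ _s in Set.Ioc (0 : ℝ) 1, 2 ^ d * volume.real (Metric.ball (0 : Euc d) 1) / κ * E := by
        refine setIntegral_mono_on hp.integral_prod_right (integrable_const _) measurableSet_Ioc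
          fun s hs => ?_
        set Z := S ∩ posSet u ∩ (fun y => y + s • (a • e)) ⁻¹' (posSet u)ᶜ
        have hZ : MeasurableSet Z := (hS.inter hO).inter
          ((measurable_add_const _) hO.compl)
        have hFZ : ∀ y, S.indicator (fun y => F y s) y = Z.indicator (fun _ => (1 : ℝ)) y := by
          intro y
          by_cases h1 : y ∈ S <;> by_cases h2 : y ∈ posSet u <;>
            by_cases h3 : y + s • (a • e) ∈ posSet u <;> simp [Z, F, h1, h2, h3]
        rw [← integral_indicator hS, integral_congr_ae (Eventually.of_forall hFZ),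
          integral_indicator_const _ hZ, smul_eq_mul, mul_one]
        have hg : 0 < s * a := mul_pos hs.1 ha
        have hZb : Bornology.IsBounded Z :=
          hSb.subset (Set.inter_subset_left.trans Set.inter_subset_left)
        obtain ⟨hi, hle⟩ := setIntegral_ball_le_mul (measurable_exDens hu.lip.continuous e)
          (B := ((L : ℝ) + 1) ^ 2)
          (fun x => (abs_of_nonneg (exDens_nonneg u e x)).trans_le (exDens_le hu.lip he x))
          (exDens_nonneg u e) hZb hZ (Metric.isBounded_ball (x := (0 : Euc d)) (r := 1))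
          (r := 2 * (s * a)) fun y hy z hz => hsub y hy.1.1 z
            (Metric.ball_subset_ball (by nlinarith [hs.2]) hz)
        have hlow : κ * (s * a) ^ d * volume.real Z ≤
            ∫ y in Z, ∫ x in Metric.ball y (2 * (s * a)), exDens u e x := by
          rw [mul_comm, ← smul_eq_mul, ← setIntegral_const]
          refine setIntegral_mono_on (integrableOn_const hZb.measure_lt_top.ne) hi hZ fun y hy => ?_
          refine hgap y (y + s • (a • e)) (s * a) (subset_closure hy.1.2) hg ?_ ?_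
            (le_antisymm (not_lt.1 hy.2) (hu.nonneg _))
          · rw [add_sub_cancel_left, smul_smul, norm_smul, he, mul_one, Real.norm_eq_abs,
              abs_of_pos hg]
          · rw [add_sub_cancel_left, smul_smul, real_inner_smul_right, real_inner_self_eq_norm_sq,
              he]
            linarith
        rw [measureReal_ball_eq _ (by positivity : (0 : ℝ) < 2 * (s * a)), mul_pow] at hle
        have h2 := hlow.trans hle
        refine le_of_mul_le_mul_left ?_ (mul_pos hκ (pow_pos hg d))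
        refine h2.trans (le_of_eq ?_)
        field_simp
        ring
    _ = _ := by simp

/-- The setting of the layer bound. -/
structure IsLayer (L : ℝ≥0) (c : ℝ) (u : Euc d → ℝ) (e : Euc d) (M θ T δ : ℝ) : Prop where
  reg : IsRegMin L c u
  he : ‖e‖ = 1
  hθ : 0 < θ
  hθ8 : θ ≤ 1 / 8
  hT : 0 < T
  hδ : 0 < δ
  hδT : δ ≤ T
  hTθ : T ≤ θ / 16
  hM0 : 0 ≤ M
  hflat : IsFlatIn u 0 e 1 δ
  hM : ∀ y ∈ Metric.ball (0 : Euc d) (4 * θ), 2 * T ≤ ⟪e, y⟫ → ‖∇ u y - e‖ ≤ M

/-- The constant of the affine comparison function. -/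
noncomputable def layerShift (u : Euc d → ℝ) (e : Euc d) (T : ℝ) : ℝ := u ((3 * T) • e) - 3 * T

/-- The slab over the ball of radius `3 θ`. -/
def layerSet (e : Euc d) (θ T : ℝ) : Set (Euc d) :=
  {y | |⟪e, y⟫| ≤ 4 * T} ∩ Metric.ball 0 (3 * θ)

/-- The bound for the squared distance from the affine function in the layer. -/
noncomputable def layerErr (u : Euc d → ℝ) (e : Euc d) (M θ T : ℝ) (y : Euc d) : ℝ :=
  48 * M ^ 2 * θ ^ 2 + 108 * T ^ 2 * (segInt (exDens u e) y ((6 * T) • e) +
    (posSet u).indicator (fun z => segInt ((posSet u)ᶜ.indicator 1) z ((6 * T) • e)) y)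

lemma measurableSet_layerSet (e : Euc d) (θ T : ℝ) : MeasurableSet (layerSet e θ T) :=
  (isClosed_le (continuous_const.inner continuous_id).abs continuous_const).measurableSet.inter
    measurableSet_ball

lemma isBounded_layerSet (e : Euc d) (θ T : ℝ) : Bornology.IsBounded (layerSet e θ T) :=
  Metric.isBounded_ball.subset Set.inter_subset_right

lemma layerErr_nonneg (u : Euc d → ℝ) (e : Euc d) (M θ T : ℝ) (y : Euc d) :
    0 ≤ layerErr u e M θ T y := by
  have h1 : 0 ≤ segInt (exDens u e) y ((6 * T) • e) := segInt_nonneg (exDens_nonneg u e) _ _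
  have h2 : 0 ≤ (posSet u).indicator
      (fun z => segInt ((posSet u)ᶜ.indicator 1) z ((6 * T) • e)) y :=
    Set.indicator_nonneg (fun z _ =>
      segInt_nonneg (fun x => Set.indicator_nonneg (fun _ _ => zero_le_one) x) z _) y
  rw [layerErr]
  positivity

namespace IsLayer

variable {M θ T δ : ℝ}

lemma flat (h : IsLayer L c u e M θ T δ) {x : Euc d} (hx : ‖x‖ < 1) :
    max (⟪e, x⟫ - δ) 0 ≤ u x ∧ u x ≤ max (⟪e, x⟫ + δ) 0 := by
  simpa using h.hflat x (mem_ball_zero_iff.2 hx)

lemma low (h : IsLayer L c u e M θ T δ) {x : Euc d} (hx : ‖x‖ < 1) (hp : x ∈ posSet u) :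
    -T ≤ ⟪e, x⟫ := by
  by_contra hh
  have := (h.flat hx).2
  rw [max_eq_right (by linarith [not_le.1 hh, h.hδT])] at this
  exact absurd hp (not_lt.2 this)

lemma shift_le (h : IsLayer L c u e M θ T δ) : |layerShift u e T| ≤ T := by
  have := h.hT
  have := h.hTθ
  have := h.hθ8
  have := h.hδT
  have := h.hδ
  have hn : ‖(3 * T) • e‖ = 3 * T := by simp [norm_smul, h.he, abs_of_pos h.hT]
  obtain ⟨h1, h2⟩ := h.flat (x := (3 * T) • e) (by linarith)
  have hi : ⟪e, (3 * T) • e⟫ = 3 * T := by simp [real_inner_smul_right, h.he]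
  rw [hi] at h1 h2
  rw [max_eq_left (by linarith)] at h1 h2
  rw [layerShift, abs_le]
  constructor <;> linarith

/-- Above the layer the minimizer is near the affine function. -/
lemma upper (h : IsLayer L c u e M θ T δ) {y : Euc d} (hy : ‖y‖ < 4 * θ)
    (ht : 2 * T ≤ ⟪e, y⟫) :
    |u y - (⟪e, y⟫ + layerShift u e T)| ≤ M * ‖y - (3 * T) • e‖ := by
  have := h.hT
  have := h.hTθ
  have := h.hθ8
  have := h.hδT
  set P : Set (Euc d) := {y | 2 * T ≤ ⟪e, y⟫} ∩ Metric.ball 0 (4 * θ)
  have hPc : Convex ℝ P :=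
    (convex_halfSpace_ge (innerSL ℝ e).toLinearMap.isLinear (2 * T)).inter (convex_ball _ _)
  have hPpos : P ⊆ posSet u := fun z hz => by
    have h1 : (2 * T) ≤ ⟪e, z⟫ := hz.1
    have h2 := (h.flat (x := z) (by linarith [mem_ball_zero_iff.1 hz.2])).1
    show 0 < u z
    linarith [le_max_left (⟪e, z⟫ - δ) 0]
  have hn : ‖(3 * T) • e‖ = 3 * T := by simp [norm_smul, h.he, abs_of_pos h.hT]
  have hi : ⟪e, (3 * T) • e⟫ = 3 * T := by simp [real_inner_smul_right, h.he]
  have hz : (3 * T) • e ∈ P :=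
    ⟨by show 2 * T ≤ _; rw [hi]; linarith, mem_ball_zero_iff.2 (by linarith)⟩
  have h3 := h.reg.abs_affine_sub_le hPc hPpos (fun x hx => h.hM x hx.2 hx.1)
    (show y ∈ P from ⟨ht, mem_ball_zero_iff.2 hy⟩) hz
  rw [hi] at h3
  rwa [layerShift, show u y - (⟪e, y⟫ + (u ((3 * T) • e) - 3 * T)) =
    u y - ⟪e, y⟫ - (u ((3 * T) • e) - 3 * T) by ring]

/-- In the layer the distance from the affine function is paid by the vertical segment. -/
lemma near (h : IsLayer L c u e M θ T δ) {y : Euc d} (hy : y ∈ layerSet e θ T)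
    (hyO : y ∈ posSet u) :
    (u y - (⟪e, y⟫ + layerShift u e T)) ^ 2 ≤ layerErr u e M θ T y := by
  have hT := h.hT
  have := h.hTθ
  have := h.hθ8
  have hy3 := mem_ball_zero_iff.1 hy.2
  have hlow := h.low (x := y) (by linarith) hyO
  set v : Euc d := (6 * T) • e with hv
  set s := layerShift u e T
  have hvn : ‖v‖ = 6 * T := by simp [hv, norm_smul, h.he, abs_of_pos hT]
  have hev : ⟪e, y + v⟫ = ⟪e, y⟫ + 6 * T := by
    simp [hv, inner_add_right, real_inner_smul_right, h.he]
  have hzn : ‖(3 * T) • e‖ = 3 * T := by simp [norm_smul, h.he, abs_of_pos hT]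
  have h1 : |u (y + v) - (⟪e, y + v⟫ + s)| ≤ M * (4 * θ) :=
    (h.upper (by linarith [norm_add_le y v]) (by rw [hev]; linarith)).trans
      (mul_le_mul_of_nonneg_left
        (by linarith [norm_sub_le (y + v) ((3 * T) • e), norm_add_le y v]) h.hM0)
  rw [hev] at h1
  have h2 := h.reg.abs_sub_vertical h.he (6 * T) y
  rw [← hv, abs_of_pos (by positivity : 0 < 6 * T)] at h2
  set A := segInt (exRoot u e) y v with hA
  set J := segInt ((posSet u).indicator 1) y v with hJdef
  have hA0 : 0 ≤ A := segInt_nonneg (exRoot_nonneg u e) y v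
  have hJ : 0 ≤ J ∧ J ≤ 1 := segInt_indicator_mem_Icc h.reg.lip.continuous y v
  have hA2 : A ^ 2 ≤ segInt (exDens u e) y v :=
    segInt_sq_le (measurable_exRoot h.reg.lip.continuous e) (exRoot_bound h.reg.lip h.he) y v
  rw [layerErr, ← hv, Set.indicator_of_mem hyO, ← one_sub_segInt h.reg.lip.continuous y v, ← hJdef]
  obtain ⟨a1, a2⟩ := abs_le.1 h1
  obtain ⟨b1, b2⟩ := abs_le.1 h2
  have h3 : |u y - (⟪e, y⟫ + s)| ≤ M * (4 * θ) + 6 * T * A + 6 * T * (1 - J) := by
    have : 0 ≤ 6 * T * (1 - J) := mul_nonneg (by positivity) (by linarith [hJ.2])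
    rw [abs_le]
    constructor <;> linarith
  rw [← sq_abs]
  refine (pow_le_pow_left₀ (abs_nonneg _) h3 2).trans ?_
  have hJ2 : (1 - J) ^ 2 ≤ 1 - J := by nlinarith
  have k1 := mul_le_mul_of_nonneg_left hA2 (by positivity : 0 ≤ 108 * T ^ 2)
  have k2 := mul_le_mul_of_nonneg_left hJ2 (by positivity : 0 ≤ 108 * T ^ 2)
  nlinarith [sq_nonneg (M * (4 * θ) - 6 * T * A), sq_nonneg (6 * T * A - 6 * T * (1 - J)),
    sq_nonneg (6 * T * (1 - J) - M * (4 * θ))]

lemma cut_eventually_zero (h : IsLayer L c u e M θ T δ) {y : Euc d} (hy : y ∉ layerSet e θ T) :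
    layerCut e θ T =ᶠ[𝓝 y] fun _ => 0 := by
  have := h.hT
  have := h.hTθ
  have hor : 4 * T < |⟪e, y⟫| ∨ 2 * θ < ‖perp e y‖ := by
    by_contra! hh
    refine hy ⟨hh.1, mem_ball_zero_iff.2 ?_⟩
    linarith [norm_le_perp_add h.he y, hh.1, hh.2]
  rcases hor with hh | hh
  · filter_upwards [(continuous_const.inner continuous_id).abs.continuousAt.eventually
      (lt_mem_nhds hh)] with z hz
    exact layerCut_eq_zero h.hθ h.hT (Or.inr (le_of_lt hz))
  · filter_upwards [(contDiff_perp (e := e)).continuous.norm.continuousAt.eventually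
      (lt_mem_nhds hh)] with z hz
    exact layerCut_eq_zero h.hθ h.hT (Or.inl (le_of_lt hz))

/-- The pointwise bound on the right side of the Caccioppoli inequality. -/
lemma pointwise (h : IsLayer L c u e M θ T δ) {K : ℝ} (hK : ∀ r, |deriv cutProfile r| ≤ K)
    (y : Euc d) :
    (3 * |⟪e, y⟫ + layerShift u e T| * exDens u e y
      + 2 * |u y - (⟪e, y⟫ + layerShift u e T)| * exRoot u e y) * ‖∇ (layerCut e θ T) y‖ ≤
      (Metric.ball (0 : Euc d) 1).indicator (fun y => 64 * K * (T / θ) * exDens u e y) y +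
        (layerSet e θ T).indicator
          (fun y => 48 * K * M ^ 2 * (θ / T) + 4 * K / (θ * T) * layerErr u e M θ T y) y := by
  have hT := h.hT
  have hθ := h.hθ
  have := h.hTθ
  have := h.hθ8
  have hK0 : 0 ≤ K := (abs_nonneg _).trans (hK 0)
  have hRnn := add_nonneg
    (Set.indicator_nonneg (s := Metric.ball (0 : Euc d) 1) (fun z _ =>
      mul_nonneg (by positivity : (0 : ℝ) ≤ 64 * K * (T / θ)) (exDens_nonneg u e z)) y)
    (Set.indicator_nonneg (s := layerSet e θ T) (fun z _ =>
      add_nonneg (by positivity : (0 : ℝ) ≤ 48 * K * M ^ 2 * (θ / T)) (mul_nonneg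
        (by positivity : (0 : ℝ) ≤ 4 * K / (θ * T)) (layerErr_nonneg u e M θ T z))) y)
  by_cases hyO : y ∈ posSet u
  swap
  · simpa [exDens, exRoot_of_notMem e hyO] using hRnn
  by_cases hyS : y ∈ layerSet e θ T
  swap
  · rw [(h.cut_eventually_zero hyS).gradient_eq, gradient_fun_const, norm_zero, mul_zero]
    exact hRnn
  have hy3 := mem_ball_zero_iff.1 hyS.2
  rw [Set.indicator_of_mem (mem_ball_zero_iff.2 (by linarith : ‖y‖ < 1)),
    Set.indicator_of_mem hyS]
  have ht : |⟪e, y⟫ + layerShift u e T| ≤ 5 * T := (abs_add_le _ _).trans (by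
    linarith [h.shift_le, show |⟪e, y⟫| ≤ 4 * T from hyS.1])
  obtain ⟨hg1, hg2⟩ := norm_gradient_layerCut_le h.he hK hθ hT y
  have hq : exDens u e y = exRoot u e y ^ 2 := rfl
  set w := |u y - (⟪e, y⟫ + layerShift u e T)| with hw'
  set r := exRoot u e y with hr'
  have hr0 : 0 ≤ r := exRoot_nonneg u e y
  have hw0 : 0 ≤ w := abs_nonneg _
  have he0 := layerErr_nonneg u e M θ T y
  have := h.hM0
  rw [hq]
  by_cases hhi : 2 * T ≤ ⟪e, y⟫
  · have hy4 : ‖y‖ < 4 * θ := by linarith
    have hr : r ≤ M := (exRoot_of_mem e hyO).trans_le (h.hM y (mem_ball_zero_iff.2 hy4) hhi)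
    have hzn : ‖(3 * T) • e‖ = 3 * T := by simp [norm_smul, h.he, abs_of_pos hT]
    have hw : w ≤ M * (4 * θ) := (h.upper hy4 hhi).trans
      (mul_le_mul_of_nonneg_left (by linarith [norm_sub_le y ((3 * T) • e)]) h.hM0)
    have hg : ‖∇ (layerCut e θ T) y‖ ≤ 3 * K / T := hg1.trans (by
      have : 4 * K / θ ≤ K / T := by
        rw [div_le_div_iff₀ hθ hT]; nlinarith
      linarith [show 3 * K / T = K / T + 2 * K / T by ring])
    have hk0 : 0 ≤ 4 * K / (θ * T) * layerErr u e M θ T y := by positivity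
    have ha0 : 0 ≤ 64 * K * (T / θ) * r ^ 2 := by positivity
    have hT16 : 3 * (5 * T) * M ^ 2 + 2 * (M * (4 * θ)) * M ≤ 16 * θ * M ^ 2 := by
      nlinarith [sq_nonneg M]
    calc (3 * |⟪e, y⟫ + layerShift u e T| * r ^ 2 + 2 * w * r) * ‖∇ (layerCut e θ T) y‖
        ≤ (3 * (5 * T) * M ^ 2 + 2 * (M * (4 * θ)) * M) * (3 * K / T) := by gcongr
      _ ≤ (16 * θ * M ^ 2) * (3 * K / T) := mul_le_mul_of_nonneg_right hT16 (by positivity)
      _ = 48 * K * M ^ 2 * (θ / T) := by ring
      _ ≤ _ := by linarith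
  · have hlow := h.low (x := y) (by linarith) hyO
    have hg := hg2 (abs_lt.2 ⟨by linarith, not_le.1 hhi⟩)
    have hn := h.near hyS hyO
    rw [← sq_abs, ← hw'] at hn
    have hb0 : 0 ≤ 48 * K * M ^ 2 * (θ / T) := by positivity
    have hyoung : 2 * w * r ≤ T * r ^ 2 + w ^ 2 / T := by
      rw [← sub_nonneg, show T * r ^ 2 + w ^ 2 / T - 2 * w * r = (T * r - w) ^ 2 / T by
        field_simp; ring]
      positivity
    calc (3 * |⟪e, y⟫ + layerShift u e T| * r ^ 2 + 2 * w * r) * ‖∇ (layerCut e θ T) y‖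
        ≤ (3 * (5 * T) * r ^ 2 + (T * r ^ 2 + w ^ 2 / T)) * (4 * K / θ) := by gcongr
      _ = 64 * K * (T / θ) * r ^ 2 + 4 * K / (θ * T) * w ^ 2 := by field_simp; ring
      _ ≤ 64 * K * (T / θ) * r ^ 2 + 4 * K / (θ * T) * layerErr u e M θ T y := by gcongr
      _ ≤ _ := by linarith

/-- The integral of the squared distance in the layer. -/
lemma err_le (h : IsLayer L c u e M θ T δ) {κ : ℝ} (hκ : 0 < κ)
    (hgap : ∀ (y y' : Euc d) (g : ℝ), y ∈ closure (posSet u) → 0 < g → ‖y' - y‖ ≤ g →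
      g / 4 ≤ ⟪e, y' - y⟫ → u y' = 0 → κ * g ^ d ≤ ∫ x in Metric.ball y (2 * g), exDens u e x) :
    IntegrableOn (layerErr u e M θ T) (layerSet e θ T) ∧
      ∫ y in layerSet e θ T, layerErr u e M θ T y ≤
        48 * M ^ 2 * θ ^ 2 * volume.real (layerSet e θ T) + 108 * T ^ 2 *
          ((1 + 2 ^ d * volume.real (Metric.ball (0 : Euc d) 1) / κ) *
            ∫ x in Metric.ball (0 : Euc d) 1, exDens u e x) := by
  have hT := h.hT
  have := h.hTθ
  have := h.hθ8
  have hSm := measurableSet_layerSet e θ T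
  have hSb := isBounded_layerSet e θ T
  have hfin := isFiniteMeasure_restrict hSb
  obtain ⟨hi2, hl2⟩ := integrableOn_segInt_and_le (measurable_exDens h.reg.lip.continuous e)
    (fun x => (abs_of_nonneg (exDens_nonneg u e x)).trans_le (exDens_le h.reg.lip h.he x))
    (exDens_nonneg u e) hSm hSb measurableSet_ball
    (Metric.isBounded_ball (x := (0 : Euc d)) (r := 1)) 0 ((6 * T) • e) fun z hz t ht => by
      rw [add_zero, mem_ball_zero_iff]
      have := norm_add_le z (t • (6 * T) • e)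
      rw [norm_smul, Real.norm_eq_abs, abs_of_nonneg ht.1, norm_smul, h.he, mul_one,
        Real.norm_eq_abs, abs_of_pos (by positivity : 0 < 6 * T)] at this
      nlinarith [mem_ball_zero_iff.1 hz.2, ht.2]
  simp only [add_zero] at hi2 hl2
  obtain ⟨hi3, hl3⟩ := setIntegral_gap_le h.reg h.he hκ hgap hSm hSb
    (a := 6 * T) (by positivity) fun y hy z hz => by
      rw [mem_ball_zero_iff] at hz ⊢
      linarith [norm_add_le y z, mem_ball_zero_iff.1 hy.2]
  have hi23 := (hi2.fun_add hi3).const_mul (108 * T ^ 2)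
  refine ⟨(integrable_const _).add hi23, ?_⟩
  simp only [layerErr]
  rw [integral_add (integrable_const _) hi23, setIntegral_const, smul_eq_mul,
    mul_comm (volume.real _), integral_const_mul, integral_add hi2 hi3, one_add_mul]
  gcongr

end IsLayer

/-- The excess on the ball of radius `θ` against the cutoff. -/
lemma layer_ball_le {M θ T δ : ℝ} (h : IsLayer L c u e M θ T δ) :
    ∫ y in Metric.ball (0 : Euc d) θ, exDens u e y ≤
      (∫ y, exDens u e y * layerCut e θ T y) +
        M ^ 2 * θ ^ d * volume.real (Metric.ball (0 : Euc d) 1) := by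
  have hu := h.reg
  have he := h.he
  have hθ := h.hθ
  have hT := h.hT
  have := h.hθ8
  have hHint : Integrable fun y => exDens u e y * layerCut e θ T y :=
    integrable_exDens_mul hu.lip he (contDiff_layerCut θ T).continuous
      (hasCompactSupport_layerCut he hθ hT)
  have hp0 : ∀ y, 0 ≤ exDens u e y * layerCut e θ T y := fun y =>
    mul_nonneg (exDens_nonneg u e y) (layerCut_nonneg θ T y)
  have := isFiniteMeasure_restrict (Metric.isBounded_ball (x := (0 : Euc d)) (r := θ))
  calc ∫ y in Metric.ball (0 : Euc d) θ, exDens u e y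
      ≤ ∫ y in Metric.ball (0 : Euc d) θ, (exDens u e y * layerCut e θ T y + M ^ 2) := by
        refine setIntegral_mono_on (integrableOn_exDens hu.lip he Metric.isBounded_ball)
          (hHint.integrableOn.add (integrable_const _)) measurableSet_ball fun y hy => ?_
        rw [mem_ball_zero_iff] at hy
        by_cases hyO : y ∈ posSet u
        swap
        · simp [exDens, exRoot_of_notMem e hyO]
          positivity
        by_cases hhi : 2 * T ≤ ⟪e, y⟫
        · have := pow_le_pow_left₀ (exRoot_nonneg u e y) ((exRoot_of_mem e hyO).trans_le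
            (h.hM y (mem_ball_zero_iff.2 (by linarith)) hhi)) 2
          exact this.trans (le_add_of_nonneg_left (hp0 y))
        · have hlow := h.low (x := y) (by linarith) hyO
          rw [layerCut_eq_one he hθ hT hy.le (abs_le.2 ⟨by linarith, (not_le.1 hhi).le⟩), mul_one]
          exact le_add_of_nonneg_right (sq_nonneg M)
    _ = (∫ y in Metric.ball (0 : Euc d) θ, exDens u e y * layerCut e θ T y) +
          M ^ 2 * θ ^ d * volume.real (Metric.ball (0 : Euc d) 1) := by
        rw [integral_add hHint.integrableOn (integrable_const _), setIntegral_const, smul_eq_mul,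
          measureReal_ball_eq 0 hθ]
        ring
    _ ≤ _ :=
        add_le_add (setIntegral_le_integral hHint (Eventually.of_forall hp0)) le_rfl

/-- The excess on a small ball from the gradient above the layer and the excess on the unit
ball. -/
theorem exists_layer_bound (d : ℕ) (L : ℝ≥0) {c : ℝ} (hc : 0 < c) :
    ∃ C, 0 ≤ C ∧ ∀ (u : Euc d → ℝ) (e : Euc d) (M θ T δ : ℝ), IsRegMin L c u → ‖e‖ = 1 →
      0 < θ → θ ≤ 1 / 8 → 0 < δ → δ ≤ T → T ≤ θ / 16 → 0 ≤ M → IsFlatIn u 0 e 1 δ →
      (∀ y ∈ Metric.ball (0 : Euc d) (4 * θ), 2 * T ≤ ⟪e, y⟫ → ‖∇ u y - e‖ ≤ M) →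
      ∫ x in Metric.ball 0 θ, exDens u e x ≤
        C * (M ^ 2 * θ ^ d + T / θ * ∫ x in Metric.ball 0 1, exDens u e x) := by
  obtain ⟨κ, hκ, hgap⟩ := exists_gap d L hc
  obtain ⟨K, hK0, hK⟩ := exists_deriv_cutProfile_le
  set V := volume.real (Metric.ball (0 : Euc d) 1) with hV
  have hV0 : 0 ≤ V := measureReal_nonneg
  set G := 2 ^ d * V / κ with hG
  have hG0 : 0 ≤ G := by positivity
  set W := 2 ^ d * V * 4 * 3 ^ d with hW
  have hW0 : 0 ≤ W := by positivity
  refine ⟨V + 64 * K + 48 * K * W + 12 * K * (16 * W + 36 + 36 * G), by positivity,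
    fun u e M θ T δ hu he hθ hθ8 hδ hδT hTθ hM0 hflat hM => ?_⟩
  have hT : 0 < T := hδ.trans_le hδT
  have hd : 0 < d := dim_pos_of_norm_one he
  set E := ∫ x in Metric.ball (0 : Euc d) 1, exDens u e x with hE
  have hE0 : 0 ≤ E := setIntegral_nonneg measurableSet_ball fun x _ => exDens_nonneg u e x
  have h : IsLayer L c u e M θ T δ := ⟨hu, he, hθ, hθ8, hT, hδ, hδT, hTθ, hM0, hflat, hM⟩
  set S := layerSet e θ T with hS
  have hSm : MeasurableSet S := measurableSet_layerSet e θ T
  have hSv : volume.real S ≤ W * (T * (θ ^ d / θ)) := by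
    rw [hS, layerSet]
    refine (slab_volume_le he (by positivity) (by positivity)).trans ?_
    rw [← hV, hW]
    obtain ⟨n, rfl⟩ : ∃ n, d = n + 1 := ⟨d - 1, by omega⟩
    rw [Nat.add_sub_cancel, mul_pow, show θ ^ (n + 1) / θ = θ ^ n by
      rw [pow_succ]; field_simp]
    have : (3 : ℝ) ^ n ≤ 3 ^ (n + 1) := pow_le_pow_right₀ (by norm_num) (by omega)
    calc _ = 2 ^ (n + 1) * V * 4 * 3 ^ n * (T * θ ^ n) := by ring
      _ ≤ _ := by gcongr
  obtain ⟨hei, hel⟩ := h.err_le hκ fun y y' g => hgap u e y y' g hu he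
  set H := layerCut e θ T
  set a := 64 * K * (T / θ)
  set b := 48 * K * M ^ 2 * (θ / T)
  set k := 4 * K / (θ * T)
  have := isFiniteMeasure_restrict (isBounded_layerSet e θ T)
  have hqi : IntegrableOn (fun y => a * exDens u e y) (Metric.ball (0 : Euc d) 1) :=
    (integrableOn_exDens hu.lip he Metric.isBounded_ball).const_mul a
  have hei' : IntegrableOn (fun y => k * layerErr u e M θ T y) S := hei.const_mul k
  have hSi : IntegrableOn (fun y => b + k * layerErr u e M θ T y) S :=
    (integrable_const b).add hei'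
  have hRi : Integrable fun y =>
      (Metric.ball (0 : Euc d) 1).indicator (fun y => a * exDens u e y) y +
        S.indicator (fun y => b + k * layerErr u e M θ T y) y :=
    (hqi.integrable_indicator measurableSet_ball).add (hSi.integrable_indicator hSm)
  have hR := integral_mono_of_nonneg (μ := volume) (Eventually.of_forall fun y =>
      mul_nonneg (add_nonneg (mul_nonneg (mul_nonneg zero_le_three (abs_nonneg _))
        (exDens_nonneg u e y)) (mul_nonneg (mul_nonneg zero_le_two (abs_nonneg _))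
          (exRoot_nonneg u e y))) (norm_nonneg _)) hRi
    (Eventually.of_forall fun y => h.pointwise hK y)
  rw [integral_add (hqi.integrable_indicator measurableSet_ball) (hSi.integrable_indicator hSm),
    integral_indicator measurableSet_ball, integral_indicator hSm, integral_const_mul,
    integral_add (integrable_const b) hei', setIntegral_const, smul_eq_mul,
    integral_const_mul] at hR
  have hcac := (hu.caccioppoli he (layerShift u e T) (contDiff_layerCut θ T)
    (hasCompactSupport_layerCut he hθ hT) (layerCut_nonneg θ T)).trans hR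
  have hball := layer_ball_le h
  have hk : 0 ≤ k := by positivity
  have he2 := mul_le_mul_of_nonneg_left hel hk
  have hb0 : 0 ≤ b + k * (48 * M ^ 2 * θ ^ 2) := by positivity
  have hv2 := mul_le_mul_of_nonneg_left hSv hb0
  have q1 : a * E = 64 * K * (T / θ * E) := by simp only [a]; ring
  have q2 : (b + k * (48 * M ^ 2 * θ ^ 2)) * (W * (T * (θ ^ d / θ))) =
      (48 * K * W + 12 * K * (16 * W)) * (M ^ 2 * θ ^ d) := by
    simp only [b, k]; field_simp; ring
  have q3 : k * (108 * T ^ 2 * ((1 + G) * E)) = 12 * K * (36 + 36 * G) * (T / θ * E) := by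
    simp only [k]; field_simp; ring
  rw [← hV, ← hG, ← hE, mul_add k, q3] at he2
  rw [q2] at hv2
  rw [← hV] at hball
  rw [← hE, q1] at hcac
  have p1 : 0 ≤ M ^ 2 * θ ^ d := by positivity
  have p2 : 0 ≤ T / θ * E := by positivity
  have e1 : 0 ≤ (64 * K + 12 * K * (36 + 36 * G)) * (M ^ 2 * θ ^ d) := by positivity
  have e2 : 0 ≤ (V + 48 * K * W + 12 * K * (16 * W)) * (T / θ * E) := by positivity
  linarith

end Vale.Agent.P098
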