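import Vale.Agent.P098.Regularity.Flatness.Interior
import Vale.Agent.P098.Regularity.Flatness.Layer

/-!
P098, block B4: flatness makes the excess small, and a small excess decays.
-/

open MeasureTheory Filter
open scoped Topology ContDiff NNReal RealInnerProductSpace Gradient

namespace Vale.Agent.P098

variable {d : ℕ} {L : ℝ≥0} {c : ℝ} {u : Euc d → ℝ}

/-- Changing the direction. -/
lemma setIntegral_exDens_change (hu : LipschitzWith L u) {e e' : Euc d} (he : ‖e‖ = 1)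
    (he' : ‖e'‖ = 1) {A : Set (Euc d)} (hA : Bornology.IsBounded A) :
    ∫ x in A, exDens u e' x ≤ 2 * (∫ x in A, exDens u e x) + 2 * ‖e' - e‖ ^ 2 * volume.real A := by
  have := isFiniteMeasure_restrict hA
  have h1 := integrableOn_exDens hu he' hA
  have h2 := (integrableOn_exDens hu he hA).const_mul 2
  refine (integral_mono h1 (h2.add (integrable_const (2 * ‖e' - e‖ ^ 2))) fun x => ?_).trans_eq ?_
  · simp only [Pi.add_apply, exDens]
    by_cases hx : x ∈ posSet u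
    · rw [exRoot_of_mem e hx, exRoot_of_mem e' hx]
      have h3 : ‖∇ u x - e'‖ ≤ ‖∇ u x - e‖ + ‖e' - e‖ := by
        rw [norm_sub_rev e' e]
        exact norm_sub_le_norm_sub_add_norm_sub _ _ _
      nlinarith [pow_le_pow_left₀ (norm_nonneg _) h3 2, sq_nonneg (‖∇ u x - e‖ - ‖e' - e‖)]
    · rw [exRoot_of_notMem e hx, exRoot_of_notMem e' hx]
      nlinarith [sq_nonneg ‖e' - e‖]
  · rw [integral_add' h2 (integrable_const _), integral_const_mul, setIntegral_const, smul_eq_mul]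
    ring

lemma setIntegral_exDens_le_const (hu : LipschitzWith L u) {e : Euc d} (he : ‖e‖ = 1)
    {A : Set (Euc d)} (hA : Bornology.IsBounded A) :
    ∫ x in A, exDens u e x ≤ ((L : ℝ) + 1) ^ 2 * volume.real A :=
  (le_abs_self _).trans (norm_setIntegral_le_of_norm_le_const (μ := volume) (f := exDens u e)
    (C := ((L : ℝ) + 1) ^ 2) hA.measure_lt_top fun x _ =>
    (abs_of_nonneg (exDens_nonneg u e x)).trans_le (exDens_le hu he x))

lemma IsFlatIn.change {e e' : Euc d} {δ δ' : ℝ} (h : IsFlatIn u 0 e 1 δ)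
    (hd : δ + ‖e' - e‖ ≤ δ') : IsFlatIn u 0 e' 1 δ' := by
  intro x hx
  obtain ⟨h1, h2⟩ := h x hx
  simp only [sub_zero, mul_one] at h1 h2 ⊢
  have hx1 : ‖x‖ < 1 := mem_ball_zero_iff.1 hx
  have hb := abs_real_inner_le_norm (e' - e) x
  rw [inner_sub_left] at hb
  have hb' : |⟪e', x⟫ - ⟪e, x⟫| ≤ ‖e' - e‖ :=
    hb.trans (mul_le_of_le_one_right (norm_nonneg _) hx1.le)
  obtain ⟨b1, b2⟩ := abs_le.1 hb'
  exact ⟨(max_le_max (by linarith) le_rfl).trans h1, h2.trans (max_le_max (by linarith) le_rfl)⟩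

/-- Flatness makes the excess small. -/
theorem exists_small_excess (d : ℕ) (L : ℝ≥0) {c : ℝ} (hc : 0 < c) {ε : ℝ} (hε : 0 < ε) :
    ∃ δ, 0 < δ ∧ ∀ (u : Euc d → ℝ) (e : Euc d), IsRegMin L c u → ‖e‖ = 1 →
      IsFlatIn u 0 e 1 δ → ∫ x in Metric.ball 0 (1 / 8), exDens u e x ≤ ε := by
  rcases Nat.eq_zero_or_pos d with rfl | hd
  · exact ⟨1, one_pos, fun u e _ he _ => absurd (dim_pos_of_norm_one he) (lt_irrefl 0)⟩
  have : NeZero d := ⟨hd.ne'⟩
  obtain ⟨C, hC, hlayer⟩ := exists_layer_bound d L hc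
  obtain ⟨C₁, hC₁, hgrad⟩ := exists_gradient_bound d
  set V := volume.real (Metric.ball (0 : Euc d) 1)
  set A := C * (8 * (((L : ℝ) + 1) ^ 2 * V)) + 1 with hA
  have hA0 : 0 < A := by positivity
  set T := min (1 / 128) (ε / (2 * A)) with hT
  have hT0 : 0 < T := lt_min (by norm_num) (by positivity)
  have hT1 : T ≤ 1 / 128 := min_le_left _ _
  have hTA : T * A ≤ ε / 2 := by
    have := (le_div_iff₀ (by positivity)).1 (min_le_right (1 / 128) (ε / (2 * A)))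
    rw [← hT] at this
    linarith
  set B := C * C₁ ^ 2 / T ^ 2 + 1 with hB
  have hB0 : 0 < B := by positivity
  set δ := min (T / 2) (min 1 (ε / (2 * B))) with hδ
  have hδ0 : 0 < δ := lt_min (by linarith) (lt_min one_pos (by positivity))
  have hδT : δ ≤ T / 2 := min_le_left _ _
  have hδ1 : δ ≤ 1 := (min_le_right _ _).trans (min_le_left _ _)
  have hδB : δ * B ≤ ε / 2 := by
    have := (le_div_iff₀ (by positivity)).1
      ((min_le_right (T / 2) _).trans (min_le_right 1 (ε / (2 * B))))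
    rw [← hδ] at this
    linarith
  refine ⟨δ, hδ0, fun u e hu he hflat => ?_⟩
  have h := hlayer u e (C₁ * δ / T) (1 / 8) T δ hu he (by norm_num) le_rfl hδ0 (by linarith)
    (by linarith) (by positivity) hflat fun y hy ht => by
      rw [mem_ball_zero_iff] at hy
      have hin : ∀ z ∈ Metric.closedBall y T, ‖z‖ < 1 ∧ δ < ⟪e, z⟫ := fun z hz => by
        rw [Metric.mem_closedBall, dist_eq_norm] at hz
        constructor
        · have := norm_add_le (z - y) y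
          rw [sub_add_cancel] at this
          linarith
        · have h1 := abs_real_inner_le_norm e (z - y)
          rw [he, one_mul, inner_sub_right] at h1
          linarith [neg_abs_le (⟪e, z⟫ - ⟪e, y⟫)]
      refine hgrad L c u e y T δ hu he hT0 (fun z hz => hflat.pos (hin z hz).1 (hin z hz).2)
        fun z hz => ?_
      obtain ⟨z1, z2⟩ := hin z hz
      have hf := hflat z (mem_ball_zero_iff.2 z1)
      simp only [sub_zero, mul_one] at hf
      rw [max_eq_left (by linarith), max_eq_left (by linarith)] at hf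
      exact abs_le.2 ⟨by linarith [hf.1], by linarith [hf.2]⟩
  refine h.trans ?_
  have hE := setIntegral_exDens_le_const hu.lip he (A := Metric.ball (0 : Euc d) 1)
    Metric.isBounded_ball
  have h1 : (1 / 8 : ℝ) ^ d ≤ 1 := pow_le_one₀ (by norm_num) (by norm_num)
  have h2 : (C₁ * δ / T) ^ 2 * (1 / 8 : ℝ) ^ d ≤ C₁ ^ 2 / T ^ 2 * δ := by
    refine (mul_le_of_le_one_right (sq_nonneg _) h1).trans ?_
    rw [div_pow, mul_pow, mul_div_assoc, div_mul_eq_mul_div, mul_div_assoc]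
    exact mul_le_mul_of_nonneg_left (div_le_div_of_nonneg_right
      (by nlinarith : δ ^ 2 ≤ δ) (sq_nonneg T)) (sq_nonneg C₁)
  have h3 : T / (1 / 8) * ∫ x in Metric.ball (0 : Euc d) 1, exDens u e x
      ≤ T / (1 / 8) * (((L : ℝ) + 1) ^ 2 * V) := mul_le_mul_of_nonneg_left hE (by positivity)
  refine (mul_le_mul_of_nonneg_left (add_le_add h2 h3) hC).trans ?_
  have k1 : C * (C₁ ^ 2 / T ^ 2 * δ) ≤ δ * B := by
    rw [hB, mul_add, mul_one, mul_div_assoc]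
    linarith
  have k2 : C * (T / (1 / 8) * (((L : ℝ) + 1) ^ 2 * V)) ≤ T * A := by
    rw [hA, mul_add, mul_one]
    linarith
  linarith

/-- Unit normalisation of `e + a` for `a` orthogonal to `e`. -/
lemma exists_normalize {e a : Euc d} (he : ‖e‖ = 1) (ha : ⟪e, a⟫ = 0) :
    ∃ e' : Euc d, ‖e'‖ = 1 ∧ ‖e + a - e'‖ ≤ ‖a‖ ^ 2 := by
  have hsq : ‖e + a‖ ^ 2 = 1 + ‖a‖ ^ 2 := by
    rw [norm_add_sq_real, ha, he]
    ring
  have h1 : 1 ≤ ‖e + a‖ := by nlinarith [norm_nonneg (e + a), sq_nonneg ‖a‖]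
  have hp : 0 < ‖e + a‖ := by linarith
  refine ⟨‖e + a‖⁻¹ • (e + a), ?_, ?_⟩
  · rw [norm_smul, norm_inv, norm_norm, inv_mul_cancel₀ hp.ne']
  · rw [show e + a - ‖e + a‖⁻¹ • (e + a) = (1 - ‖e + a‖⁻¹) • (e + a) by rw [sub_smul, one_smul],
      norm_smul, Real.norm_eq_abs, abs_of_nonneg (sub_nonneg.2 (inv_le_one_of_one_le₀ h1)),
      sub_mul, one_mul, inv_mul_cancel₀ hp.ne']
    nlinarith

/-- The arithmetic of the gradient bound in the new direction. -/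
lemma gradient_arith {C P θ S S₁ E₁ r y a g n : ℝ} (hC : 0 ≤ C) (hP : 0 < P) (hS₁ : 0 ≤ S₁)
    (hSS : S₁ ≤ S) (hE : E₁ ≤ S * S) (hr : 0 ≤ r) (hθ : 0 ≤ θ) (hyθ : y ≤ 16 * θ)
    (hg : g ≤ C * y * S₁ + C / P * (E₁ + r * S₁)) (ha : a ≤ C ^ 2 * S * S) (hn : n ≤ g + a)
    (hk : C / P * (S + r) + C ^ 2 * S ≤ θ) : n ≤ (16 * C + 1) * θ * S := by
  have hS : 0 ≤ S := hS₁.trans hSS
  have h1 : C * y * S₁ ≤ 16 * C * θ * S := by
    have a1 := mul_le_mul_of_nonneg_right (mul_le_mul_of_nonneg_left hyθ hC) hS₁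
    have a2 := mul_le_mul_of_nonneg_left hSS (by positivity : 0 ≤ C * (16 * θ))
    linarith
  have h2 : C / P * (E₁ + r * S₁) ≤ C / P * ((S + r) * S) := by
    refine mul_le_mul_of_nonneg_left ?_ (div_nonneg hC hP.le)
    linarith [mul_le_mul_of_nonneg_left hSS hr]
  have h3 := mul_le_mul_of_nonneg_right hk hS
  linarith

/-- The change of direction. -/
lemma direction_arith {e a e' : Euc d} {C S : ℝ} (ha : ‖a‖ ≤ C * S)
    (hn : ‖e + a - e'‖ ≤ ‖a‖ ^ 2) (hS1 : S ≤ 1) (hS0 : 0 ≤ S) :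
    ‖e' - e‖ ≤ (C + C ^ 2) * S := by
  rw [show e' - e = a - (e + a - e') by abel]
  refine (norm_sub_le _ _).trans ?_
  have k1 : ‖a‖ ^ 2 ≤ C ^ 2 * S ^ 2 :=
    (pow_le_pow_left₀ (norm_nonneg _) ha 2).trans_eq (by ring)
  have k2 : C ^ 2 * S ^ 2 ≤ C ^ 2 * S :=
    mul_le_mul_of_nonneg_left (pow_le_of_le_one hS0 hS1 two_ne_zero) (sq_nonneg C)
  linarith

/-- The small coefficient. -/
lemma coefficient_arith {C P Q s θ S δ : ℝ} (hC : 0 ≤ C) (hP : 0 < P) (hQ1 : 1 ≤ Q)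
    (hCQ : C / P + C ^ 2 ≤ Q) (hS : 0 ≤ S) (hSs : S ≤ s) (hδ : δ ≤ Q * s ^ 2)
    (hs : Q ^ 2 * s ≤ θ / 4) : C / P * (S + Real.sqrt δ) + C ^ 2 * S ≤ θ := by
  have hs0 : 0 ≤ s := hS.trans hSs
  have hd : Real.sqrt δ ≤ Q * s := by
    refine (Real.sqrt_le_left (by positivity)).2 (hδ.trans ?_)
    rw [mul_pow]
    exact mul_le_mul_of_nonneg_right (le_self_pow₀ hQ1 two_ne_zero) (sq_nonneg s)
  have hCP : C / P ≤ Q := by linarith [sq_nonneg C]
  have b1 : (C / P + C ^ 2) * S ≤ Q * s := mul_le_mul hCQ hSs hS (by linarith)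
  have b2 : C / P * Real.sqrt δ ≤ Q * (Q * s) := mul_le_mul hCP hd (Real.sqrt_nonneg _) (by linarith)
  have b3 : Q * s ≤ Q ^ 2 * s := mul_le_mul_of_nonneg_right (le_self_pow₀ hQ1 two_ne_zero) hs0
  have b4 : Q * (Q * s) = Q ^ 2 * s := by ring
  have b5 : 0 ≤ Q ^ 2 * s := by positivity
  linarith

/-- The arithmetic of the decay. -/
lemma decay_arith {CL C V θ E M J I : ℝ} (hCL : 0 ≤ CL) (hθ : 0 < θ) (hE : 0 ≤ E)
    (hM : M ^ 2 * (4 * θ) ^ d = (16 * C + 1) ^ 2 * 4 ^ d * θ ^ (d + 2) * E)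
    (hJ : J ≤ θ ^ (d + 2) * ((2 + 2 * (C + C ^ 2) ^ 2 * V) * E))
    (hI : I ≤ CL * (M ^ 2 * (4 * θ) ^ d + J))
    (hkey : θ * (CL * ((16 * C + 1) ^ 2 * 4 ^ d + 2 + 2 * (C + C ^ 2) ^ 2 * V)) ≤ 1) :
    I ≤ θ ^ (d + 1) * E := by
  refine hI.trans ?_
  rw [hM]
  refine (mul_le_mul_of_nonneg_left (add_le_add le_rfl hJ) hCL).trans ?_
  have h := mul_le_mul_of_nonneg_right hkey (by positivity : 0 ≤ θ ^ (d + 1) * E)
  refine le_trans (le_of_eq ?_) (h.trans_eq (one_mul _))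
  ring

/-- One step of the decay, for given constants. -/
lemma decay_step {CL C K θ Q s η : ℝ} (hCL : 0 ≤ CL) (hC : 0 ≤ C) (hK : 0 < K) (hθ0 : 0 < θ)
    (hθ64 : θ ≤ 1 / 64)
    (hlayer : ∀ (e : Euc d) (M θ T δ : ℝ), ‖e‖ = 1 →
      0 < θ → θ ≤ 1 / 8 → 0 < δ → δ ≤ T → T ≤ θ / 16 → 0 ≤ M → IsFlatIn u 0 e 1 δ →
      (∀ y ∈ Metric.ball (0 : Euc d) (4 * θ), 2 * T ≤ ⟪e, y⟫ → ‖∇ u y - e‖ ≤ M) →
      ∫ x in Metric.ball 0 θ, exDens u e x ≤
        CL * (M ^ 2 * θ ^ d + T / θ * ∫ x in Metric.ball 0 1, exDens u e x))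
    (hint : ∀ (e : Euc d) (T δ : ℝ), ‖e‖ = 1 → 0 < δ → δ < T → T ≤ 1 / 16 →
      IsFlatIn u 0 e 1 δ → ∃ a : Euc d, ⟪e, a⟫ = 0 ∧
        ‖a‖ ≤ C * Real.sqrt (∫ y in Metric.ball 0 1, exDens u e y) ∧
        ∀ x : Euc d, ‖x‖ ≤ 1 / 4 → 2 * T ≤ ⟪e, x⟫ →
          ‖∇ u x - (e + a)‖ ≤ C * ‖x‖ * Real.sqrt (∫ y in Metric.ball 0 1, exDens u e y)
            + C / T ^ (d + 1) * ((∫ y in Metric.ball 0 1, exDens u e y)
              + Real.sqrt δ * Real.sqrt (∫ y in Metric.ball 0 1, exDens u e y)))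
    (hu : IsRegMin L c u) {T P : ℝ} (hT : T = θ ^ (d + 3)) (hT0 : 0 < T) (hTθ : T ≤ θ / 16)
    (hP : P = (T / 2) ^ (d + 1)) (hP0 : 0 < P) (h1Q : 1 ≤ Q) (hCPQ : C / P + C ^ 2 ≤ Q)
    (hC2Q : C + C ^ 2 ≤ Q) (hKQ : K ≤ Q) (hs0 : 0 < s) (hsT8 : Q ^ 2 * s ≤ T / 8)
    (hsθ4 : Q ^ 2 * s ≤ θ / 4) (hη0 : 0 < η) (hη1 : η ≤ 1) (hηs : η ≤ s) (hηs2 : η ≤ s ^ 2)
    (hkey : θ * (CL * ((16 * C + 1) ^ 2 * 4 ^ d + 2 + 2 * (C + C ^ 2) ^ 2
      * volume.real (Metric.ball (0 : Euc d) 1))) ≤ 1)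
    {e : Euc d} (he : ‖e‖ = 1) (hfl : IsFlatIn u 0 e 1 (K * η))
    (hE : ∫ x in Metric.ball (0 : Euc d) 4, exDens u e x ≤ η ^ (2 * d + 2)) :
    ∃ e' : Euc d, ‖e'‖ = 1 ∧
      ‖e' - e‖ ≤ (C + C ^ 2) * Real.sqrt (∫ x in Metric.ball 0 4, exDens u e x) ∧
      ∫ x in Metric.ball 0 (4 * θ), exDens u e' x
        ≤ θ ^ (d + 1) * ∫ x in Metric.ball 0 4, exDens u e x := by
  have hQ0 : 0 < Q := by linarith
  subst P
  set E := ∫ x in Metric.ball (0 : Euc d) 4, exDens u e x with hEdef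
  set E₁ := ∫ x in Metric.ball (0 : Euc d) 1, exDens u e x with hE1def
  have hE0 : 0 ≤ E := integral_nonneg fun y => exDens_nonneg u e y
  have hE10 : 0 ≤ E₁ := integral_nonneg fun y => exDens_nonneg u e y
  have hE1 : E₁ ≤ E := setIntegral_exDens_mono hu.lip he (Metric.ball_subset_ball (by norm_num))
    Metric.isBounded_ball
  have hEη : E ≤ η ^ 2 := hE.trans (pow_le_pow_of_le_one hη0.le hη1 (by omega))
  set S := Real.sqrt E with hS
  have hS0 : 0 ≤ S := Real.sqrt_nonneg _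
  have hS2 : S ^ 2 = E := Real.sq_sqrt hE0
  have hSη : S ≤ η := by rw [hS, Real.sqrt_le_left hη0.le]; exact hEη
  have hQs : Q * s ≤ Q ^ 2 * s :=
    mul_le_mul_of_nonneg_right (le_self_pow₀ h1Q two_ne_zero) hs0.le
  have hsT : Q * s ≤ T / 8 := hQs.trans hsT8
  have hbound : ∀ {p : ℝ}, p ≤ Q → ∀ {q : ℝ}, 0 ≤ q → q ≤ s → p * q ≤ Q * s := fun hp _ hq hq' =>
    (mul_le_mul_of_nonneg_right hp hq).trans (mul_le_mul_of_nonneg_left hq' hQ0.le)
  set δ := K * η with hδ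
  have hδ0 : 0 < δ := mul_pos hK hη0
  have hδT : δ ≤ T / 8 := (hbound hKQ hη0.le hηs).trans hsT
  obtain ⟨a, hea, han, hgr⟩ := hint e (T / 2) δ he hδ0 (by linarith)
    (by linarith) hfl
  rw [← hE1def] at han hgr
  have hS1 : Real.sqrt E₁ ≤ S := Real.sqrt_le_sqrt hE1
  have haS : ‖a‖ ≤ C * S := han.trans (mul_le_mul_of_nonneg_left hS1 hC)
  obtain ⟨e', he', hnear⟩ := exists_normalize he hea
  have hee : ‖e' - e‖ ≤ (C + C ^ 2) * S :=
    direction_arith haS hnear (hSη.trans hη1) hS0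
  refine ⟨e', he', hee, ?_⟩
  have heeT : ‖e' - e‖ ≤ T / 8 :=
    hee.trans ((hbound hC2Q hS0 (hSη.trans hηs)).trans hsT)
  have hflat' : IsFlatIn u 0 e' 1 (δ + ‖e' - e‖) :=
    hfl.change le_rfl
  set M := (16 * C + 1) * θ * S with hM
  have hgrad : ∀ y ∈ Metric.ball (0 : Euc d) (4 * (4 * θ)), 2 * T ≤ ⟪e', y⟫ →
      ‖∇ u y - e'‖ ≤ M := by
    intro y hy ht
    rw [mem_ball_zero_iff] at hy
    have hy4 : ‖y‖ ≤ 1 / 4 := by linarith
    have ht' : 2 * (T / 2) ≤ ⟪e, y⟫ := by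
      have hb := abs_real_inner_le_norm (e' - e) y
      rw [inner_sub_left] at hb
      have := mul_le_mul_of_nonneg_left (hy4.trans (by norm_num : (1 / 4 : ℝ) ≤ 1)) (norm_nonneg (e' - e))
      linarith [le_abs_self (⟪e', y⟫ - ⟪e, y⟫)]
    have h := hgr y hy4 ht'
    exact gradient_arith hC hP0 (Real.sqrt_nonneg _) hS1
      (by rw [← sq, hS2]; exact hE1) (Real.sqrt_nonneg δ) hθ0.le (by linarith) h
      ((pow_le_pow_left₀ (norm_nonneg _) haS 2).trans_eq (by ring))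
      ((norm_sub_le_norm_sub_add_norm_sub _ _ _).trans (add_le_add le_rfl hnear))
      (coefficient_arith hC hP0 h1Q hCPQ hS0 (hSη.trans hηs)
        (mul_le_mul hKQ hηs2 hη0.le hQ0.le)
        hsθ4)
  have hlay := hlayer e' M (4 * θ) T (δ + ‖e' - e‖) he' (by linarith) (by linarith)
    (add_pos_of_pos_of_nonneg hδ0 (norm_nonneg _)) (by linarith) (by linarith) (by positivity)
    hflat' hgrad
  refine hlay.trans ?_
  clear hgrad hlay hgr
  have hchg := setIntegral_exDens_change hu.lip he he' (A := Metric.ball (0 : Euc d) 1)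
    Metric.isBounded_ball
  rw [← hE1def] at hchg
  have hq : ‖e' - e‖ ^ 2 ≤ (C + C ^ 2) ^ 2 * E := by
    rw [← hS2, ← mul_pow]
    exact pow_le_pow_left₀ (norm_nonneg _) hee 2
  set V := volume.real (Metric.ball (0 : Euc d) 1) with hV
  have hV0 : 0 ≤ V := measureReal_nonneg
  have e1 : M ^ 2 * (4 * θ) ^ d = (16 * C + 1) ^ 2 * 4 ^ d * θ ^ (d + 2) * E := by
    rw [hM, ← hS2, mul_pow, mul_pow, mul_pow, pow_add]
    ring
  have e2 : T / (4 * θ) ≤ θ ^ (d + 2) := by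
    rw [div_le_iff₀ (by positivity), hT, show θ ^ (d + 3) = θ ^ (d + 2) * θ from pow_succ θ (d + 2)]
    exact mul_le_mul_of_nonneg_left (by linarith) (pow_nonneg hθ0.le _)
  have e3 : ∫ x in Metric.ball (0 : Euc d) 1, exDens u e' x
      ≤ (2 + 2 * (C + C ^ 2) ^ 2 * V) * E := by
    have := mul_le_mul_of_nonneg_right hq hV0
    linarith
  have e4 : T / (4 * θ) * ∫ x in Metric.ball (0 : Euc d) 1, exDens u e' x
      ≤ θ ^ (d + 2) * ((2 + 2 * (C + C ^ 2) ^ 2 * V) * E) :=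
    mul_le_mul e2 e3 (integral_nonneg fun y => exDens_nonneg u e' y) (by positivity)
  exact decay_arith hCL hθ0 hE0 e1 e4 le_rfl hkey

/-- A small excess about a free boundary point decays. -/
theorem exists_decay (d : ℕ) (L : ℝ≥0) {c : ℝ} (hc : 0 < c) :
    ∃ θ ε C : ℝ, 0 < θ ∧ θ ≤ 1 / 4 ∧ 0 < ε ∧ 0 ≤ C ∧
      ∀ (u : Euc d → ℝ) (e : Euc d), IsRegMin L c u → ‖e‖ = 1 → u 0 = 0 →
        (0 : Euc d) ∈ closure (posSet u) → ∫ x in Metric.ball 0 4, exDens u e x ≤ ε →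
        ∃ e' : Euc d, ‖e'‖ = 1 ∧
          ‖e' - e‖ ≤ C * Real.sqrt (∫ x in Metric.ball 0 4, exDens u e x) ∧
          ∫ x in Metric.ball 0 (4 * θ), exDens u e' x
            ≤ θ ^ (d + 1) * ∫ x in Metric.ball 0 4, exDens u e x := by
  obtain ⟨CL, hCL, hlayer⟩ := exists_layer_bound d L hc
  obtain ⟨K, hK, hflat⟩ := exists_flat_of_excess d L hc
  obtain ⟨C, hC, hint⟩ := exists_interior_bound d
  set V := volume.real (Metric.ball (0 : Euc d) 1) with hV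
  have hV0 : 0 ≤ V := measureReal_nonneg
  set A := CL * ((16 * C + 1) ^ 2 * 4 ^ d + 2 + 2 * (C + C ^ 2) ^ 2 * V) + 64 with hA
  have hA0 : 0 < A := by positivity
  set θ := 1 / A with hθ
  have hθ0 : 0 < θ := by positivity
  have hθA : θ * A = 1 := one_div_mul_cancel hA0.ne'
  have hθ64 : θ ≤ 1 / 64 := one_div_le_one_div_of_le (by norm_num) (by
    rw [hA]
    exact le_add_of_nonneg_left (by positivity))
  set T := θ ^ (d + 3) with hT
  have hT0 : 0 < T := pow_pos hθ0 _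
  have hTθ : T ≤ θ / 16 := by
    rw [hT, show d + 3 = (d + 2) + 1 by ring, pow_succ]
    have : θ ^ (d + 2) ≤ 1 / 64 := (pow_le_of_le_one hθ0.le (by linarith) (by omega)).trans hθ64
    nlinarith
  set P := (T / 2) ^ (d + 1) with hP
  have hP0 : 0 < P := pow_pos (by linarith) _
  -- all smallness is ensured through `η`
  set Q := C / P + C ^ 2 + C + K + 1 with hQ
  have hQ0 : 0 < Q := by positivity
  set s := min (T / 8) (θ / 4) / Q ^ 2 with hs
  have hs0 : 0 < s := by positivity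
  set η := min (min 1 s) (s ^ 2) with hη
  have hη0 : 0 < η := lt_min (lt_min one_pos hs0) (pow_pos hs0 2)
  have hη1 : η ≤ 1 := (min_le_left _ _).trans (min_le_left _ _)
  have hηs : η ≤ s := (min_le_left _ _).trans (min_le_right _ _)
  have hηs2 : η ≤ s ^ 2 := min_le_right _ _
  have hQQs : Q ^ 2 * s = min (T / 8) (θ / 4) := by rw [hs]; field_simp
  have h1Q : 1 ≤ Q := by rw [hQ]; linarith [sq_nonneg C, div_nonneg hC hP0.le]
  have hkey : θ * (A - 64) ≤ 1 := by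
    rw [mul_sub, hθA]
    linarith
  rw [hA, add_sub_cancel_right] at hkey
  refine ⟨θ, η ^ (2 * d + 2), C + C ^ 2, hθ0, by linarith, pow_pos hη0 _, by positivity,
    fun u e hu he hu0 h0 hE => ?_⟩
  exact decay_step hCL hC hK hθ0 hθ64 (fun e' M θ' T' δ' => hlayer u e' M θ' T' δ' hu)
    (fun e' T' δ' => hint L c u e' T' δ' hu) hu hT hT0 hTθ hP hP0 h1Q
    (by rw [hQ]; linarith) (by rw [hQ]; linarith [div_nonneg hC hP0.le])
    (by rw [hQ]; linarith [sq_nonneg C, div_nonneg hC hP0.le]) hs0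
    (hQQs.trans_le (min_le_left _ _)) (hQQs.trans_le (min_le_right _ _)) hη0 hη1 hηs hηs2 hkey
    he (hflat u e η hu he hu0 h0 hη0 hη1 hE) hE

end Vale.Agent.P098
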