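import Vale.Agent.P098.Regularity.Flatness.Vary

/-!
P098, block B4: the excess `|∇ u - e|²` on the positivity set, its Caccioppoli inequality and
the almost harmonicity of `u - ⟪e, ·⟫`.
-/

open MeasureTheory Filter
open scoped Topology ContDiff NNReal RealInnerProductSpace Gradient

namespace Vale.Agent.P098

variable {d : ℕ} {L : ℝ≥0} {c : ℝ} {u H φ : Euc d → ℝ}

/-- The distance of the gradient from `e` on the positivity set. -/
noncomputable def exRoot (u : Euc d → ℝ) (e : Euc d) : Euc d → ℝ :=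
  (posSet u).indicator fun x => ‖∇ u x - e‖

/-- The excess density. -/
noncomputable def exDens (u : Euc d → ℝ) (e x : Euc d) : ℝ := exRoot u e x ^ 2

lemma exRoot_of_mem (e : Euc d) {x : Euc d} (hx : x ∈ posSet u) :
    exRoot u e x = ‖∇ u x - e‖ := Set.indicator_of_mem hx _

lemma exRoot_of_notMem (e : Euc d) {x : Euc d} (hx : x ∉ posSet u) : exRoot u e x = 0 :=
  Set.indicator_of_notMem hx _

lemma exRoot_nonneg (u : Euc d → ℝ) (e x : Euc d) : 0 ≤ exRoot u e x :=
  Set.indicator_nonneg (fun _ _ => norm_nonneg _) x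

lemma exDens_nonneg (u : Euc d → ℝ) (e x : Euc d) : 0 ≤ exDens u e x := sq_nonneg _

lemma exRoot_le (hu : LipschitzWith L u) {e : Euc d} (he : ‖e‖ = 1) (x : Euc d) :
    exRoot u e x ≤ L + 1 := by
  by_cases hx : x ∈ posSet u
  · rw [exRoot_of_mem e hx]
    exact (norm_sub_le _ _).trans (add_le_add (norm_gradient_le hu x) he.le)
  · rw [exRoot_of_notMem e hx]
    positivity

lemma measurable_exRoot (hu : Continuous u) (e : Euc d) : Measurable (exRoot u e) :=
  ((measurable_gradient u).sub_const e).norm.indicator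
    (isOpen_lt continuous_const hu).measurableSet

lemma measurable_exDens (hu : Continuous u) (e : Euc d) : Measurable (exDens u e) :=
  (measurable_exRoot hu e).pow_const 2

lemma exDens_le (hu : LipschitzWith L u) {e : Euc d} (he : ‖e‖ = 1) (x : Euc d) :
    exDens u e x ≤ ((L : ℝ) + 1) ^ 2 :=
  pow_le_pow_left₀ (exRoot_nonneg u e x) (exRoot_le hu he x) 2

lemma integrable_exRoot_mul (hu : LipschitzWith L u) {e : Euc d} (he : ‖e‖ = 1)
    {g : Euc d → ℝ} (hg : Continuous g) (hgs : HasCompactSupport g) :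
    Integrable fun x => exRoot u e x * g x :=
  integrable_bdd_mul (measurable_exRoot hu.continuous e) hg hgs fun x _ =>
    (abs_of_nonneg (exRoot_nonneg u e x)).trans_le (exRoot_le hu he x)

lemma integrable_exDens_mul (hu : LipschitzWith L u) {e : Euc d} (he : ‖e‖ = 1)
    {g : Euc d → ℝ} (hg : Continuous g) (hgs : HasCompactSupport g) :
    Integrable fun x => exDens u e x * g x :=
  integrable_bdd_mul (measurable_exDens hu.continuous e) hg hgs fun x _ =>
    (abs_of_nonneg (exDens_nonneg u e x)).trans_le (exDens_le hu he x)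

lemma gradient_affine_mul (e : Euc d) (s : ℝ) {x : Euc d} (hH : DifferentiableAt ℝ H x) :
    ∇ (fun y => (⟪e, y⟫ + s) * H y) x = H x • e + (⟪e, x⟫ + s) • ∇ H x := by
  have h : HasFDerivAt (fun y => (⟪e, y⟫ + s) * H y)
      ((⟪e, x⟫ + s) • fderiv ℝ H x + H x • innerSL ℝ e) x :=
    ((innerSL ℝ e).hasFDerivAt.add_const s).mul hH.hasFDerivAt
  refine ext_inner_right ℝ fun y => ?_
  rw [inner_gradient_left, h.fderiv]
  simp [inner_add_left, real_inner_smul_left, inner_gradient_left, add_comm]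

/-- Almost harmonicity: the gradient of `u - ⟪e, ·⟫` is orthogonal to gradients up to the excess. -/
theorem IsRegMin.abs_integral_inner_le (hu : IsRegMin L c u) {e : Euc d} (he : ‖e‖ = 1)
    (hφ : ContDiff ℝ ∞ φ) (hφs : HasCompactSupport φ) :
    |∫ x in posSet u, ⟪∇ u x - e, ∇ φ x⟫| ≤ 3 / 2 * ∫ x, exDens u e x * ‖∇ φ x‖ := by
  have hg : Continuous (∇ φ) := continuous_gradient (hφ.of_le (by simp))
  have hgs : HasCompactSupport (∇ φ) := hasCompactSupport_gradient hφs
  have hN := integrable_exDens_mul hu.lip he hg.norm hgs.norm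
  have h0 := hu.inner_variation_dir e hφ hφs
  obtain ⟨M, hM⟩ := hg.bounded_above_of_compact_support hgs
  have hiA : IntegrableOn (fun x => ⟪∇ u x - e, ∇ φ x⟫) (posSet u) := by
    refine Integrable.integrableOn ?_
    refine Integrable.mono' ((hg.norm.integrable_of_hasCompactSupport hgs.norm).const_mul
      ((L : ℝ) + 1)) (((measurable_gradient u).sub_const e).inner hg.measurable).aestronglyMeasurable
      (Eventually.of_forall fun x => ?_)
    exact (norm_inner_le_norm _ _).trans (mul_le_mul_of_nonneg_right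
      ((norm_sub_le _ _).trans (add_le_add (norm_gradient_le hu.lip x) he.le)) (norm_nonneg _))
  have hiF : IntegrableOn (fun x => ⟪∇ φ x, e⟫ * (‖∇ u x‖ ^ 2 + 1)
      - 2 * ⟪∇ u x, e⟫ * ⟪∇ u x, ∇ φ x⟫) (posSet u) := by
    refine Integrable.integrableOn ?_
    refine Integrable.mono' ((hg.norm.integrable_of_hasCompactSupport hgs.norm).const_mul
      (3 * (L : ℝ) ^ 2 + 1)) ?_ (Eventually.of_forall fun x => ?_)
    · exact (((hg.measurable.inner measurable_const).mul
        (((measurable_gradient u).norm.pow_const 2).add measurable_const)).sub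
        ((measurable_const.mul ((measurable_gradient u).inner measurable_const)).mul
          ((measurable_gradient u).inner hg.measurable))).aestronglyMeasurable
    · have h1 : |⟪∇ φ x, e⟫| ≤ ‖∇ φ x‖ := by
        simpa [he] using abs_real_inner_le_norm (∇ φ x) e
      have h2 : |⟪∇ u x, e⟫| ≤ L :=
        (abs_real_inner_le_norm _ _).trans (by rw [he, mul_one]; exact norm_gradient_le hu.lip x)
      have h3 : |⟪∇ u x, ∇ φ x⟫| ≤ L * ‖∇ φ x‖ := (abs_real_inner_le_norm _ _).trans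
        (mul_le_mul_of_nonneg_right (norm_gradient_le hu.lip x) (norm_nonneg _))
      have h4 := pow_le_pow_left₀ (norm_nonneg _) (norm_gradient_le hu.lip x) 2
      rw [Real.norm_eq_abs]
      refine (abs_sub _ _).trans ?_
      rw [abs_mul, abs_mul, abs_mul, abs_two, abs_of_nonneg (by positivity : (0 : ℝ) ≤ ‖∇ u x‖ ^ 2 + 1)]
      have e1 := mul_le_mul h1 (add_le_add_left h4 1) (by positivity) (norm_nonneg _)
      have e2 := mul_le_mul h2 h3 (abs_nonneg _) L.coe_nonneg
      nlinarith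
  have hpt : ∀ x ∈ posSet u, |2 * ⟪∇ u x - e, ∇ φ x⟫ + (⟪∇ φ x, e⟫ * (‖∇ u x‖ ^ 2 + 1)
      - 2 * ⟪∇ u x, e⟫ * ⟪∇ u x, ∇ φ x⟫)| ≤ 3 * (exDens u e x * ‖∇ φ x‖) := by
    intro x hx
    rw [exDens, exRoot_of_mem e hx]
    set D := ∇ u x - e with hD
    have hp : ∇ u x = e + D := by rw [hD]; abel
    rw [hp]
    simp only [inner_add_left, inner_add_right, norm_add_sq_real, real_inner_self_eq_norm_sq, he,
      real_inner_comm (∇ φ x) e, real_inner_comm e D]
    have hb : |⟪∇ φ x, e⟫| ≤ ‖∇ φ x‖ := by simpa [he] using abs_real_inner_le_norm (∇ φ x) e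
    have hd : |⟪e, D⟫| ≤ ‖D‖ := by simpa [he] using abs_real_inner_le_norm e D
    have hm : |⟪D, ∇ φ x⟫| ≤ ‖D‖ * ‖∇ φ x‖ := abs_real_inner_le_norm _ _
    have k1 := mul_le_mul_of_nonneg_right hb (sq_nonneg ‖D‖)
    have k2 := mul_le_mul hd hm (abs_nonneg _) (norm_nonneg _)
    rw [← abs_mul] at k2
    have k1' : |⟪∇ φ x, e⟫ * ‖D‖ ^ 2| ≤ ‖∇ φ x‖ * ‖D‖ ^ 2 := by
      rwa [abs_mul, abs_of_nonneg (sq_nonneg ‖D‖)]
    calc _ = |⟪∇ φ x, e⟫ * ‖D‖ ^ 2 + (-2) * (⟪e, D⟫ * ⟪D, ∇ φ x⟫)| := by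
          congr 1
          ring
      _ ≤ _ := by
          refine (abs_add_le _ _).trans ?_
          rw [abs_mul (-2 : ℝ), show |(-2 : ℝ)| = 2 by norm_num]
          nlinarith
  have hsum : |∫ x in posSet u, (2 * ⟪∇ u x - e, ∇ φ x⟫ + (⟪∇ φ x, e⟫ * (‖∇ u x‖ ^ 2 + 1)
      - 2 * ⟪∇ u x, e⟫ * ⟪∇ u x, ∇ φ x⟫))| ≤ ∫ x, 3 * (exDens u e x * ‖∇ φ x‖) := by
    refine (abs_integral_le_integral_abs).trans ?_
    refine (setIntegral_mono_on ((hiA.const_mul 2).add hiF).abs (hN.const_mul 3).integrableOn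
      hu.isOpen_posSet.measurableSet hpt).trans ?_
    exact setIntegral_le_integral (hN.const_mul 3) (Eventually.of_forall fun x =>
      mul_nonneg (by norm_num) (mul_nonneg (exDens_nonneg _ _ _) (norm_nonneg _)))
  rw [integral_add (hiA.const_mul 2) hiF, h0, add_zero, integral_const_mul, integral_const_mul,
    abs_mul, abs_two] at hsum
  linarith

/-- The Caccioppoli inequality for the excess. -/
theorem IsRegMin.caccioppoli (hu : IsRegMin L c u) {e : Euc d} (he : ‖e‖ = 1) (s : ℝ)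
    (hH : ContDiff ℝ ∞ H) (hHs : HasCompactSupport H) (hH0 : ∀ x, 0 ≤ H x) :
    ∫ x, exDens u e x * H x ≤ ∫ x, (3 * |⟪e, x⟫ + s| * exDens u e x
      + 2 * |u x - (⟪e, x⟫ + s)| * exRoot u e x) * ‖∇ H x‖ := by
  have hH1 : ContDiff ℝ 1 H := hH.of_le (by simp)
  have ht : Continuous fun x : Euc d => ⟪e, x⟫ + s :=
    (continuous_const.inner continuous_id).add continuous_const
  have hf : ContDiff ℝ ∞ fun x => (⟪e, x⟫ + s) * H x :=
    ((contDiff_const.inner ℝ contDiff_id).add contDiff_const).mul hH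
  have hfs : HasCompactSupport fun x => (⟪e, x⟫ + s) * H x := hHs.mul_left
  have h1 := hu.inner_variation_dir e hf hfs
  have h2 := hu.mul_variation hH hHs
  have h3 := hu.integral_grad_mul e hH hHs
  have hg : Continuous (∇ H) := continuous_gradient hH1
  have hgs : HasCompactSupport (∇ H) := hasCompactSupport_gradient hHs
  have hmu : Measurable u := hu.lip.continuous.measurable
  have hmp := measurable_gradient u
  obtain ⟨R, hR⟩ := hHs.isCompact.isBounded.subset_ball (0 : Euc d)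
  set K := Metric.closedBall (0 : Euc d) R with hK
  have hKc : IsCompact K := isCompact_closedBall _ _
  obtain ⟨Mu, hMu0, hMu⟩ := exists_abs_le_on_compact hu.lip.continuous hKc
  obtain ⟨Mt, hMt0, hMt⟩ := exists_abs_le_on_compact ht hKc
  obtain ⟨Mg, hMg⟩ := hg.bounded_above_of_compact_support hgs
  obtain ⟨MH, hMH⟩ := hH.continuous.bounded_above_of_compact_support hHs
  have hout : ∀ x, x ∉ K → H x = 0 ∧ ∇ H x = 0 := fun x hx => by
    have hx' : x ∉ tsupport H := fun h => hx (Metric.ball_subset_closedBall (hR h))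
    exact ⟨image_eq_zero_of_notMem_tsupport hx', gradient_eq_zero_of_notMem_tsupport hx'⟩
  have hint : ∀ {G : Euc d → ℝ} (M : ℝ), Measurable G → (∀ x, x ∉ K → G x = 0) →
      (∀ x ∈ K, |G x| ≤ M) → Integrable G := fun {G} M hGm hG0 hGM => by
    have hfin : IntegrableOn G K :=
      Measure.integrableOn_of_bounded hKc.measure_lt_top.ne hGm.aestronglyMeasurable
        ((ae_restrict_iff' hKc.measurableSet).2 (Eventually.of_forall hGM))
    exact hfin.integrable_of_forall_notMem_eq_zero hG0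
  have hI1 : IntegrableOn (fun x => ⟪∇ (fun y => (⟪e, y⟫ + s) * H y) x, e⟫ * (‖∇ u x‖ ^ 2 + 1)
      - 2 * ⟪∇ u x, e⟫ * ⟪∇ u x, ∇ (fun y => (⟪e, y⟫ + s) * H y) x⟫) (posSet u) := by
    refine (hint ((MH + Mt * Mg) * ((L : ℝ) ^ 2 + 1) + 2 * L * (L * (MH + Mt * Mg))) ?_
      (fun x hx => ?_) (fun x hx => ?_)).integrableOn
    · exact (((measurable_gradient _).inner measurable_const).mul
        ((hmp.norm.pow_const 2).add measurable_const)).sub
        ((measurable_const.mul (hmp.inner measurable_const)).mul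
          (hmp.inner (measurable_gradient _)))
    · obtain ⟨a, b⟩ := hout x hx
      simp [gradient_affine_mul e s (hH1.differentiable one_ne_zero x), a, b]
    · have hG : ‖∇ (fun y => (⟪e, y⟫ + s) * H y) x‖ ≤ MH + Mt * Mg := by
        rw [gradient_affine_mul e s (hH1.differentiable one_ne_zero x)]
        refine (norm_add_le _ _).trans ?_
        rw [norm_smul, norm_smul, he, mul_one]
        exact add_le_add (hMH x) (mul_le_mul (hMt x hx) (hMg x) (norm_nonneg _) hMt0)
      have k1 := (abs_real_inner_le_norm (∇ (fun y => (⟪e, y⟫ + s) * H y) x) e)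
      rw [he, mul_one] at k1
      have k2 : |⟪∇ u x, e⟫| ≤ L :=
        (abs_real_inner_le_norm _ _).trans (by rw [he, mul_one]; exact norm_gradient_le hu.lip x)
      have k3 : |⟪∇ u x, ∇ (fun y => (⟪e, y⟫ + s) * H y) x⟫| ≤ L * (MH + Mt * Mg) :=
        (abs_real_inner_le_norm _ _).trans
          (mul_le_mul (norm_gradient_le hu.lip x) hG (norm_nonneg _) L.coe_nonneg)
      have k4 := pow_le_pow_left₀ (norm_nonneg _) (norm_gradient_le hu.lip x) 2
      refine (abs_sub _ _).trans ?_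
      rw [abs_mul, abs_mul, abs_mul, abs_two,
        abs_of_nonneg (by positivity : (0 : ℝ) ≤ ‖∇ u x‖ ^ 2 + 1)]
      have e1 := mul_le_mul (k1.trans hG) (add_le_add_left k4 1) (by positivity)
        ((norm_nonneg _).trans hG)
      have e2 := mul_le_mul k2 k3 (abs_nonneg _) L.coe_nonneg
      nlinarith
  have hI2 : IntegrableOn (fun x => H x * ‖∇ u x‖ ^ 2 + u x * ⟪∇ u x, ∇ H x⟫) (posSet u) := by
    refine (hint (MH * (L : ℝ) ^ 2 + Mu * (L * Mg)) ?_ (fun x hx => ?_) (fun x hx => ?_)).integrableOn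
    · exact (hH.continuous.measurable.mul (hmp.norm.pow_const 2)).add
        (hmu.mul (hmp.inner hg.measurable))
    · simp [hout x hx]
    · refine (abs_add_le _ _).trans (add_le_add ?_ ?_)
      · rw [abs_mul, abs_of_nonneg (sq_nonneg ‖∇ u x‖)]
        exact mul_le_mul (hMH x) (pow_le_pow_left₀ (norm_nonneg _) (norm_gradient_le hu.lip x) 2)
          (sq_nonneg _) ((norm_nonneg _).trans (hMH x))
      · rw [abs_mul]
        exact mul_le_mul (hMu x hx) ((abs_real_inner_le_norm _ _).trans (mul_le_mul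
          (norm_gradient_le hu.lip x) (hMg x) (norm_nonneg _) L.coe_nonneg)) (abs_nonneg _) hMu0
  have hI3 : IntegrableOn (fun x => ⟪∇ u x, e⟫ * H x + u x * ⟪∇ H x, e⟫) (posSet u) := by
    refine (hint ((L : ℝ) * MH + Mu * Mg) ?_ (fun x hx => ?_) (fun x hx => ?_)).integrableOn
    · exact ((hmp.inner measurable_const).mul hH.continuous.measurable).add
        (hmu.mul (hg.measurable.inner measurable_const))
    · simp [hout x hx]
    · refine (abs_add_le _ _).trans (add_le_add ?_ ?_)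
      · rw [abs_mul]
        exact mul_le_mul ((abs_real_inner_le_norm _ _).trans
          (by rw [he, mul_one]; exact norm_gradient_le hu.lip x)) (hMH x) (abs_nonneg _) L.coe_nonneg
      · rw [abs_mul]
        exact mul_le_mul (hMu x hx) ((abs_real_inner_le_norm _ _).trans
          (by rw [he, mul_one]; exact hMg x)) (abs_nonneg _) hMu0
  set W : Euc d → ℝ := fun x => (3 * |⟪e, x⟫ + s| * exDens u e x
      + 2 * |u x - (⟪e, x⟫ + s)| * exRoot u e x) * ‖∇ H x‖ with hW
  have hWi : Integrable W := by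
    have a := integrable_exDens_mul hu.lip he ((continuous_const.mul ht.abs).mul hg.norm)
      (g := fun x => 3 * |⟪e, x⟫ + s| * ‖∇ H x‖) hgs.norm.mul_left
    have b := integrable_exRoot_mul hu.lip he
      ((continuous_const.mul (hu.lip.continuous.sub ht).abs).mul hg.norm)
      (g := fun x => 2 * |u x - (⟪e, x⟫ + s)| * ‖∇ H x‖) hgs.norm.mul_left
    refine (a.add b).congr (Eventually.of_forall fun x => ?_)
    simp only [hW, Pi.add_apply]
    ring
  have hqH := integrable_exDens_mul hu.lip he hH.continuous hHs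
  have hpt : ∀ x ∈ posSet u, exDens u e x * H x ≤
      ((⟪∇ (fun y => (⟪e, y⟫ + s) * H y) x, e⟫ * (‖∇ u x‖ ^ 2 + 1)
        - 2 * ⟪∇ u x, e⟫ * ⟪∇ u x, ∇ (fun y => (⟪e, y⟫ + s) * H y) x⟫)
        + 2 * (H x * ‖∇ u x‖ ^ 2 + u x * ⟪∇ u x, ∇ H x⟫)
        + (-2) * (⟪∇ u x, e⟫ * H x + u x * ⟪∇ H x, e⟫)) + W x := by
    intro x hx
    rw [gradient_affine_mul e s (hH1.differentiable one_ne_zero x)]
    simp only [hW, exDens, exRoot_of_mem e hx]
    set t := ⟪e, x⟫ + s with htdef
    set D := ∇ u x - e with hD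
    set N := ‖∇ H x‖ with hN
    have hp : ∇ u x = e + D := by rw [hD]; abel
    rw [hp]
    simp only [inner_add_left, inner_add_right, real_inner_smul_left, real_inner_smul_right,
      norm_add_sq_real, real_inner_self_eq_norm_sq, he, real_inner_comm (∇ H x) e,
      real_inner_comm e D]
    have hb : |⟪∇ H x, e⟫| ≤ N := by simpa [he] using abs_real_inner_le_norm (∇ H x) e
    have hd : |⟪e, D⟫| ≤ ‖D‖ := by simpa [he] using abs_real_inner_le_norm e D
    have hm : |⟪D, ∇ H x⟫| ≤ ‖D‖ * N := abs_real_inner_le_norm _ _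
    have k0 : ⟪e, D⟫ ^ 2 ≤ ‖D‖ ^ 2 := by
      rw [← sq_abs ⟪e, D⟫]
      exact pow_le_pow_left₀ (abs_nonneg _) hd 2
    have k1 : |t * ‖D‖ ^ 2 * ⟪∇ H x, e⟫| ≤ |t| * ‖D‖ ^ 2 * N := by
      rw [abs_mul, abs_mul, abs_of_nonneg (sq_nonneg ‖D‖)]
      exact mul_le_mul_of_nonneg_left hb (by positivity)
    have k2 : |t * (⟪e, D⟫ * ⟪D, ∇ H x⟫)| ≤ |t| * ‖D‖ ^ 2 * N := by
      rw [abs_mul, abs_mul, mul_assoc |t|]
      refine mul_le_mul_of_nonneg_left ?_ (abs_nonneg _)
      exact (mul_le_mul hd hm (abs_nonneg _) (norm_nonneg _)).trans_eq (by ring)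
    have k3 : |(u x - t) * ⟪D, ∇ H x⟫| ≤ |u x - t| * (‖D‖ * N) := by
      rw [abs_mul]
      exact mul_le_mul_of_nonneg_left hm (abs_nonneg _)
    have k4 := mul_nonneg (hH0 x) (sub_nonneg.2 k0)
    obtain ⟨p1, q1⟩ := abs_le.1 k1
    obtain ⟨p2, q2⟩ := abs_le.1 k2
    obtain ⟨p3, q3⟩ := abs_le.1 k3
    nlinarith
  rw [← setIntegral_eq_integral_of_forall_compl_eq_zero (s := posSet u) fun x hx => by
    simp [exDens, exRoot_of_notMem e hx]]
  have hi12 : IntegrableOn (fun x =>
      (⟪∇ (fun y => (⟪e, y⟫ + s) * H y) x, e⟫ * (‖∇ u x‖ ^ 2 + 1)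
        - 2 * ⟪∇ u x, e⟫ * ⟪∇ u x, ∇ (fun y => (⟪e, y⟫ + s) * H y) x⟫)
        + 2 * (H x * ‖∇ u x‖ ^ 2 + u x * ⟪∇ u x, ∇ H x⟫)) (posSet u) :=
    hI1.add (hI2.const_mul 2)
  have hi123 : IntegrableOn (fun x =>
      (⟪∇ (fun y => (⟪e, y⟫ + s) * H y) x, e⟫ * (‖∇ u x‖ ^ 2 + 1)
        - 2 * ⟪∇ u x, e⟫ * ⟪∇ u x, ∇ (fun y => (⟪e, y⟫ + s) * H y) x⟫)
        + 2 * (H x * ‖∇ u x‖ ^ 2 + u x * ⟪∇ u x, ∇ H x⟫)
        + (-2) * (⟪∇ u x, e⟫ * H x + u x * ⟪∇ H x, e⟫)) (posSet u) :=
    hi12.add (hI3.const_mul (-2))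
  refine (setIntegral_mono_on hqH.integrableOn (hi123.add hWi.integrableOn)
    hu.isOpen_posSet.measurableSet hpt).trans ?_
  simp only [Pi.add_apply]
  rw [integral_add hi123 hWi.integrableOn, integral_add hi12 (hI3.const_mul (-2)),
    integral_add hI1 (hI2.const_mul 2), integral_const_mul, integral_const_mul, h1, h2, h3]
  simp only [mul_zero, add_zero, zero_add]
  exact setIntegral_le_integral hWi (Eventually.of_forall fun x =>
    mul_nonneg (add_nonneg (mul_nonneg (mul_nonneg (by norm_num) (abs_nonneg _))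
      (exDens_nonneg _ _ _)) (mul_nonneg (mul_nonneg (by norm_num) (abs_nonneg _))
      (exRoot_nonneg _ _ _))) (norm_nonneg _))

end Vale.Agent.P098
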