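import Vale.Agent.P098.Regularity.Flatness.Basic

/-!
P098, block B4: first order expansion of the transformed energy density.
-/

open MeasureTheory Filter Matrix
open scoped Topology ContDiff

namespace Vale.Agent.P098

variable {d : ℕ}

/-- The first order coefficient of the transformed density. -/
noncomputable def firstOrd (g : Fin d → ℝ) (B : Matrix (Fin d) (Fin d) ℝ) : ℝ :=
  trace B * (g ⬝ᵥ g + 1) - 2 * (g ⬝ᵥ (g ᵥ* B))

/-- The quotient left after the first order. -/
noncomputable def qTail (g : Fin d → ℝ) (B : Matrix (Fin d) (Fin d) ℝ) (t : ℝ) : ℝ :=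
  detRem t B * (g ⬝ᵥ g + 1)
    + (trace B + t * detRem t B) * (-2 * (g ⬝ᵥ (g ᵥ* B)) + t * normTail g B t)
    + normTail g B t

lemma dens_expansion (g : Fin d → ℝ) (B : Matrix (Fin d) (Fin d) ℝ) (t : ℝ)
    (h : det (1 + t • B) ≠ 0) :
    dens g B t = (g ⬝ᵥ g + 1) + t * firstOrd g B + t ^ 2 * qTail g B t := by
  rw [dens, vecMul_inv_expansion g B t h, det_expansion]
  simp only [qTail, firstOrd, normTail, dotProduct_add, add_dotProduct, dotProduct_sub,
    sub_dotProduct, dotProduct_smul, smul_dotProduct, smul_eq_mul,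
    dotProduct_comm (g ᵥ* B) g, dotProduct_comm (invTail g B t) g,
    dotProduct_comm (invTail g B t) (g ᵥ* B)]
  ring

lemma continuousOn_qTail :
    ContinuousOn (fun p : ℝ × (Fin d → ℝ) × Matrix (Fin d) (Fin d) ℝ => qTail p.2.1 p.2.2 p.1)
      {p | det (1 + p.1 • p.2.2) ≠ 0} := by
  intro p hp
  set s := {p : ℝ × (Fin d → ℝ) × Matrix (Fin d) (Fin d) ℝ | det (1 + p.1 • p.2.2) ≠ 0}
  have hinv : ContinuousWithinAt (fun q => (1 + q.1 • q.2.2)⁻¹) s p := by
    refine ContinuousAt.comp_continuousWithinAt (g := Inv.inv) ?_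
      (continuous_const.add (continuous_fst.smul continuous_snd.snd)).continuousWithinAt
    refine continuousAt_matrix_inv _ ?_
    rw [Ring.inverse_eq_inv']
    exact continuousAt_inv₀ hp
  have hg : Continuous fun q : ℝ × (Fin d → ℝ) × Matrix (Fin d) (Fin d) ℝ => q.2.1 :=
    continuous_snd.fst
  have hB : Continuous fun q : ℝ × (Fin d → ℝ) × Matrix (Fin d) (Fin d) ℝ => q.2.2 :=
    continuous_snd.snd
  have hgB := hg.matrix_vecMul hB
  have hI : ContinuousWithinAt (fun q => invTail q.2.1 q.2.2 q.1) s p := by
    unfold invTail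
    exact ((continuous_fst.matrix_vecMul continuous_snd).continuousAt).comp_continuousWithinAt
      (hg.continuousWithinAt.prodMk (((continuous_fst.matrix_mul continuous_snd).continuousAt
        ).comp_continuousWithinAt ((hB.matrix_mul hB).continuousWithinAt.prodMk hinv)))
  have hd : ∀ {a b : ℝ × (Fin d → ℝ) × Matrix (Fin d) (Fin d) ℝ → Fin d → ℝ},
      ContinuousWithinAt a s p → ContinuousWithinAt b s p →
      ContinuousWithinAt (fun q => a q ⬝ᵥ b q) s p := fun ha hb =>
    ((continuous_fst.dotProduct continuous_snd).continuousAt).comp_continuousWithinAt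
      (ha.prodMk hb)
  have ht : ContinuousWithinAt (fun q : ℝ × (Fin d → ℝ) × Matrix (Fin d) (Fin d) ℝ => q.1) s p :=
    continuous_fst.continuousWithinAt
  have hN : ContinuousWithinAt (fun q => normTail q.2.1 q.2.2 q.1) s p := by
    unfold normTail
    exact (((hd hgB.continuousWithinAt hgB.continuousWithinAt).add
      (continuousWithinAt_const.mul (hd hg.continuousWithinAt hI))).sub
      ((continuousWithinAt_const.mul ht).mul (hd hgB.continuousWithinAt hI))).add
      ((ht.pow 2).mul (hd hI hI))
  have hr : ContinuousWithinAt (fun q => detRem q.1 q.2.2) s p :=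
    (continuous_detRem.comp (continuous_fst.prodMk hB)).continuousWithinAt
  have htr : ContinuousWithinAt (fun q => trace q.2.2) s p :=
    hB.matrix_trace.continuousWithinAt
  unfold qTail
  exact ((hr.mul ((hd hg.continuousWithinAt hg.continuousWithinAt).add
    continuousWithinAt_const)).add ((htr.add (ht.mul hr)).mul ((continuousWithinAt_const.mul
      (hd hg.continuousWithinAt hgB.continuousWithinAt)).add (ht.mul hN)))).add hN

end Vale.Agent.P098
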