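import Vale.Agent.P098.Regularity.Flatness.Gap

/-!
P098, block B4: a small excess about a free boundary point gives flatness.
-/

open MeasureTheory Filter
open scoped Topology ContDiff NNReal RealInnerProductSpace Gradient

namespace Vale.Agent.P098

variable {d : ℕ} {L : ℝ≥0} {c : ℝ} {u : Euc d → ℝ}

/-- Both legs of a path from near the origin to near `x` carry little `exRoot`. -/
lemma exists_good_start (hu : IsRegMin L c u) {e : Euc d} (he : ‖e‖ = 1) {η : ℝ} (hη : 0 < η)
    (hη1 : η ≤ 1) (hE : ∫ x in Metric.ball (0 : Euc d) 4, exDens u e x ≤ η ^ (2 * d + 2))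
    {x : Euc d} (hx : ‖x‖ ≤ 2) :
    ∃ z : Euc d, ‖z‖ < η ∧
      segInt (exRoot u e) z (⟪e, x⟫ • e)
        + segInt (exRoot u e) (z + ⟪e, x⟫ • e) (x - ⟪e, x⟫ • e)
      ≤ (volume.real (Metric.ball (0 : Euc d) 4) + 1)
          / volume.real (Metric.ball (0 : Euc d) 1) * η := by
  obtain ⟨-, hpy, -, -⟩ := path_bounds he x
  have hin : ∀ z q : Euc d, z ∈ Metric.ball (0 : Euc d) η → ‖q‖ ≤ ‖x‖ →
      z + q ∈ Metric.ball (0 : Euc d) 4 := fun z q hz hq => by
    rw [mem_ball_zero_iff] at hz ⊢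
    linarith [norm_add_le z q]
  obtain ⟨z, hz, hs⟩ := exists_small_segments hu.lip he (x := (0 : Euc d)) hη
    (A := Metric.ball (0 : Euc d) 4) measurableSet_ball Metric.isBounded_ball
    (⟪e, x⟫ • e) (x - ⟪e, x⟫ • e)
    (fun z hz s hs => hin z _ hz (hpy s hs).1)
    (fun z hz s hs => by rw [add_assoc]; exact hin z _ hz (hpy s hs).2)
  refine ⟨z, mem_ball_zero_iff.1 hz, ?_⟩
  have hY := two_setIntegral_exRoot_le hu.lip he (A := Metric.ball (0 : Euc d) 4)
    Metric.isBounded_ball (pow_pos hη (d + 1))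
  set S := segInt (exRoot u e) z (⟪e, x⟫ • e)
    + segInt (exRoot u e) (z + ⟪e, x⟫ • e) (x - ⟪e, x⟫ • e)
  set V1 := volume.real (Metric.ball (0 : Euc d) 1) with hV1
  set V4 := volume.real (Metric.ball (0 : Euc d) 4) with hV4
  have hV : 0 < V1 := unitBall_pos d
  rw [measureReal_ball_eq _ hη, ← hV1] at hs
  have h2 : (∫ y in Metric.ball (0 : Euc d) 4, exDens u e y) / η ^ (d + 1) ≤ η ^ (d + 1) := by
    rw [div_le_iff₀ (pow_pos hη _), ← pow_add]
    exact hE.trans (le_of_eq (by ring_nf))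
  rw [div_mul_eq_mul_div, le_div_iff₀ hV]
  refine le_of_mul_le_mul_right ?_ (pow_pos hη d)
  have : (V4 + 1) * η * η ^ d = η ^ (d + 1) * V4 + η ^ (d + 1) := by ring
  calc S * V1 * η ^ d = S * (η ^ d * V1) := by ring
    _ ≤ _ := hs
    _ ≤ _ := hY
    _ ≤ (V4 + 1) * η * η ^ d := by linarith

/-- Points above the origin at height a multiple of `η` are positive. -/
lemma pos_of_small_excess {κ : ℝ} (hu : IsRegMin L c u) {e : Euc d} (he : ‖e‖ = 1)
    (hκ : ∀ (y' : Euc d) (g : ℝ), 0 < g → ‖y'‖ ≤ g → g / 4 ≤ ⟪e, y'⟫ → u y' = 0 →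
      κ * g ^ d ≤ ∫ x in Metric.ball (0 : Euc d) (2 * g), exDens u e x)
    {η : ℝ} (hη : 0 < η) (hη1 : η ≤ 1)
    (hE : ∫ x in Metric.ball (0 : Euc d) 4, exDens u e x ≤ η ^ (2 * d + 2))
    {K : ℝ} (hK2 : 2 ≤ K) (hKκ : 1 < κ * (2 * K) ^ d)
    {t : ℝ} (ht : K * η ≤ t) (ht1 : t ≤ 1) {z : Euc d} (hz : ‖z‖ < η) :
    0 < u (z + t • e) := by
  have hκ0 : 0 < κ := by
    by_contra h
    nlinarith [pow_nonneg (by linarith : (0 : ℝ) ≤ 2 * K) d,
      mul_nonpos_of_nonpos_of_nonneg (not_lt.1 h) (pow_nonneg (by linarith : (0 : ℝ) ≤ 2 * K) d)]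
  by_contra hne
  have h0 : u (z + t • e) = 0 := le_antisymm (not_lt.1 hne) (hu.nonneg _)
  have ht0 : 2 * η ≤ t := le_trans (mul_le_mul_of_nonneg_right hK2 hη.le) ht
  have hn : ‖z + t • e‖ ≤ 2 * t := by
    refine (norm_add_le _ _).trans ?_
    rw [norm_smul, he, mul_one, Real.norm_eq_abs, abs_of_nonneg (by linarith : (0 : ℝ) ≤ t)]
    linarith
  have hup : 2 * t / 4 ≤ ⟪e, z + t • e⟫ := by
    rw [inner_add_right, real_inner_smul_right, real_inner_self_eq_norm_sq, he]
    have := neg_abs_le ⟪e, z⟫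
    have h2 := abs_real_inner_le_norm e z
    rw [he, one_mul] at h2
    linarith
  have h := (hκ _ (2 * t) (by linarith) hn hup h0).trans
    (setIntegral_exDens_mono hu.lip he (B := Metric.ball (0 : Euc d) 4)
      (Metric.ball_subset_ball (by linarith)) Metric.isBounded_ball)
  have h1 : κ * (2 * (K * η)) ^ d ≤ κ * (2 * t) ^ d :=
    mul_le_mul_of_nonneg_left (pow_le_pow_left₀ (by positivity) (by linarith) d) hκ0.le
  have h2 : η ^ (2 * d + 2) ≤ η ^ d := pow_le_pow_of_le_one hη.le hη1 (by omega)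
  have h3 : κ * (2 * (K * η)) ^ d = κ * (2 * K) ^ d * η ^ d := by
    rw [← mul_assoc 2, mul_pow, ← mul_assoc]
  nlinarith [mul_lt_mul_of_pos_right hKκ (pow_pos hη d)]

/-- The segment mean of the indicator is near one on a segment positive beyond `σ`. -/
lemma segInt_indicator_ge (hu : Continuous u) (z v : Euc d) {σ : ℝ} (h0 : 0 ≤ σ) (h1 : σ ≤ 1)
    (hpos : ∀ s ∈ Set.Icc σ 1, 0 < u (z + s • v)) :
    1 - σ ≤ segInt ((posSet u).indicator 1) z v := by
  have hi := intervalIntegrable_seg (F := (posSet u).indicator 1)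
    (measurable_one.indicator (isOpen_lt continuous_const hu).measurableSet) (M := 1)
    (fun x => by by_cases hx : x ∈ posSet u <;> simp [hx]) z v
  rw [segInt, ← intervalIntegral.integral_add_adjacent_intervals (hi 0 σ) (hi σ 1)]
  have e : ∫ s in σ..1, (posSet u).indicator (1 : Euc d → ℝ) (z + s • v) = 1 - σ := by
    rw [intervalIntegral.integral_congr (g := fun _ => (1 : ℝ)) fun s hs => ?_]
    · simp
    · rw [Set.uIcc_of_le h1] at hs
      simp [show z + s • v ∈ posSet u from hpos s hs]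
  have : 0 ≤ ∫ s in (0 : ℝ)..σ, (posSet u).indicator (1 : Euc d → ℝ) (z + s • v) :=
    intervalIntegral.integral_nonneg h0 fun s _ => Set.indicator_nonneg (fun _ _ => zero_le_one) _
  linarith

/-- A small excess about a free boundary point gives flatness. -/
theorem exists_flat_of_excess (d : ℕ) (L : ℝ≥0) {c : ℝ} (hc : 0 < c) :
    ∃ K : ℝ, 0 < K ∧ ∀ (u : Euc d → ℝ) (e : Euc d) (η : ℝ), IsRegMin L c u → ‖e‖ = 1 → u 0 = 0 →
      (0 : Euc d) ∈ closure (posSet u) → 0 < η → η ≤ 1 →
      ∫ x in Metric.ball (0 : Euc d) 4, exDens u e x ≤ η ^ (2 * d + 2) →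
        IsFlatIn u 0 e 1 (K * η) := by
  obtain ⟨κ, hκ, hgap⟩ := exists_gap d L hc
  set A := (volume.real (Metric.ball (0 : Euc d) 4) + 1)
    / volume.real (Metric.ball (0 : Euc d) 1) with hA
  have hA0 : 0 < A := div_pos (add_pos_of_nonneg_of_pos measureReal_nonneg one_pos) (unitBall_pos d)
  set K₀ := 2 * (L : ℝ) + 4 * A with hK₀
  set K₁ := max 2 κ⁻¹ with hK₁
  refine ⟨K₀ + K₀ / c + 1 + K₁ + 4 * A + L, by positivity,
    fun u e η hu he hu0 h0 hη hη1 hE => ?_⟩
  have hd := dim_pos_of_norm_one he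
  have hK₁κ : 1 < κ * (2 * K₁) ^ d := by
    have h1 : 1 ≤ κ * K₁ := by
      have := mul_le_mul_of_nonneg_left (le_max_right 2 κ⁻¹) hκ.le
      rwa [mul_inv_cancel₀ hκ.ne'] at this
    have h2 : 2 * K₁ ≤ (2 * K₁) ^ d :=
      le_self_pow₀ (by linarith [le_max_left (2 : ℝ) κ⁻¹]) hd.ne'
    have h3 := mul_le_mul_of_nonneg_left h2 hκ.le
    linarith
  have hnear : ∀ z w : Euc d, ‖z‖ < η → |u (z + w) - u w| ≤ L * η := fun z w hz => by
    refine (abs_sub_le_lip hu.lip _ _).trans (mul_le_mul_of_nonneg_left ?_ L.coe_nonneg)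
    simpa using hz.le
  have hu0' : ∀ z : Euc d, ‖z‖ < η → u z ≤ L * η := fun z hz => by
    have h := (abs_le.1 (hnear z 0 hz)).2
    rwa [add_zero, hu0, sub_zero] at h
  have hpath : ∀ x : Euc d, ‖x‖ ≤ 2 → u x ≤ max ⟪e, x⟫ 0 + K₀ * η ∧
      (0 ≤ ⟪e, x⟫ → ⟪e, x⟫ ≤ 1 → ⟪e, x⟫ - (K₁ + 4 * A + L) * η ≤ u x) := by
    intro x hx
    obtain ⟨hev, -, hvh, hah⟩ := path_bounds he x
    obtain ⟨z, hz, hs⟩ := exists_good_start hu he hη hη1 hE hx
    rw [← hA] at hs
    set a := ⟪e, x⟫ with ha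
    set v := x - a • e with hv
    set s₁ := segInt (exRoot u e) z (a • e) with hs₁
    set s₂ := segInt (exRoot u e) (z + a • e) v with hs₂
    have hs10 : 0 ≤ s₁ := segInt_nonneg (exRoot_nonneg u e) _ _
    have hs20 : 0 ≤ s₂ := segInt_nonneg (exRoot_nonneg u e) _ _
    have e1 := abs_le.1 (hu.abs_sub_vertical he a z)
    have e2 := abs_le.1 (hu.abs_sub_horizontal he hev (z + a • e))
    rw [← hs₁] at e1
    rw [← hs₂, show z + a • e + v = z + x by rw [hv]; abel] at e2
    obtain ⟨hI0, hI1⟩ := segInt_indicator_mem_Icc hu.lip.continuous z (a • e)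
    have e3 := abs_le.1 (hnear z x hz)
    have k1 : |a| * s₁ + ‖v‖ * s₂ ≤ 2 * (A * η) := by
      have := mul_le_mul_of_nonneg_right (hah.trans hx) hs10
      have := mul_le_mul_of_nonneg_right (hvh.trans hx) hs20
      linarith
    refine ⟨?_, fun ha0 ha1 => ?_⟩
    · have : a * segInt ((posSet u).indicator 1) z (a • e) ≤ max a 0 := by
        rcases le_total 0 a with h | h
        · exact (mul_le_of_le_one_right h hI1).trans (le_max_left _ _)
        · exact (mul_nonpos_of_nonpos_of_nonneg h hI0).trans (le_max_right _ _)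
      have := hu0' z hz
      have : 2 * (A * η) ≤ 4 * A * η := by nlinarith
      rw [hK₀]
      linarith
    · have : a - K₁ * η ≤ a * segInt ((posSet u).indicator 1) z (a • e) := by
        rcases le_or_gt a (K₁ * η) with h | h
        · linarith [mul_nonneg ha0 hI0]
        · have hK1η : 0 ≤ K₁ * η := mul_nonneg (le_trans zero_le_two (le_max_left _ _)) hη.le
          have ha' : 0 < a := hK1η.trans_lt h
          have hseg := segInt_indicator_ge hu.lip.continuous z (a • e) (σ := K₁ * η / a)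
            (div_nonneg hK1η ha'.le) ((div_le_one ha').2 h.le) fun s hs => by
              rw [smul_smul]
              refine pos_of_small_excess hu he (fun y' g hg hd' hup hz' => ?_) hη hη1 hE
                (le_max_left _ _) hK₁κ ((div_le_iff₀ ha').1 hs.1) ?_ hz
              · exact hgap u e 0 y' g hu he h0 hg (by simpa using hd') (by simpa using hup) hz'
              · exact (mul_le_of_le_one_left ha0 hs.2).trans ha1
          have := mul_le_mul_of_nonneg_left hseg ha0
          rw [mul_sub, mul_one, mul_div_cancel₀ _ ha'.ne'] at this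
          linarith
      have : 2 * (A * η) ≤ 4 * A * η := by nlinarith
      have := hu.nonneg z
      linarith
  intro x hx
  rw [mem_ball_zero_iff] at hx
  simp only [sub_zero, mul_one]
  set a := ⟪e, x⟫ with ha
  have hax : |a| ≤ ‖x‖ := (path_bounds he x).2.2.2
  obtain ⟨hup, hlow⟩ := hpath x (by linarith)
  rw [← ha] at hup hlow
  have hx0 := hu.nonneg x
  have hK0 : 0 ≤ K₀ * η := by positivity
  refine ⟨max_le ?_ hx0, ?_⟩
  · rcases le_total 0 a with h | h
    · have := hlow h ((le_abs_self a).trans (hax.trans hx.le))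
      have : 0 ≤ (K₀ / c + 1) * η := by positivity
      nlinarith
    · nlinarith [hη, hA0, L.coe_nonneg, le_max_left (2 : ℝ) κ⁻¹, div_nonneg (add_nonneg
        (mul_nonneg zero_le_two L.coe_nonneg) (mul_nonneg (by norm_num : (0 : ℝ) ≤ 4) hA0.le)) hc.le]
  · set r := (K₀ / c + 1) * η with hr
    have hr0 : 0 < r := by positivity
    have hrest : 0 ≤ (K₁ + 4 * A + L) * η := by positivity
    have hsplit : (K₀ + K₀ / c + 1 + K₁ + 4 * A + L) * η
        = K₀ * η + r + (K₁ + 4 * A + L) * η := by rw [hr]; ring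
    rw [hsplit]
    by_cases hlt : a + r < 0
    · refine le_trans ?_ (le_max_right _ _)
      by_contra hne
      push Not at hne
      obtain ⟨y, hy, hval⟩ := hu.nondeg x (subset_closure hne) r hr0
      rw [Metric.mem_closedBall, dist_eq_norm] at hy
      have hr1 : r ≤ 1 := by linarith [neg_abs_le a]
      have hyn : ‖y‖ ≤ 2 := by
        have := norm_add_le (y - x) x
        rw [sub_add_cancel] at this
        linarith
      have hty : ⟪e, y⟫ ≤ 0 := by
        have h1 := abs_real_inner_le_norm e (y - x)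
        rw [he, one_mul, inner_sub_right] at h1
        linarith [le_abs_self (⟪e, y⟫ - ⟪e, x⟫)]
      have h2 := (hpath y hyn).1
      rw [max_eq_right hty, zero_add] at h2
      have : c * r = K₀ * η + c * η := by rw [hr]; field_simp
      nlinarith
    · refine hup.trans (le_trans ?_ (le_max_left _ _))
      rcases le_total a 0 with h | h
      · rw [max_eq_right h]
        linarith
      · rw [max_eq_left h]
        linarith

end Vale.Agent.P098
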