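import Vale.Agent.P098.Regularity.Flatness.Lines

/-!
P098, block B4: small excess excludes zeros above the closure of the positivity set, and gives
flatness about a free boundary point.
-/

open MeasureTheory Filter
open scoped Topology ContDiff NNReal RealInnerProductSpace Gradient

namespace Vale.Agent.P098

variable {d : ℕ} {L : ℝ≥0} {c : ℝ} {u : Euc d → ℝ}

lemma measureReal_ball_eq (x : Euc d) {r : ℝ} (hr : 0 < r) :
    volume.real (Metric.ball x r) = r ^ d * volume.real (Metric.ball (0 : Euc d) 1) := by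
  rw [measureReal_def, Measure.addHaar_ball_of_pos volume x hr, ENNReal.toReal_mul,
    ENNReal.toReal_ofReal (by positivity), finrank_euclideanSpace_fin, measureReal_def]

lemma abs_sub_le_lip (hu : LipschitzWith L u) (x y : Euc d) : |u x - u y| ≤ L * ‖x - y‖ := by
  simpa [Real.dist_eq, dist_eq_norm] using hu.dist_le_mul x y

lemma unitBall_pos (d : ℕ) : 0 < volume.real (Metric.ball (0 : Euc d) 1) :=
  ENNReal.toReal_pos (Metric.measure_ball_pos volume 0 one_pos).ne'
    Metric.isBounded_ball.measure_lt_top.ne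

lemma dim_pos_of_norm_one {e : Euc d} (he : ‖e‖ = 1) : 0 < d := by
  rcases Nat.eq_zero_or_pos d with rfl | h
  · simp [Subsingleton.elim e 0] at he
  · exact h

lemma integrableOn_exDens (hu : LipschitzWith L u) {e : Euc d} (he : ‖e‖ = 1) {A : Set (Euc d)}
    (hA : Bornology.IsBounded A) : IntegrableOn (exDens u e) A :=
  Measure.integrableOn_of_bounded (M := ((L : ℝ) + 1) ^ 2) hA.measure_lt_top.ne
    (measurable_exDens hu.continuous e).aestronglyMeasurable
    (Eventually.of_forall fun x => (abs_of_nonneg (exDens_nonneg u e x)).trans_le (exDens_le hu he x))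

lemma integrableOn_exRoot (hu : LipschitzWith L u) {e : Euc d} (he : ‖e‖ = 1) {A : Set (Euc d)}
    (hA : Bornology.IsBounded A) : IntegrableOn (exRoot u e) A :=
  Measure.integrableOn_of_bounded hA.measure_lt_top.ne
    (measurable_exRoot hu.continuous e).aestronglyMeasurable
    (Eventually.of_forall fun x => exRoot_bound hu he x)

lemma setIntegral_exDens_mono (hu : LipschitzWith L u) {e : Euc d} (he : ‖e‖ = 1)
    {A B : Set (Euc d)} (hAB : A ⊆ B) (hB : Bornology.IsBounded B) :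
    ∫ x in A, exDens u e x ≤ ∫ x in B, exDens u e x :=
  setIntegral_mono_set (integrableOn_exDens hu he hB)
    (Eventually.of_forall fun x => exDens_nonneg u e x) hAB.eventuallyLE

/-- Young's inequality between the `L¹` and `L²` norms of `exRoot`. -/
lemma two_setIntegral_exRoot_le (hu : LipschitzWith L u) {e : Euc d} (he : ‖e‖ = 1)
    {A : Set (Euc d)} (hA : Bornology.IsBounded A) {a : ℝ} (ha : 0 < a) :
    2 * ∫ x in A, exRoot u e x ≤ a * volume.real A + (∫ x in A, exDens u e x) / a := by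
  have := isFiniteMeasure_restrict hA
  have h1 := integrableOn_exRoot hu he hA
  have h2 := integrableOn_exDens hu he hA
  have h3 : ∫ x in A, 2 * exRoot u e x ≤ ∫ x in A, (a + exDens u e x / a) := by
    refine integral_mono (h1.const_mul 2) ((integrable_const a).add (h2.div_const a)) fun x => ?_
    rw [exDens, ← sub_nonneg]
    have : a + exRoot u e x ^ 2 / a - 2 * exRoot u e x = (a - exRoot u e x) ^ 2 / a := by
      field_simp
      ring
    rw [this]
    positivity
  rw [integral_const_mul, integral_add (integrable_const a) (h2.div_const a),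
    setIntegral_const, integral_div, smul_eq_mul, mul_comm (volume.real A)] at h3
  exact h3

/-- The two legs of the path from `0` to `h` through its projection on `e`. -/
lemma path_bounds {e : Euc d} (he : ‖e‖ = 1) (h : Euc d) :
    ⟪e, h - ⟪e, h⟫ • e⟫ = 0 ∧
      (∀ s ∈ Set.Icc (0 : ℝ) 1, ‖s • (⟪e, h⟫ • e)‖ ≤ ‖h‖ ∧
        ‖⟪e, h⟫ • e + s • (h - ⟪e, h⟫ • e)‖ ≤ ‖h‖) ∧
      ‖h - ⟪e, h⟫ • e‖ ≤ ‖h‖ ∧ |⟪e, h⟫| ≤ ‖h‖ := by
  set a := ⟪e, h⟫ with ha
  set v := h - a • e with hv
  have hev : ⟪e, v⟫ = 0 := by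
    rw [hv, inner_sub_right, real_inner_smul_right, real_inner_self_eq_norm_sq, he, ← ha]
    ring
  have hae : ‖a • e‖ = |a| := by rw [norm_smul, he, mul_one, Real.norm_eq_abs]
  have hae0 : ⟪a • e, v⟫ = 0 := by rw [real_inner_smul_left, hev, mul_zero]
  have hsum : ‖h‖ ^ 2 = a ^ 2 + ‖v‖ ^ 2 := by
    rw [show h = a • e + v by rw [hv]; abel, norm_add_sq_real, hae0, hae, sq_abs]
    ring
  have hah : |a| ≤ ‖h‖ := by simpa [he] using abs_real_inner_le_norm e h
  have hsq : ∀ {x : ℝ}, 0 ≤ x → x ^ 2 ≤ ‖h‖ ^ 2 → x ≤ ‖h‖ := fun hx hle =>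
    (pow_le_pow_iff_left₀ hx (norm_nonneg _) two_ne_zero).1 hle
  refine ⟨hev, fun s hs => ⟨?_, hsq (norm_nonneg _) ?_⟩, hsq (norm_nonneg _) ?_, hah⟩
  · rw [norm_smul, hae, Real.norm_eq_abs, abs_of_nonneg hs.1]
    exact (mul_le_of_le_one_left (abs_nonneg a) hs.2).trans hah
  · have e2 : ‖a • e + s • v‖ ^ 2 = a ^ 2 + s ^ 2 * ‖v‖ ^ 2 := by
      rw [norm_add_sq_real, real_inner_smul_right, hae0, hae, norm_smul, mul_pow, sq_abs,
        Real.norm_eq_abs, sq_abs]
      ring
    rw [e2, hsum]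
    nlinarith [pow_le_one₀ hs.1 hs.2 (n := 2), sq_nonneg ‖v‖]
  · rw [hsum]
    nlinarith [sq_nonneg a]

/-- A zero above a point of the closure of the positivity set costs excess. -/
theorem exists_gap (d : ℕ) (L : ℝ≥0) {c : ℝ} (hc : 0 < c) :
    ∃ κ : ℝ, 0 < κ ∧ ∀ (u : Euc d → ℝ) (e y y' : Euc d) (g : ℝ), IsRegMin L c u → ‖e‖ = 1 →
      y ∈ closure (posSet u) → 0 < g → ‖y' - y‖ ≤ g → g / 4 ≤ ⟪e, y' - y⟫ → u y' = 0 →
        κ * g ^ d ≤ ∫ x in Metric.ball y (2 * g), exDens u e x := by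
  set Vb := volume.real (Metric.ball (0 : Euc d) 1) with hVb
  have hVb0 : 0 < Vb := unitBall_pos d
  set k : ℝ := min (1 / 8) (c / (16 * ((L : ℝ) + 1))) with hk
  have hk0 : 0 < k := lt_min (by norm_num) (by positivity)
  have hk8 : k ≤ 1 / 8 := min_le_left _ _
  have hkc : (L : ℝ) * k ≤ c / 16 := by
    have h := (le_div_iff₀ (by positivity)).1 (min_le_right (1 / 8 : ℝ) (c / (16 * ((L : ℝ) + 1))))
    rw [← hk] at h
    nlinarith [L.coe_nonneg]
  set lam : ℝ := c / 10 * k ^ d / 2 ^ (d + 1) with hlam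
  have hlam0 : 0 < lam := by positivity
  refine ⟨lam * (c / 20 * k ^ d * Vb), by positivity, fun u e y y' g hu he hy hg hdist hup hz => ?_⟩
  obtain ⟨y₁, hy₁, hval⟩ := hu.nondeg y hy (g / 4) (by linarith)
  rw [Metric.mem_closedBall, dist_eq_norm] at hy₁
  set h := y' - y₁ with hh
  set a := ⟪e, h⟫ with ha
  have hhn : ‖h‖ ≤ 5 / 4 * g := by
    have : h = (y' - y) - (y₁ - y) := by rw [hh]; abel
    rw [this]
    linarith [norm_sub_le (y' - y) (y₁ - y)]
  have ha0 : 0 ≤ a := by
    have : a = ⟪e, y' - y⟫ - ⟪e, y₁ - y⟫ := by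
      rw [ha, ← inner_sub_right]
      congr 1
      rw [hh]; abel
    have h1 := abs_real_inner_le_norm e (y₁ - y)
    rw [he, one_mul] at h1
    linarith [le_abs_self ⟪e, y₁ - y⟫]
  set v := h - a • e with hv
  obtain ⟨hev, hpy, hvh, hah⟩ := path_bounds he h
  rw [← ha, ← hv] at hev hpy hvh
  rw [← ha] at hah
  set η := k * g with hη
  have hη0 : 0 < η := mul_pos hk0 hg
  have hηg : η ≤ g / 8 := by rw [hη]; nlinarith
  have hin : ∀ (z q : Euc d), z ∈ Metric.ball y₁ η → ‖q‖ ≤ ‖h‖ → z + q ∈ Metric.ball y (2 * g) := by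
    intro z q hz hq
    rw [Metric.mem_ball, dist_eq_norm] at hz ⊢
    rw [show z + q - y = (z - y₁) + (y₁ - y) + q by abel]
    linarith [norm_add₃_le (a := z - y₁) (b := y₁ - y) (c := q)]
  obtain ⟨z, hzb, hsmall⟩ := exists_small_segments hu.lip he (x := y₁) hη0
    (A := Metric.ball y (2 * g)) measurableSet_ball Metric.isBounded_ball (a • e) v
    (fun z hz s hs => hin z _ hz (hpy s hs).1)
    (fun z hz s hs => by rw [add_assoc]; exact hin z _ hz (hpy s hs).2)
  set s₁ := segInt (exRoot u e) z (a • e) with hs₁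
  set s₂ := segInt (exRoot u e) (z + a • e) v with hs₂
  have e1 := abs_le.1 (hu.abs_sub_vertical he a z)
  have e2 := abs_le.1 (hu.abs_sub_horizontal he hev (z + a • e))
  rw [← hs₁, abs_of_nonneg ha0] at e1
  rw [← hs₂] at e2
  have hI := (segInt_indicator_mem_Icc hu.lip.continuous z (a • e)).1
  have hzd : ‖z - y₁‖ < η := by rwa [Metric.mem_ball, dist_eq_norm] at hzb
  have hlow : c * (g / 4) - L * η ≤ u z := by
    have := (abs_le.1 (abs_sub_le_lip hu.lip z y₁)).1
    nlinarith [mul_le_mul_of_nonneg_left hzd.le L.coe_nonneg]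
  have hhigh : u (z + a • e + v) ≤ L * η := by
    have := (abs_le.1 (abs_sub_le_lip hu.lip (z + a • e + v) y')).2
    rw [hz, sub_zero, show z + a • e + v - y' = z - y₁ by rw [hv, hh]; abel] at this
    nlinarith [mul_le_mul_of_nonneg_left hzd.le L.coe_nonneg]
  have hvn : ‖v‖ ≤ 5 / 4 * g := hvh.trans hhn
  have han : a ≤ 5 / 4 * g := ((le_abs_self a).trans hah).trans hhn
  have hs10 : 0 ≤ s₁ := segInt_nonneg (exRoot_nonneg u e) _ _
  have hs20 : 0 ≤ s₂ := segInt_nonneg (exRoot_nonneg u e) _ _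
  have hsum : c / 10 ≤ s₁ + s₂ := by
    have k1 := mul_le_mul_of_nonneg_right han hs10
    have k2 := mul_le_mul_of_nonneg_right hvn hs20
    have k3 := mul_nonneg ha0 hI
    have k4 : (L : ℝ) * η ≤ c / 16 * g := by
      rw [hη, ← mul_assoc]
      exact mul_le_mul_of_nonneg_right hkc hg.le
    have k5 : c * (g / 4) - c / 16 * g - c / 16 * g ≤ 5 / 4 * g * s₁ + 5 / 4 * g * s₂ := by
      linarith [e1.1, e2.1]
    have : 5 / 4 * g * (c / 10) ≤ 5 / 4 * g * (s₁ + s₂) := by linarith
    exact le_of_mul_le_mul_left this (by positivity)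
  rw [measureReal_ball_eq y₁ hη0, ← hVb] at hsmall
  have hY := two_setIntegral_exRoot_le hu.lip he (A := Metric.ball y (2 * g))
    Metric.isBounded_ball hlam0
  rw [measureReal_ball_eq y (by positivity), ← hVb] at hY
  have hbig : c / 10 * (η ^ d * Vb) ≤ lam * ((2 * g) ^ d * Vb)
      + (∫ x in Metric.ball y (2 * g), exDens u e x) / lam :=
    ((mul_le_mul_of_nonneg_right hsum (by positivity)).trans hsmall).trans hY
  have e3 : lam * ((2 * g) ^ d * Vb) = c / 20 * k ^ d * Vb * g ^ d := by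
    rw [hlam, mul_pow, pow_succ]
    field_simp
    ring
  rw [hη, mul_pow, e3] at hbig
  have : c / 20 * k ^ d * Vb * g ^ d ≤ (∫ x in Metric.ball y (2 * g), exDens u e x) / lam := by
    linarith
  rw [le_div_iff₀ hlam0] at this
  linarith

end Vale.Agent.P098
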