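import Vale.Agent.P098.Regularity.Flatness.FromExcess

/-!
P098, block B4: the volume of a slab inside a ball, by averaging over translations along `e`.
-/

open MeasureTheory Filter
open scoped Topology ContDiff NNReal RealInnerProductSpace

namespace Vale.Agent.P098

variable {d : ℕ}

/-- A slab of height `h` in the ball of radius `r` has volume at most `C h r ^ (d - 1)`. -/
theorem slab_volume_le {e : Euc d} (he : ‖e‖ = 1) {h r : ℝ} (hh : 0 ≤ h) (hr : 0 < r) :
    volume.real ({y : Euc d | |⟪e, y⟫| ≤ h} ∩ Metric.ball 0 r)
      ≤ 2 ^ d * volume.real (Metric.ball (0 : Euc d) 1) * h * r ^ (d - 1) := by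
  set A := {y : Euc d | |⟪e, y⟫| ≤ h} ∩ Metric.ball (0 : Euc d) r with hA
  have hAm : MeasurableSet A :=
    (isClosed_le (continuous_const.inner continuous_id).abs continuous_const).measurableSet.inter
      measurableSet_ball
  set B := Metric.ball (0 : Euc d) (2 * r) with hB
  set I := Set.Icc (-r) r with hI
  set F : Euc d → ℝ := A.indicator 1 with hF
  have hFm : Measurable F := measurable_one.indicator hAm
  have hF01 : ∀ x, |F x| ≤ 1 := fun x => by
    by_cases hx : x ∈ A <;> simp [hF, hx]
  have hBfin : IsFiniteMeasure (volume.restrict B) :=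
    ⟨by rw [Measure.restrict_apply_univ]; exact Metric.isBounded_ball.measure_lt_top⟩
  have hIfin : IsFiniteMeasure (volume.restrict I) :=
    ⟨by rw [Measure.restrict_apply_univ]; exact measure_Icc_lt_top⟩
  have hp : Integrable (Function.uncurry fun (z : Euc d) (s : ℝ) => F (z + s • e))
      ((volume.restrict B).prod (volume.restrict I)) :=
    Integrable.of_bound (hFm.comp (measurable_fst.add (measurable_snd.smul_const e))
      ).aestronglyMeasurable 1 (Eventually.of_forall fun p => hF01 _)
  have hin : ∀ z : Euc d, ∫ s in I, F (z + s • e) ≤ 2 * h := fun z => by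
    set J := Set.Icc (-h - ⟪e, z⟫) (h - ⟪e, z⟫) with hJ
    calc ∫ s in I, F (z + s • e) ≤ ∫ s in I, J.indicator (fun _ => (1 : ℝ)) s := by
          refine setIntegral_mono_on ?_ ?_ measurableSet_Icc fun s _ => ?_
          · exact Measure.integrableOn_of_bounded (M := 1) measure_Icc_lt_top.ne
              (hFm.comp (measurable_const.add (measurable_id.smul_const e))).aestronglyMeasurable
              (Eventually.of_forall fun s => hF01 _)
          · exact (integrableOn_const measure_Icc_lt_top.ne).indicator measurableSet_Icc
          · by_cases hs : z + s • e ∈ A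
            · have h1 := abs_le.1 (show |⟪e, z + s • e⟫| ≤ h from hs.1)
              rw [inner_add_right, real_inner_smul_right, real_inner_self_eq_norm_sq, he] at h1
              have hsJ : s ∈ J := ⟨by linarith [h1.1], by linarith [h1.2]⟩
              simp [hF, hs, hsJ]
            · rw [hF, Set.indicator_of_notMem hs]
              exact Set.indicator_nonneg (fun _ _ => zero_le_one) _
      _ ≤ ∫ s, J.indicator (fun _ => (1 : ℝ)) s :=
          setIntegral_le_integral ((integrableOn_const measure_Icc_lt_top.ne).integrable_indicator
            measurableSet_Icc) (Eventually.of_forall fun s =>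
              Set.indicator_nonneg (fun _ _ => zero_le_one) _)
      _ = 2 * h := by
          rw [integral_indicator_const _ measurableSet_Icc, Real.volume_real_Icc_of_le (by linarith),
            smul_eq_mul, mul_one]
          ring
  have hout : ∀ s ∈ I, volume.real A ≤ ∫ z in B, F (z + s • e) := fun s hs => by
    rw [setIntegral_eq_integral_of_forall_compl_eq_zero fun z hz => ?_,
      integral_add_right_eq_self F (s • e), hF, integral_indicator_one hAm]
    refine Set.indicator_of_notMem (fun hzA => hz ?_) _
    rw [hB, mem_ball_zero_iff]
    have h1 : ‖z + s • e‖ < r := mem_ball_zero_iff.1 hzA.2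
    have h2 := norm_sub_le (z + s • e) (s • e)
    rw [add_sub_cancel_right, norm_smul, he, mul_one, Real.norm_eq_abs] at h2
    linarith [abs_le.2 hs]
  have key : 2 * r * volume.real A ≤ (2 * r) ^ d * volume.real (Metric.ball (0 : Euc d) 1) * (2 * h) := by
    calc 2 * r * volume.real A = ∫ _s in I, volume.real A := by
          rw [setIntegral_const, Real.volume_real_Icc_of_le (by linarith), smul_eq_mul]
          ring
      _ ≤ ∫ s in I, ∫ z in B, F (z + s • e) :=
          setIntegral_mono_on (integrable_const _) hp.integral_prod_right measurableSet_Icc hout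
      _ = ∫ z in B, ∫ s in I, F (z + s • e) := (integral_integral_swap hp).symm
      _ ≤ ∫ _z in B, 2 * h :=
          integral_mono hp.integral_prod_left (integrable_const _) hin
      _ = _ := by
          rw [setIntegral_const, smul_eq_mul, hB, measureReal_ball_eq 0 (by linarith)]
  refine le_of_mul_le_mul_left (key.trans (le_of_eq ?_)) (by linarith : 0 < 2 * r)
  obtain ⟨n, rfl⟩ : ∃ n, d = n + 1 := ⟨d - 1, by have := dim_pos_of_norm_one he; omega⟩
  simp only [Nat.add_sub_cancel, mul_pow, pow_succ]
  ring

end Vale.Agent.P098
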