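import Vale.Agent.P098.Regularity.Flatness.Parts
import Vale.Agent.P098.Regularity.Flatness.Slab

/-!
P098, block B4: horizontal derivatives of a function vanishing on the hyperplane, integrated over
the positivity set of a flat minimizer.
-/

open MeasureTheory Filter
open scoped Topology ContDiff NNReal RealInnerProductSpace Gradient

namespace Vale.Agent.P098

variable {d : ℕ} {L : ℝ≥0} {c : ℝ} {u f : Euc d → ℝ}

lemma IsFlatIn.pos {e : Euc d} {δ : ℝ} (h : IsFlatIn u 0 e 1 δ) {y : Euc d} (hy : ‖y‖ < 1)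
    (ht : δ < ⟪e, y⟫) : y ∈ posSet u := by
  have h1 := (h y (by simpa using hy)).1
  simp only [sub_zero, mul_one, max_le_iff] at h1
  show 0 < u y
  linarith [h1.1]

lemma IsFlatIn.eq_zero (hn : ∀ x, 0 ≤ u x) {e : Euc d} {δ : ℝ} (h : IsFlatIn u 0 e 1 δ)
    {y : Euc d} (hy : ‖y‖ < 1) (ht : ⟪e, y⟫ ≤ -δ) : u y = 0 := by
  have h1 := (h y (by simpa using hy)).2
  simp only [sub_zero, mul_one] at h1
  exact le_antisymm (h1.trans (max_le (by linarith) le_rfl)) (hn y)

lemma IsFlatIn.above (hn : ∀ x, 0 ≤ u x) {e : Euc d} {δ : ℝ} (h : IsFlatIn u 0 e 1 δ)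
    {y : Euc d} (hy : ‖y‖ < 1) (hpos : y ∈ posSet u) : -δ < ⟪e, y⟫ := by
  by_contra hle
  have : 0 < u y := hpos
  rw [h.eq_zero hn hy (not_lt.1 hle)] at this
  exact lt_irrefl 0 this

/-- The Cauchy–Schwarz inequality for `exRoot`. -/
lemma setIntegral_exRoot_le_sqrt (hu : LipschitzWith L u) {e : Euc d} (he : ‖e‖ = 1)
    {A : Set (Euc d)} (hA : Bornology.IsBounded A) :
    ∫ x in A, exRoot u e x ≤ Real.sqrt (volume.real A) * Real.sqrt (∫ x in A, exDens u e x) := by
  set I := ∫ x in A, exRoot u e x with hI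
  set V := volume.real A with hV
  set E := ∫ x in A, exDens u e x with hE
  have hI0 : 0 ≤ I := integral_nonneg fun x => exRoot_nonneg u e x
  have hV0 : 0 ≤ V := measureReal_nonneg
  have hE0 : 0 ≤ E := integral_nonneg fun x => exDens_nonneg u e x
  rw [← Real.sqrt_mul hV0]
  refine Real.le_sqrt_of_sq_le ?_
  by_contra hc
  push Not at hc
  have hIpos : 0 < I := hI0.lt_of_ne fun h => by
    rw [← h] at hc
    nlinarith [mul_nonneg hV0 hE0]
  rcases hV0.eq_or_lt with h | h
  · have := two_setIntegral_exRoot_le hu he hA (a := (E + 1) / I) (by positivity)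
    rw [← hI, ← hV, ← hE, ← h, mul_zero, zero_add, div_div_eq_mul_div, le_div_iff₀ (by positivity)]
      at this
    nlinarith
  · have := two_setIntegral_exRoot_le hu he hA (a := I / V) (by positivity)
    rw [← hI, ← hV, ← hE, div_mul_cancel₀ _ h.ne', div_div_eq_mul_div] at this
    have h2 : I * I ≤ E * V := by
      have h3 : I ≤ E * V / I := by linarith
      rwa [le_div_iff₀ hIpos] at h3
    nlinarith

lemma abs_le_of_eq_zero_on_plane (hf : ContDiff ℝ 1 f) {e : Euc d} (he : ‖e‖ = 1)
    (h0 : ∀ y, ⟪e, y⟫ = 0 → f y = 0) {M : ℝ} (hM : ∀ y, ‖∇ f y‖ ≤ M) (y : Euc d) :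
    |f y| ≤ M * |⟪e, y⟫| := by
  have hp : ⟪e, y - ⟪e, y⟫ • e⟫ = 0 := (path_bounds he y).1
  have h := Convex.norm_image_sub_le_of_norm_fderiv_le (𝕜 := ℝ) (f := f) (C := M)
    (fun z _ => hf.differentiable one_ne_zero z)
    (fun z _ => (norm_gradient_eq f z).symm.trans_le (hM z)) convex_univ
    (Set.mem_univ (y - ⟪e, y⟫ • e)) (Set.mem_univ y)
  rw [h0 _ hp, sub_zero, sub_sub_cancel, norm_smul, he, mul_one] at h
  simpa using h

lemma integral_dirD_eq_zero (hf : ContDiff ℝ ∞ f) (hs : HasCompactSupport f) (v : Euc d) :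
    ∫ y, dirD v f y = 0 := by
  have hf1 : ContDiff ℝ 1 f := hf.of_le (by simp)
  rw [dirD_eq_sum, integral_finsetSum _ fun i _ => ((continuous_pd hf1 i
    ).integrable_of_hasCompactSupport (hasCompactSupport_pd hs i)).const_mul _]
  exact Finset.sum_eq_zero fun i _ => by
    rw [integral_const_mul, integral_pd_eq_zero hf1 hs i, mul_zero]

/-- The cutoff that vanishes below height `δ` and is one above `2 δ`. -/
noncomputable def upCut (e : Euc d) (δ : ℝ) (y : Euc d) : ℝ :=
  Real.smoothTransition (⟪e, y⟫ / δ - 1)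

lemma contDiff_upCut (e : Euc d) (δ : ℝ) : ContDiff ℝ ∞ (upCut e δ) :=
  Real.smoothTransition.contDiff.comp
    (((contDiff_const.inner ℝ contDiff_id).div_const δ).sub contDiff_const)

lemma gradient_one_sub_upCut_mul (e : Euc d) (δ : ℝ) (hf : ContDiff ℝ 1 f) (y : Euc d) :
    ∇ (fun z => (1 - upCut e δ z) * f z) y
      = (1 - upCut e δ y) • ∇ f y
        - (f y * (deriv Real.smoothTransition (⟪e, y⟫ / δ - 1) * δ⁻¹)) • e := by
  have h1 : HasFDerivAt (fun z : Euc d => ⟪e, z⟫ / δ - 1) (δ⁻¹ • innerSL ℝ e) y := by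
    have := ((innerSL ℝ e).hasFDerivAt (x := y)).mul_const δ⁻¹
    simpa [div_eq_mul_inv] using this.sub_const 1
  have h2 := ((Real.smoothTransition.contDiff (n := 1)).differentiable one_ne_zero
    (⟪e, y⟫ / δ - 1)).hasDerivAt.comp_hasFDerivAt y h1
  have h3 : HasFDerivAt (fun z => (1 - upCut e δ z) * f z) _ y :=
    (h2.const_sub 1).mul (hf.differentiable one_ne_zero y).hasFDerivAt
  refine ext_inner_right ℝ fun w => ?_
  rw [inner_gradient_left, h3.fderiv]
  simp [inner_sub_left, real_inner_smul_left, inner_gradient_left, upCut]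
  ring

/-- A horizontal derivative of a function vanishing on the plane integrates to a slab of excess. -/
theorem exists_horizontal_bound (d : ℕ) :
    ∃ C : ℝ, 0 ≤ C ∧ ∀ (L : ℝ≥0) (c : ℝ) (u f : Euc d → ℝ) (e v : Euc d) (δ M : ℝ),
      IsRegMin L c u → ‖e‖ = 1 → ⟪e, v⟫ = 0 → 0 < δ → IsFlatIn u 0 e 1 δ →
      ContDiff ℝ ∞ f → tsupport f ⊆ Metric.closedBall 0 (3 / 4) →
      (∀ y, ⟪e, y⟫ = 0 → f y = 0) → (∀ y, ‖∇ f y‖ ≤ M) →
      |∫ y in posSet u, dirD v f y|
        ≤ C * M * ‖v‖ * Real.sqrt δ * Real.sqrt (∫ y in Metric.ball 0 1, exDens u e y) := by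
  obtain ⟨D, hD⟩ := deriv_smoothTransition_mul_bound
  obtain ⟨D1, hD1⟩ : ∃ D1, ∀ t : ℝ, |deriv Real.smoothTransition t| ≤ D1 := by
    refine ⟨max D 0, fun t => ?_⟩
    rcases lt_or_ge t 0 with h | h
    · have : Real.smoothTransition =ᶠ[𝓝 t] fun _ => 0 := by
        filter_upwards [gt_mem_nhds h] with s hs
        exact Real.smoothTransition.zero_of_nonpos hs.le
      simp [this.deriv_eq]
    · refine le_max_of_le_left (le_trans ?_ (hD t))
      refine le_mul_of_one_le_right (abs_nonneg _) ?_
      rw [abs_of_nonneg (by linarith)]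
      linarith
  have hD10 : 0 ≤ D1 := (abs_nonneg _).trans (hD1 0)
  set V := volume.real (Metric.ball (0 : Euc d) 1) with hV
  have hV0 : 0 ≤ V := measureReal_nonneg
  refine ⟨2 * (1 + 2 * D1) * Real.sqrt (2 ^ d * V * 2), by positivity,
    fun L c u f e v δ M hu he hv hδ hflat hf hsupp h0 hM => ?_⟩
  have hM0 : 0 ≤ M := (norm_nonneg _).trans (hM 0)
  have hf1 : ContDiff ℝ 1 f := hf.of_le (by simp)
  have hfs : HasCompactSupport f :=
    (isCompact_closedBall (0 : Euc d) (3 / 4)).of_isClosed_subset (isClosed_tsupport _) hsupp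
  set η := upCut e δ with hη
  set F : Euc d → ℝ := fun y => (1 - η y) * f y with hF
  set G : Euc d → ℝ := fun y => η y * f y with hG
  have hFc : ContDiff ℝ ∞ F := (contDiff_const.sub (contDiff_upCut e δ)).mul hf
  have hGc : ContDiff ℝ ∞ G := (contDiff_upCut e δ).mul hf
  have hFs : HasCompactSupport F := hfs.mul_left
  have hGs : HasCompactSupport G := hfs.mul_left
  have hout : ∀ y, ¬‖y‖ < 1 → f y = 0 ∧ ∇ f y = 0 := fun y hy => by
    have h' : y ∉ tsupport f := fun h => hy (by
      have := mem_closedBall_zero_iff.1 (hsupp h)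
      linarith)
    exact ⟨image_eq_zero_of_notMem_tsupport h', gradient_eq_zero_of_notMem_tsupport h'⟩
  have hvF : ∀ y, dirD v F y = (1 - η y) * dirD v f y := fun y => by
    rw [dirD, gradient_one_sub_upCut_mul e δ hf1, inner_sub_left, real_inner_smul_left,
      real_inner_smul_left, hv, mul_zero, sub_zero]
    rfl
  have hvG : ∀ y, dirD v G y = η y * dirD v f y := fun y => by
    have : ∇ G y = ∇ f y - ∇ F y := by
      refine ext_inner_right ℝ fun w => ?_
      rw [inner_sub_left, inner_gradient_left, inner_gradient_left, inner_gradient_left]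
      have h : fderiv ℝ (fun z => f z - F z) y = fderiv ℝ f y - fderiv ℝ F y :=
        fderiv_fun_sub (hf1.differentiable one_ne_zero y) (hFc.differentiable (by simp) y)
      rw [show G = fun z => f z - F z from funext fun z => by simp [hG, hF]; ring, h]
      rfl
    rw [dirD, this, inner_sub_left, ← dirD, ← dirD, hvF]
    ring
  have hGz : ∫ y in posSet u, dirD v G y = 0 := by
    rw [setIntegral_eq_integral_of_forall_compl_eq_zero fun y hy => ?_,
      integral_dirD_eq_zero hGc hGs v]
    rw [hvG]
    by_cases hy1 : ‖y‖ < 1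
    · have ht : ⟪e, y⟫ ≤ δ := not_lt.1 fun h => hy (hflat.pos hy1 h)
      have hz : η y = 0 := Real.smoothTransition.zero_of_nonpos (by
        rw [sub_nonpos, div_le_one hδ]; exact ht)
      rw [hz, zero_mul]
    · simp [dirD, (hout y hy1).2]
  have hFi : ∀ (w : Euc d), Integrable (dirD w F) := fun w =>
    (contDiff_dirD hFc w).continuous.integrable_of_hasCompactSupport (hasCompactSupport_dirD hFs w)
  have hGi : Integrable (dirD v G) :=
    (contDiff_dirD hGc v).continuous.integrable_of_hasCompactSupport (hasCompactSupport_dirD hGs v)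
  have hsplit : ∫ y in posSet u, dirD v f y = ∫ y in posSet u, dirD v F y := by
    rw [show (fun y => dirD v f y) = fun y => dirD v F y + dirD v G y from
      funext fun y => by rw [hvF, hvG]; ring,
      integral_add (hFi v).integrableOn hGi.integrableOn, hGz, add_zero]
  set K : Euc d → ℝ := fun y => ⟪∇ u y - e, v⟫ * dirD e F y - ⟪∇ u y - e, e⟫ * dirD v F y with hK
  have hKe : ∫ y in posSet u, dirD v F y = ∫ y in posSet u, K y := by
    have a1 := integrable_inner_gradient_mul hu.lip v (contDiff_dirD hFc e).continuous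
      (hasCompactSupport_dirD hFs e)
    have a2 := integrable_inner_gradient_mul hu.lip e (contDiff_dirD hFc v).continuous
      (hasCompactSupport_dirD hFs v)
    have hsw : ∫ y in posSet u, (⟪∇ u y, v⟫ * dirD e F y - ⟪∇ u y, e⟫ * dirD v F y) = 0 := by
      rw [setIntegral_posSet_eq hu.nonneg fun x hx => by
        simp [gradient_eq_zero_of_eq_zero hu.nonneg hx],
        integral_sub a1 a2, integral_inner_swap hu.lip hFc hFs v e, sub_self]
    rw [show (fun y => K y) = fun y =>
        (⟪∇ u y, v⟫ * dirD e F y - ⟪∇ u y, e⟫ * dirD v F y) + dirD v F y from funext fun y => by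
      simp only [hK, inner_sub_left, hv, real_inner_self_eq_norm_sq, he]
      ring, integral_add (f := fun y => ⟪∇ u y, v⟫ * dirD e F y - ⟪∇ u y, e⟫ * dirD v F y)
        (a1.sub a2).integrableOn (hFi v).integrableOn, hsw, zero_add]
  set S := {y : Euc d | |⟪e, y⟫| ≤ 2 * δ} ∩ Metric.ball (0 : Euc d) 1 with hS
  have hSm : MeasurableSet S :=
    (isClosed_le (continuous_const.inner continuous_id).abs continuous_const).measurableSet.inter
      measurableSet_ball
  have hpt : ∀ y ∈ posSet u,
      |K y| ≤ S.indicator (fun z => 2 * ‖v‖ * ((1 + 2 * D1) * M) * exRoot u e z) y := by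
    intro y hy
    by_cases hz : ‖∇ F y‖ = 0
    · have hz' : ∇ F y = 0 := norm_eq_zero.1 hz
      simp only [hK, dirD, hz', inner_zero_left, mul_zero, sub_zero, abs_zero]
      exact Set.indicator_apply_nonneg fun _ =>
        mul_nonneg (by positivity) (exRoot_nonneg u e y)
    · have hy1 : ‖y‖ < 1 := by
        by_contra h
        obtain ⟨a, b⟩ := hout y h
        exact hz (by simp [gradient_one_sub_upCut_mul e δ hf1 y, hF, a, b, hη])
      have hlow := hflat.above hu.nonneg hy1 hy
      have hhigh : ⟪e, y⟫ ≤ 2 * δ := by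
        by_contra h
        push Not at h
        have : F =ᶠ[𝓝 y] fun _ => 0 := by
          filter_upwards [((continuous_const.inner continuous_id).tendsto y).eventually
            (lt_mem_nhds h)] with z hzz
          have : η z = 1 := Real.smoothTransition.one_of_one_le (by
            rw [le_sub_iff_add_le, le_div_iff₀ hδ]
            simp only [id_eq] at hzz
            linarith)
          simp [hF, this]
        exact hz (by rw [this.gradient_eq, gradient_fun_const, norm_zero])
      have habs : |⟪e, y⟫| ≤ 2 * δ := abs_le.2 ⟨by linarith, hhigh⟩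
      have hmem : y ∈ S := ⟨habs, by simpa using hy1⟩
      rw [Set.indicator_of_mem hmem, exRoot_of_mem e hy]
      have hgF : ‖∇ F y‖ ≤ (1 + 2 * D1) * M := by
        rw [hF, hη, gradient_one_sub_upCut_mul e δ hf1 y]
        refine (norm_sub_le _ _).trans ?_
        rw [norm_smul, norm_smul, he, mul_one, Real.norm_eq_abs, Real.norm_eq_abs,
          abs_of_nonneg (sub_nonneg.2 (Real.smoothTransition.le_one _) : 0 ≤ 1 - upCut e δ y),
          abs_mul, abs_mul, abs_of_pos (inv_pos.2 hδ)]
        have k1 : (1 - upCut e δ y) * ‖∇ f y‖ ≤ M :=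
          (mul_le_of_le_one_left (norm_nonneg _) (by
            linarith [show 0 ≤ upCut e δ y from Real.smoothTransition.nonneg _])).trans (hM y)
        have k2 : |f y| * (|deriv Real.smoothTransition (⟪e, y⟫ / δ - 1)| * δ⁻¹)
            ≤ M * (2 * δ) * (D1 * δ⁻¹) :=
          mul_le_mul ((abs_le_of_eq_zero_on_plane hf1 he h0 hM y).trans
            (mul_le_mul_of_nonneg_left habs hM0))
            (mul_le_mul_of_nonneg_right (hD1 _) (by positivity)) (by positivity) (by positivity)
        have k3 : M * (2 * δ) * (D1 * δ⁻¹) = 2 * D1 * M := by field_simp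
        linarith
      have b1 := abs_real_inner_le_norm (∇ u y - e) v
      have b2 := abs_real_inner_le_norm (∇ u y - e) e
      rw [he, mul_one] at b2
      have b3 : |dirD e F y| ≤ (1 + 2 * D1) * M := by
        have := abs_real_inner_le_norm (∇ F y) e
        rw [he, mul_one] at this
        exact this.trans hgF
      have b4 : |dirD v F y| ≤ (1 + 2 * D1) * M * ‖v‖ :=
        (abs_real_inner_le_norm _ _).trans (mul_le_mul_of_nonneg_right hgF (norm_nonneg _))
      refine (abs_sub _ _).trans ?_
      rw [abs_mul, abs_mul]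
      have c1 := mul_le_mul b1 b3 (abs_nonneg _) (by positivity)
      have c2 := mul_le_mul b2 b4 (abs_nonneg _) (norm_nonneg _)
      nlinarith
  have hKi : IntegrableOn K (posSet u) := by
    have a1 := integrable_inner_gradient_mul hu.lip v (contDiff_dirD hFc e).continuous
      (hasCompactSupport_dirD hFs e)
    have a2 := integrable_inner_gradient_mul hu.lip e (contDiff_dirD hFc v).continuous
      (hasCompactSupport_dirD hFs v)
    refine (((a1.sub ((hFi e).const_mul ⟪e, v⟫)).sub
      (a2.sub ((hFi v).const_mul ⟪e, e⟫))).congr (Eventually.of_forall fun y => ?_)).integrableOn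
    simp only [hK, Pi.sub_apply, inner_sub_left]
    ring
  have hbi : Integrable
      (S.indicator fun z => 2 * ‖v‖ * ((1 + 2 * D1) * M) * exRoot u e z) :=
    (integrable_indicator_iff hSm).2
      ((integrableOn_exRoot hu.lip he (Metric.isBounded_ball.subset Set.inter_subset_right)).const_mul _)
  rw [hsplit, hKe]
  refine abs_integral_le_integral_abs.trans ((setIntegral_mono_on hKi.abs hbi.integrableOn
    hu.isOpen_posSet.measurableSet hpt).trans ?_)
  refine (setIntegral_le_integral hbi (Eventually.of_forall fun y =>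
    Set.indicator_apply_nonneg fun _ => mul_nonneg (by positivity) (exRoot_nonneg u e y))).trans ?_
  rw [integral_indicator hSm, integral_const_mul]
  have h1 := setIntegral_exRoot_le_sqrt hu.lip he (A := S)
    (Metric.isBounded_ball.subset Set.inter_subset_right)
  have h2 : volume.real S ≤ 2 ^ d * V * 2 * δ := by
    have := slab_volume_le he (by linarith : 0 ≤ 2 * δ) (r := 1) one_pos
    rw [one_pow, mul_one, ← hV] at this
    linarith
  have h3 : ∫ y in S, exRoot u e y ≤ Real.sqrt (2 ^ d * V * 2) * Real.sqrt δ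
      * Real.sqrt (∫ y in Metric.ball 0 1, exDens u e y) := by
    refine h1.trans ?_
    rw [← Real.sqrt_mul (by positivity : 0 ≤ 2 ^ d * V * 2)]
    exact mul_le_mul (Real.sqrt_le_sqrt h2) (Real.sqrt_le_sqrt
      (setIntegral_exDens_mono hu.lip he Set.inter_subset_right Metric.isBounded_ball))
      (Real.sqrt_nonneg _) (Real.sqrt_nonneg _)
  refine (mul_le_mul_of_nonneg_left h3 (by positivity)).trans (le_of_eq ?_)
  ring

end Vale.Agent.P098
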