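import Vale.Agent.P098.Regularity.Flatness.MeanValue
import Vale.Agent.P098.Regularity.Flatness.Horizontal

/-!
P098, block B4: reflection of the centre in the hyperplane, and coarse means at a fixed scale.
-/

open MeasureTheory Filter
open scoped Topology ContDiff NNReal RealInnerProductSpace Gradient

namespace Vale.Agent.P098

open B5 (rho sig avg)

variable {d : ℕ} {L : ℝ≥0} {c : ℝ} {u : Euc d → ℝ}

/-- The mirror point in the hyperplane orthogonal to `e`. -/
noncomputable def mirror (e x : Euc d) : Euc d := x - (2 * ⟪e, x⟫) • e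

lemma inner_mirror {e : Euc d} (he : ‖e‖ = 1) (x : Euc d) : ⟪e, mirror e x⟫ = -⟪e, x⟫ := by
  rw [mirror, inner_sub_right, real_inner_smul_right, real_inner_self_eq_norm_sq, he]
  ring

lemma inner_mirror_of_orth {e v : Euc d} (hv : ⟪e, v⟫ = 0) (x : Euc d) :
    ⟪mirror e x, v⟫ = ⟪x, v⟫ := by
  rw [mirror, inner_sub_left, real_inner_smul_left, hv, mul_zero, sub_zero]

lemma norm_mirror_sub {e : Euc d} (he : ‖e‖ = 1) (x : Euc d) {y : Euc d} (hy : ⟪e, y⟫ = 0) :
    ‖mirror e x - y‖ = ‖x - y‖ := by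
  refine (pow_left_inj₀ (norm_nonneg _) (norm_nonneg _) two_ne_zero).1 ?_
  rw [mirror, sub_right_comm, norm_sub_sq_real (x - y), real_inner_smul_right, norm_smul, he,
    mul_one, Real.norm_eq_abs, sq_abs,
    show ⟪x - y, e⟫ = ⟪e, x⟫ by rw [real_inner_comm, inner_sub_right, hy, sub_zero]]
  ring

lemma norm_mirror {e : Euc d} (he : ‖e‖ = 1) (x : Euc d) : ‖mirror e x‖ = ‖x‖ := by
  simpa using norm_mirror_sub he x (y := 0) (by simp)

lemma rho_congr_norm {z z' : Euc d} (h : ‖z‖ = ‖z'‖) : rho z = rho z' := by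
  simp [B5.rho, B5.rho0, h]

lemma dirD_potAt (τ : ℝ) (x v y : Euc d) :
    dirD v (potAt τ x) y = τ⁻¹ * τ⁻¹ * ⟪x - y, v⟫ * rho (τ⁻¹ • (x - y)) := by
  rw [dirD_eq_sum, show (potAt τ x : Euc d → ℝ) = fun z => sig (τ⁻¹ • (x - z)) from rfl,
    PiLp.inner_apply, Finset.mul_sum, Finset.sum_mul]
  refine Finset.sum_congr rfl fun i _ => ?_
  rw [pd_comp_scale (B5.contDiff_sig.of_le (by simp)) τ x y i, B5.pd_sig]
  simp
  ring

/-- The symmetric pair has no normal derivative on the hyperplane. -/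
lemma dirD_pair_plus {e : Euc d} (he : ‖e‖ = 1) (τ : ℝ) (x : Euc d) {y : Euc d}
    (hy : ⟪e, y⟫ = 0) :
    dirD e (potAt τ x) y + dirD e (potAt τ (mirror e x)) y = 0 := by
  rw [dirD_potAt, dirD_potAt, rho_congr_norm (z := τ⁻¹ • (mirror e x - y)) (z' := τ⁻¹ • (x - y))
    (by rw [norm_smul, norm_smul, norm_mirror_sub he x hy]),
    real_inner_comm, inner_sub_right, real_inner_comm e, inner_sub_right, hy, inner_mirror he]
  ring

/-- The antisymmetric pair has no tangential derivative on the hyperplane. -/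
lemma dirD_pair_minus {e : Euc d} (he : ‖e‖ = 1) (τ : ℝ) (x : Euc d) {y v : Euc d}
    (hy : ⟪e, y⟫ = 0) (hv : ⟪e, v⟫ = 0) :
    dirD v (potAt τ x) y - dirD v (potAt τ (mirror e x)) y = 0 := by
  rw [dirD_potAt, dirD_potAt, rho_congr_norm (z := τ⁻¹ • (mirror e x - y)) (z' := τ⁻¹ • (x - y))
    (by rw [norm_smul, norm_smul, norm_mirror_sub he x hy]),
    inner_sub_left, inner_sub_left, inner_mirror_of_orth hv, sub_self]

lemma lapl_add_smul {a b : Euc d → ℝ} (ha : ContDiff ℝ ∞ a) (hb : ContDiff ℝ ∞ b) (s : ℝ)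
    (y : Euc d) : lapl (fun z => a z + s * b z) y = lapl a y + s * lapl b y := by
  simp only [lapl, Finset.mul_sum, ← Finset.sum_add_distrib]
  refine Finset.sum_congr rfl fun i _ => ?_
  have h1 : pd i (fun z => a z + s * b z) = fun z => pd i a z + s * pd i b z := by
    funext z
    have h : HasFDerivAt (fun y => a y + s * b y) (fderiv ℝ a z + s • fderiv ℝ b z) z :=
      (ha.differentiable (by simp) z).hasFDerivAt.add
        ((hb.differentiable (by simp) z).hasFDerivAt.const_mul s)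
    rw [pd, h.fderiv]
    simp [pd]
  have h2 : HasFDerivAt (fun z => pd i a z + s * pd i b z)
      (fderiv ℝ (pd i a) y + s • fderiv ℝ (pd i b) y) y :=
    ((contDiff_pd_of_smooth ha i).differentiable (by simp) y).hasFDerivAt.add
      (((contDiff_pd_of_smooth hb i).differentiable (by simp) y).hasFDerivAt.const_mul s)
  rw [h1, pd, h2.fderiv]
  simp [pd]

lemma dirD_add_smul {a b : Euc d → ℝ} (ha : ContDiff ℝ ∞ a) (hb : ContDiff ℝ ∞ b) (s : ℝ)
    (v y : Euc d) : dirD v (fun z => a z + s * b z) y = dirD v a y + s * dirD v b y := by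
  have h : HasFDerivAt (fun y => a y + s * b y) (fderiv ℝ a y + s • fderiv ℝ b y) y :=
    (ha.differentiable (by simp) y).hasFDerivAt.add
      ((hb.differentiable (by simp) y).hasFDerivAt.const_mul s)
  simp [dirD, inner_gradient_left, h.fderiv]

lemma pd_pd_add_smul {a b : Euc d → ℝ} (ha : ContDiff ℝ ∞ a) (hb : ContDiff ℝ ∞ b) (s : ℝ)
    (i j : Fin d) (y : Euc d) :
    pd i (pd j fun z => a z + s * b z) y = pd i (pd j a) y + s * pd i (pd j b) y := by
  have h1 : pd j (fun z => a z + s * b z) = fun z => pd j a z + s * pd j b z := by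
    funext z
    have h : HasFDerivAt (fun y => a y + s * b y) (fderiv ℝ a z + s • fderiv ℝ b z) z :=
      (ha.differentiable (by simp) z).hasFDerivAt.add
        ((hb.differentiable (by simp) z).hasFDerivAt.const_mul s)
    rw [pd, h.fderiv]
    simp [pd]
  have h2 : HasFDerivAt (fun z => pd j a z + s * pd j b z)
      (fderiv ℝ (pd j a) y + s • fderiv ℝ (pd j b) y) y :=
    ((contDiff_pd_of_smooth ha j).differentiable (by simp) y).hasFDerivAt.add
      (((contDiff_pd_of_smooth hb j).differentiable (by simp) y).hasFDerivAt.const_mul s)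
  rw [h1, pd, h2.fderiv]
  simp [pd]

lemma integrable_rho_compD (hu : IsRegMin L c u) {e : Euc d} (he : ‖e‖ = 1) (v x : Euc d) :
    Integrable fun y => rho ((1 / 2 : ℝ)⁻¹ • (x - y)) * compD u e v y := by
  set g : Euc d → ℝ := fun y => rho ((1 / 2 : ℝ)⁻¹ • (x - y)) with hg
  have hgc : Continuous g := (B5.contDiff_rho (d := d)).continuous.comp
    (((continuous_const (y := x)).sub continuous_id).const_smul (1 / 2 : ℝ)⁻¹)
  have hgs : HasCompactSupport g := HasCompactSupport.intro (isCompact_closedBall x (1 / 2))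
    fun y hy => eq_zero_outside (k := (rho : Euc d → ℝ)) B5.isKernel_rho (by norm_num) hy
  have h : Integrable fun y => compD u e v y * g y :=
    integrable_bdd_mul (measurable_compD hu.lip.continuous e v) (M := ‖v‖ * (L + 1)) hgc hgs
      fun y _ => abs_compD_le_const hu he v y
  exact h.congr (Eventually.of_forall fun y => mul_comm _ _)

/-- A bounded kernel in the unit ball against a component. -/
lemma abs_integral_mul_compD_le (hu : IsRegMin L c u) {e : Euc d} (he : ‖e‖ = 1) (v : Euc d)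
    {k : Euc d → ℝ} {K : ℝ} (hK0 : 0 ≤ K) (hki : Integrable fun y => k y * compD u e v y)
    (hkb : ∀ y, |k y| ≤ K) (hk0 : ∀ y, y ∉ Metric.ball (0 : Euc d) 1 → k y = 0) :
    |∫ y, k y * compD u e v y| ≤ K * (‖v‖ * (Real.sqrt (volume.real (Metric.ball (0 : Euc d) 1))
      * Real.sqrt (∫ y in Metric.ball 0 1, exDens u e y))) := by
  rw [← setIntegral_eq_integral_of_forall_compl_eq_zero (s := Metric.ball (0 : Euc d) 1)
    fun y hy => by rw [hk0 y hy, zero_mul]]
  refine abs_integral_le_integral_abs.trans ((setIntegral_mono_on hki.abs.integrableOn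
    (((integrableOn_exRoot hu.lip he Metric.isBounded_ball).const_mul (K * ‖v‖)))
    measurableSet_ball fun y _ => ?_).trans ?_)
  · rw [abs_mul, mul_assoc]
    exact mul_le_mul (hkb y) (abs_compD_le hu.nonneg e v y) (abs_nonneg _) hK0
  · rw [integral_const_mul, mul_assoc]
    exact mul_le_mul_of_nonneg_left (mul_le_mul_of_nonneg_left
      (setIntegral_exRoot_le_sqrt hu.lip he Metric.isBounded_ball) (norm_nonneg _)) hK0

/-- Coarse means are bounded by the excess and Lipschitz in the centre. -/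
theorem exists_coarse_bound (d : ℕ) :
    ∃ C : ℝ, 0 ≤ C ∧ ∀ (L : ℝ≥0) (c : ℝ) (u : Euc d → ℝ) (e v : Euc d),
      IsRegMin L c u → ‖e‖ = 1 →
      |avg rho (compD u e v) (1 / 2) 0|
        ≤ C * ‖v‖ * Real.sqrt (∫ y in Metric.ball 0 1, exDens u e y) ∧
      ∀ x, ‖x‖ ≤ 1 / 4 →
        |avg rho (compD u e v) (1 / 2) x - avg rho (compD u e v) (1 / 2) 0|
          ≤ C * ‖v‖ * ‖x‖ * Real.sqrt (∫ y in Metric.ball 0 1, exDens u e y) := by
  obtain ⟨D, hD⟩ := lipschitzWith_of_test (B5.contDiff_rho (d := d))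
    B5.isKernel_rho.hasCompactSupport
  obtain ⟨A, hA⟩ := (B5.contDiff_rho (d := d)).continuous.bounded_above_of_compact_support
    B5.isKernel_rho.hasCompactSupport
  have hA0 : 0 ≤ A := (norm_nonneg _).trans (hA 0)
  set V := Real.sqrt (volume.real (Metric.ball (0 : Euc d) 1))
  refine ⟨2 ^ d * (A + 2 * D) * V, by positivity, fun L c u e v hu he => ?_⟩
  set f := compD u e v with hf
  set E := ∫ y in Metric.ball (0 : Euc d) 1, exDens u e y
  have hfb : ∀ y, |f y| ≤ ‖v‖ * exRoot u e y := abs_compD_le hu.nonneg e v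
  have hfm : Measurable f := measurable_compD hu.lip.continuous e v
  have hint : ∀ x : Euc d, Integrable fun y => rho ((1 / 2 : ℝ)⁻¹ • (x - y)) * f y :=
    integrable_rho_compD hu he v
  have hI : ∀ (k : Euc d → ℝ) (K : ℝ), 0 ≤ K → Integrable (fun y => k y * f y) →
      (∀ y, |k y| ≤ K) → (∀ y, y ∉ Metric.ball (0 : Euc d) 1 → k y = 0) →
      |∫ y, k y * f y| ≤ K * (‖v‖ * (V * Real.sqrt E)) := fun k K h1 h2 h3 h4 =>
    abs_integral_mul_compD_le hu he v h1 h2 h3 h4
  have hzero : ∀ x : Euc d, ‖x‖ ≤ 1 / 4 → ∀ y, y ∉ Metric.ball (0 : Euc d) 1 →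
      rho ((1 / 2 : ℝ)⁻¹ • (x - y)) = 0 := fun x hx y hy => by
    refine eq_zero_outside B5.isKernel_rho (by norm_num) fun h => hy ?_
    rw [Metric.mem_closedBall, dist_eq_norm] at h
    rw [mem_ball_zero_iff]
    have := norm_add_le (y - x) x
    rw [sub_add_cancel] at this
    linarith
  have e2 : ((1 / 2 : ℝ) ^ d)⁻¹ = 2 ^ d := by rw [one_div, inv_pow, inv_inv]
  constructor
  · rw [B5.avg_eq_scaled _ _ (by norm_num : (0 : ℝ) < 1 / 2), e2, abs_mul, abs_of_pos (by positivity)]
    refine (mul_le_mul_of_nonneg_left (hI _ A hA0 (hint 0) (fun y => hA _)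
      (hzero 0 (by norm_num))) (by positivity)).trans ?_
    have h1 : 0 ≤ 2 ^ d * (‖v‖ * (V * Real.sqrt E)) * (2 * (D : ℝ)) := by positivity
    nlinarith
  · intro x hx
    rw [B5.avg_eq_scaled _ _ (by norm_num : (0 : ℝ) < 1 / 2), B5.avg_eq_scaled _ _ (by norm_num : (0 : ℝ) < 1 / 2),
      ← mul_sub, ← integral_sub (hint x) (hint 0), e2, abs_mul, abs_of_pos (by positivity)]
    simp only [← sub_mul]
    have hkb : ∀ y, |rho ((1 / 2 : ℝ)⁻¹ • (x - y)) - rho ((1 / 2 : ℝ)⁻¹ • (0 - y))|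
        ≤ 2 * D * ‖x‖ := fun y => by
      refine (abs_sub_le_lip hD _ _).trans (le_of_eq ?_)
      rw [← smul_sub, sub_sub_sub_cancel_right, sub_zero, norm_smul]
      norm_num
      ring
    refine (mul_le_mul_of_nonneg_left (hI _ _ (by positivity)
      (((hint x).sub (hint 0)).congr (Eventually.of_forall fun y => (sub_mul _ _ _).symm)) hkb
      fun y hy => by rw [hzero x hx y hy, hzero 0 (by norm_num) y hy, sub_zero]) (by positivity)).trans ?_
    have h1 : 0 ≤ 2 ^ d * (‖v‖ * (V * Real.sqrt E)) * (A * ‖x‖) := by positivity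
    nlinarith

end Vale.Agent.P098
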