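import Vale.Agent.P098.Regularity.Flatness.Rate
import Vale.Agent.P098.Regularity.Flatness.Reflect

/-!
P098, block B4: above a flat free boundary the gradient is `e` plus one horizontal vector up to
the distance from the origin times the root of the excess, and higher order terms.
-/

open MeasureTheory Filter
open scoped Topology ContDiff NNReal RealInnerProductSpace Gradient

namespace Vale.Agent.P098

open B5 (rho sig avg)

variable {d : ℕ} {L : ℝ≥0} {c : ℝ} {u : Euc d → ℝ}

/-- The change of a mirrored pair of means between the scale `T` and the scale `1 / 2`. -/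
lemma pair_change (hu : IsRegMin L c u) {e : Euc d} (he : ‖e‖ = 1) (v : Euc d) (s : ℝ)
    {x : Euc d} (hx : ‖x‖ ≤ 1 / 4) {T : ℝ} (hT : 0 < T) (hT2 : T ≤ 1 / 2) {B : ℝ} (hB : 0 ≤ B)
    (hbd : ∀ τ ∈ Set.Icc T (1 / 2), |∫ y, compD u e v y *
      lapl (fun z => potAt τ x z + s * potAt τ (mirror e x) z) y| ≤ τ⁻¹ ^ 2 * B) :
    |(avg rho (compD u e v) (1 / 2) x + s * avg rho (compD u e v) (1 / 2) (mirror e x))
      - (avg rho (compD u e v) T x + s * avg rho (compD u e v) T (mirror e x))|
      ≤ B / T ^ (d + 1) := by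
  set f := compD u e v with hf
  have hfm : Measurable f := measurable_compD hu.lip.continuous e v
  have hM : ∀ y, |f y| ≤ ‖v‖ * (L + 1) := abs_compD_le_const hu he v
  have hint : ∀ {τ : ℝ}, 0 < τ → ∀ z : Euc d, Integrable fun y => f y * lapl (potAt τ z) y :=
    fun {τ} hτ z => integrable_bdd_mul hfm (continuous_lapl (contDiff_potAt τ z))
      (hasCompactSupport_lapl (hasCompactSupport_potAt hτ z)) fun y _ => hM y
  set F : ℝ → ℝ := fun τ => avg rho f τ x + s * avg rho f τ (mirror e x) with hF
  have hd : ∀ τ ∈ Set.Icc T (1 / 2), HasDerivWithinAt F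
      (τ * (τ ^ d)⁻¹ * ∫ y, f y * lapl (fun z => potAt τ x z + s * potAt τ (mirror e x) z) y)
      (Set.Icc T (1 / 2)) τ := fun τ hτ => by
    have hτ0 : 0 < τ := hT.trans_le hτ.1
    refine (((hasDerivAt_mean hfm hM hτ0 x).add
      ((hasDerivAt_mean hfm hM hτ0 (mirror e x)).const_mul s)).congr_deriv ?_).hasDerivWithinAt
    simp only [lapl_add_smul (contDiff_potAt τ x) (contDiff_potAt τ (mirror e x)), mul_add,
      mul_left_comm _ s]
    rw [integral_add (hint hτ0 x) ((hint hτ0 _).const_mul s), integral_const_mul]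
    ring
  have hb : ∀ τ ∈ Set.Icc T (1 / 2),
      ‖τ * (τ ^ d)⁻¹ * ∫ y, f y * lapl (fun z => potAt τ x z + s * potAt τ (mirror e x) z) y‖
        ≤ B / T ^ (d + 1) := fun τ hτ => by
    have hτ0 : 0 < τ := hT.trans_le hτ.1
    rw [Real.norm_eq_abs, abs_mul, abs_of_pos (by positivity : 0 < τ * (τ ^ d)⁻¹)]
    refine (mul_le_mul_of_nonneg_left (hbd τ hτ) (by positivity)).trans ?_
    have e1 : τ * (τ ^ d)⁻¹ * (τ⁻¹ ^ 2 * B) = B / τ ^ (d + 1) := by
      rw [pow_succ]
      field_simp
      ring
    rw [e1]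
    exact div_le_div_of_nonneg_left hB (by positivity) (pow_le_pow_left₀ hT.le hτ.1 _)
  have h := Convex.norm_image_sub_le_of_norm_hasDerivWithin_le hd hb (convex_Icc _ _)
    (Set.left_mem_Icc.2 hT2) (Set.right_mem_Icc.2 hT2)
  rw [Real.norm_eq_abs, Real.norm_eq_abs] at h
  refine h.trans (mul_le_of_le_one_right (by positivity) ?_)
  rw [abs_of_nonneg (by linarith)]
  linarith

/-- The interior estimate. -/
theorem exists_interior_bound (d : ℕ) :
    ∃ C : ℝ, 0 ≤ C ∧ ∀ (L : ℝ≥0) (c : ℝ) (u : Euc d → ℝ) (e : Euc d) (T δ : ℝ),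
      IsRegMin L c u → ‖e‖ = 1 → 0 < δ → δ < T → T ≤ 1 / 16 → IsFlatIn u 0 e 1 δ →
      ∃ a : Euc d, ⟪e, a⟫ = 0 ∧
        ‖a‖ ≤ C * Real.sqrt (∫ y in Metric.ball 0 1, exDens u e y) ∧
        ∀ x : Euc d, ‖x‖ ≤ 1 / 4 → 2 * T ≤ ⟪e, x⟫ →
          ‖∇ u x - (e + a)‖ ≤ C * ‖x‖ * Real.sqrt (∫ y in Metric.ball 0 1, exDens u e y)
            + C / T ^ (d + 1) * ((∫ y in Metric.ball 0 1, exDens u e y)
              + Real.sqrt δ * Real.sqrt (∫ y in Metric.ball 0 1, exDens u e y)) := by
  obtain ⟨C₁, hC₁, hlap⟩ := exists_lapl_bound d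
  obtain ⟨B, hB, hpot⟩ := exists_potAt_bound d
  obtain ⟨C₂, hC₂, hcoarse⟩ := exists_coarse_bound d
  refine ⟨d * (8 * C₂ + 6 * (C₁ * B)), by positivity,
    fun L c u e T δ hu he hδ hδT hT hflat => ?_⟩
  have hd := dim_pos_of_norm_one he
  have : NeZero d := ⟨hd.ne'⟩
  set E := ∫ y in Metric.ball (0 : Euc d) 1, exDens u e y with hE
  have hE0 : 0 ≤ E := integral_nonneg fun y => exDens_nonneg u e y
  set P := E + Real.sqrt δ * Real.sqrt E with hP
  have hP0 : 0 ≤ P := by positivity
  have hT0 : 0 < T := hδ.trans hδT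
  set v : Fin d → Euc d := fun k => EuclideanSpace.single k 1 - e k • e with hvdef
  have hv : ∀ k, ⟪e, v k⟫ = 0 := fun k => by
    rw [hvdef]
    simp [inner_sub_right, real_inner_smul_right, real_inner_self_eq_norm_sq, he,
      EuclideanSpace.inner_single_right]
  have he1 : ∀ k, |e k| ≤ 1 := fun k => by
    have h := PiLp.norm_apply_le e k
    rwa [Real.norm_eq_abs, he] at h
  have hvn : ∀ k, ‖v k‖ ≤ 2 := fun k => by
    refine (norm_sub_le _ _).trans ?_
    rw [PiLp.norm_single, norm_one, norm_smul, he, mul_one, Real.norm_eq_abs]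
    linarith [he1 k]
  set H : Euc d → Euc d → ℝ := fun w x => avg rho (compD u e w) (1 / 2) x with hH
  set a : Euc d := WithLp.toLp 2 fun k => 2 * H (v k) 0 with ha
  have hak : ∀ k, a k = 2 * H (v k) 0 := fun k => rfl
  have hea : ⟪e, a⟫ = 0 := by
    have h0 : (fun y => ∑ k, e k * compD u e (v k) y) = fun _ => (0 : ℝ) := funext fun y => by
      have hs : ∑ k, e k • v k = 0 := by
        ext j
        have h2 : ∑ k, e k * e k = 1 := by
          have := real_inner_self_eq_norm_sq e
          rw [he, one_pow, PiLp.inner_apply] at this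
          simpa [mul_comm, sq] using this
        simp [hvdef, mul_sub, ← mul_assoc, Finset.sum_sub_distrib, ← Finset.sum_mul, h2,
          Pi.single_apply]
      by_cases hy : y ∈ posSet u
      · simp only [compD_of_mem e _ hy, ← real_inner_smul_right, ← inner_sum, hs, inner_zero_right]
      · simp [compD_of_notMem hu.nonneg e _ hy]
    have h1 : ∑ k, e k * H (v k) 0 = avg rho (fun y => ∑ k, e k * compD u e (v k) y) (1 / 2) 0 := by
      simp only [hH, B5.avg, Finset.mul_sum]
      rw [integral_finsetSum _ fun k _ => ?_]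
      · refine Finset.sum_congr rfl fun k _ => ?_
        rw [← integral_const_mul]
        refine integral_congr_ae (Eventually.of_forall fun z => ?_)
        ring
      · have := (B5.integrable_avg B5.isKernel_rho (measurable_compD hu.lip.continuous e (v k))
          (abs_compD_le_const hu he (v k)) (1 / 2) 0).const_mul (e k)
        exact this.congr (Eventually.of_forall fun z => by ring)
    rw [PiLp.inner_apply]
    simp only [hak, RCLike.inner_apply, conj_trivial]
    rw [show ∑ k, 2 * H (v k) 0 * e k = 2 * ∑ k, e k * H (v k) 0 by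
      rw [Finset.mul_sum]; exact Finset.sum_congr rfl fun k _ => by ring, h1, h0]
    simp [B5.avg]
  refine ⟨a, hea, ?_, fun x hx ht => ?_⟩
  · refine (norm_le_sum_abs a).trans ((Finset.sum_le_card_nsmul _ _
      ((8 * C₂ + 6 * (C₁ * B)) * Real.sqrt E) fun k _ => ?_).trans_eq (by simp; ring))
    rw [hak, abs_mul, abs_two]
    refine (mul_le_mul_of_nonneg_left ((hcoarse L c u e (v k) hu he).1) zero_le_two).trans ?_
    rw [← hE]
    have k1 := mul_le_mul_of_nonneg_left (hvn k) hC₂
    have k2 : 0 ≤ C₁ * B * Real.sqrt E := by positivity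
    nlinarith [Real.sqrt_nonneg E]
  · set x' := mirror e x with hx'
    have hx'n : ‖x'‖ ≤ 1 / 4 := by rw [hx', norm_mirror he]; exact hx
    have hsub : Metric.closedBall x T ⊆ posSet u := fun y hy => by
      rw [Metric.mem_closedBall, dist_eq_norm] at hy
      refine hflat.pos ?_ ?_
      · have := norm_add_le (y - x) x
        rw [sub_add_cancel] at this
        linarith
      · have h1 := abs_real_inner_le_norm e (y - x)
        rw [he, one_mul, inner_sub_right] at h1
        linarith [neg_abs_le (⟪e, y⟫ - ⟪e, x⟫)]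
    have hlowzero : ∀ w, avg rho (compD u e w) T x' = 0 := fun w => by
      rw [B5.avg_eq_scaled _ _ hT0]
      refine mul_eq_zero_of_right _ (integral_eq_zero_of_ae (Eventually.of_forall fun y => ?_))
      by_cases hy : y ∈ Metric.closedBall x' T
      · rw [Metric.mem_closedBall, dist_eq_norm] at hy
        have hy1 : ‖y‖ < 1 := by
          have := norm_add_le (y - x') x'
          rw [sub_add_cancel] at this
          linarith
        have h1 := abs_real_inner_le_norm e (y - x')
        rw [he, one_mul, inner_sub_right, hx', inner_mirror he] at h1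
        have h0 : u y = 0 := hflat.eq_zero hu.nonneg hy1 (by
          rw [hx'] at hy
          linarith [le_abs_self (⟪e, y⟫ - -⟪e, x⟫)])
        have hn : y ∉ posSet u := fun h => (show 0 < u y from h).ne' h0
        simp [compD_of_notMem hu.nonneg e w hn]
      · simp [eq_zero_outside B5.isKernel_rho hT0 hy]
    have hS : ∀ (τ : ℝ) (s : ℝ), τ ∈ Set.Icc T (1 / 2) → |s| ≤ 1 →
        ContDiff ℝ ∞ (fun z => potAt τ x z + s * potAt τ x' z) ∧
        tsupport (fun z => potAt τ x z + s * potAt τ x' z) ⊆ Metric.closedBall 0 (3 / 4) ∧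
        ∀ i j y, |pd i (pd j fun z => potAt τ x z + s * potAt τ x' z) y| ≤ 2 * (τ⁻¹ ^ 2 * B) := by
      intro τ s hτ hs
      refine ⟨(contDiff_potAt τ x).add (contDiff_const.mul (contDiff_potAt τ x')), ?_, fun i j y => ?_⟩
      · refine closure_minimal (fun y hy => ?_) Metric.isClosed_closedBall
        by_contra h
        have hτ0 : 0 < τ := hT0.trans_le hτ.1
        have hout : ∀ z : Euc d, ‖z‖ ≤ 1 / 4 → potAt τ z y = 0 := fun z hz =>
          eq_zero_outside B5.isKernel_sig hτ0 fun hz' => h (by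
            rw [Metric.mem_closedBall, dist_eq_norm] at hz'
            rw [mem_closedBall_zero_iff]
            have := norm_add_le (y - z) z
            rw [sub_add_cancel] at this
            linarith [hτ.2])
        exact hy (by simp [hout x hx, hout x' hx'n])
      · rw [pd_pd_add_smul (contDiff_potAt τ x) (contDiff_potAt τ x')]
        refine (abs_add_le _ _).trans ?_
        rw [abs_mul]
        have h1 := hpot τ x y i j
        have h2 := hpot τ x' y i j
        have h3 := mul_le_mul hs h2 (abs_nonneg _) zero_le_one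
        linarith
    have hhor : ∀ k, |compD u e (v k) x - a k|
        ≤ 4 * C₂ * ‖x‖ * Real.sqrt E + 4 * (C₁ * B) * P / T ^ (d + 1) := by
      intro k
      have hch := pair_change hu he (v k) 1 hx hT0 (by linarith) (B := 4 * (C₁ * B) * P)
        (by positivity) fun τ hτ => by
        obtain ⟨h1, h2, h3⟩ := hS τ 1 hτ (by simp)
        refine ((hlap L c u _ e δ _ hu he hδ hflat h1 h2 h3).1 (fun y hy => ?_) (v k) (hv k)).trans ?_
        · rw [dirD_add_smul (contDiff_potAt τ x) (contDiff_potAt τ x'), one_mul]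
          exact dirD_pair_plus he τ x hy
        · rw [← hE, ← hP]
          have k1 := mul_le_mul_of_nonneg_left (hvn k) (by positivity : 0 ≤ C₁ * (2 * (τ⁻¹ ^ 2 * B)))
          have k2 := mul_le_mul_of_nonneg_right k1 hP0
          linarith
      rw [← hx', hlowzero, compD_eq_mean hu he (v k) hT0 hsub, one_mul, one_mul, add_zero] at hch
      have c1 := abs_le.1 ((hcoarse L c u e (v k) hu he).2 x hx)
      have c2 := abs_le.1 ((hcoarse L c u e (v k) hu he).2 x' hx'n)
      rw [← hE] at c1 c2
      rw [show ‖x'‖ = ‖x‖ from norm_mirror he x] at c2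
      have k1 : C₂ * ‖v k‖ * ‖x‖ * Real.sqrt E ≤ 2 * C₂ * ‖x‖ * Real.sqrt E := by
        have := mul_le_mul_of_nonneg_left (hvn k) hC₂
        have h' := mul_le_mul_of_nonneg_right (mul_le_mul_of_nonneg_right this (norm_nonneg x))
          (Real.sqrt_nonneg E)
        linarith
      obtain ⟨b1, b2⟩ := abs_le.1 hch
      rw [hak, hH]
      exact abs_le.2 ⟨by linarith [c1.1, c2.1], by linarith [c1.2, c2.2]⟩
    have hver : |compD u e e x| ≤ 2 * C₂ * ‖x‖ * Real.sqrt E + 2 * (C₁ * B) * P / T ^ (d + 1) := by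
      have hch := pair_change hu he e (-1) hx hT0 (by linarith) (B := 2 * (C₁ * B) * P)
        (by positivity) fun τ hτ => by
        obtain ⟨h1, h2, h3⟩ := hS τ (-1) hτ (by simp)
        refine ((hlap L c u _ e δ _ hu he hδ hflat h1 h2 h3).2 (fun y hy w hw => ?_)).trans ?_
        · rw [dirD_add_smul (contDiff_potAt τ x) (contDiff_potAt τ x'), neg_one_mul, ← sub_eq_add_neg]
          exact dirD_pair_minus he τ x hy hw
        · rw [← hE, ← hP]
          linarith
      rw [← hx', hlowzero, compD_eq_mean hu he e hT0 hsub, mul_zero, add_zero] at hch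
      have c1 := abs_le.1 ((hcoarse L c u e e hu he).2 x hx)
      have c2 := abs_le.1 ((hcoarse L c u e e hu he).2 x' hx'n)
      rw [← hE, he, mul_one] at c1 c2
      rw [show ‖x'‖ = ‖x‖ from norm_mirror he x] at c2
      obtain ⟨b1, b2⟩ := abs_le.1 hch
      exact abs_le.2 ⟨by linarith [c1.1, c1.2, c2.1, c2.2], by linarith [c1.1, c1.2, c2.1, c2.2]⟩
    have hxΩ : x ∈ posSet u := hsub (Metric.mem_closedBall_self hT0.le)
    refine (norm_le_sum_abs _).trans ((Finset.sum_le_card_nsmul _ _
      ((6 * C₂ * ‖x‖ * Real.sqrt E) + 6 * (C₁ * B) * P / T ^ (d + 1)) fun k _ => ?_).trans ?_)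
    · have e1 : (∇ u x - (e + a)) k = (compD u e (v k) x - a k) + e k * compD u e e x := by
        rw [compD_of_mem e _ hxΩ, compD_of_mem e _ hxΩ, hvdef]
        simp only [inner_sub_right, real_inner_smul_right, EuclideanSpace.inner_single_right]
        simp
        ring
      rw [e1]
      refine (abs_add_le _ _).trans ?_
      rw [abs_mul]
      have := mul_le_mul (he1 k) hver (abs_nonneg _) zero_le_one
      have := hhor k
      have e2 : 6 * (C₁ * B) * P / T ^ (d + 1)
          = 4 * (C₁ * B) * P / T ^ (d + 1) + 2 * (C₁ * B) * P / T ^ (d + 1) := by ring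
      linarith
    · simp only [Finset.card_univ, Fintype.card_fin, nsmul_eq_mul]
      have k0 : 0 ≤ (d : ℝ) * C₁ * B * ‖x‖ * Real.sqrt E := by positivity
      have k1 : 0 ≤ (d : ℝ) * C₂ * ‖x‖ * Real.sqrt E := by positivity
      have k2 : 0 ≤ (d : ℝ) * C₂ * P / T ^ (d + 1) := by positivity
      have k3 : d * (8 * C₂ + 6 * (C₁ * B)) / T ^ (d + 1) * P
          = 8 * (d * C₂ * P / T ^ (d + 1)) + d * (6 * (C₁ * B) * P / T ^ (d + 1)) := by ring
      rw [k3]
      linarith

end Vale.Agent.P098
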