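import Vale.Agent.P098.Regularity.Flatness.FromExcess
import Vale.Agent.P098.Regularity.Assemble.Scale

/-!
P098, block B4: iterating the decay of the excess over dyadic scales gives a normal with a rate
at every free boundary point near a flat one.
-/

open MeasureTheory Filter
open scoped Topology ContDiff NNReal RealInnerProductSpace Gradient

namespace Vale.Agent.P098

variable {d : ℕ} {L : ℝ≥0} {c : ℝ} {u : Euc d → ℝ}

lemma exDens_rescale (hu : IsRegMin L c u) {s : ℝ} (hs : 0 < s) (x e y : Euc d) :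
    exDens (rescale u x s) e y = exDens u e (x + s • y) := by
  by_cases hy : x + s • y ∈ posSet u
  · have hy' : y ∈ posSet (rescale u x s) := div_pos hy hs
    have hd := ((hu.contDiffAt_one hy).differentiableAt one_ne_zero).hasFDerivAt
    have h1 : HasFDerivAt (fun z : Euc d => x + s • z) (s • ContinuousLinearMap.id ℝ (Euc d)) y :=
      ((hasFDerivAt_id y).const_smul s).const_add x
    have hg : ∇ (rescale u x s) y = ∇ u (x + s • y) := by
      have h2 := ((hd.comp y h1).mul_const s⁻¹).fderiv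
      simp only [gradient]
      congr 1
      rw [show rescale u x s = fun z => (u ∘ fun z => x + s • z) z * s⁻¹ from
        funext fun z => by simp [rescale, div_eq_mul_inv], h2]
      ext v
      simp [hs.ne']
    rw [exDens, exDens, exRoot_of_mem e hy', exRoot_of_mem e hy, hg]
  · have hy' : y ∉ posSet (rescale u x s) := fun h => hy (by
      have : 0 < u (x + s • y) / s := h
      exact (div_pos_iff_of_pos_right hs).1 this)
    simp [exDens, exRoot_of_notMem e hy', exRoot_of_notMem e hy]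

lemma setIntegral_exDens_rescale (hu : IsRegMin L c u) {s : ℝ} (hs : 0 < s) (x e : Euc d) (R : ℝ) :
    ∫ y in Metric.ball (0 : Euc d) R, exDens (rescale u x s) e y =
      (s ^ d)⁻¹ * ∫ y in Metric.ball x (s * R), exDens u e y := by
  simp only [exDens_rescale hu hs x e]
  rw [integral_comp_dilMap hs (exDens u e), smul_zero, add_zero]

lemma abs_max_sub_le (v : ℝ) {a b ε : ℝ} (h1 : max (a - ε) 0 ≤ v) (h2 : v ≤ max (a + ε) 0)
    (h : |a - b| ≤ ε) : |v - max b 0| ≤ 2 * ε := by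
  have h' := abs_le.1 h
  rw [abs_le]
  constructor
  · have : max b 0 ≤ max (a - ε) 0 + 2 * ε :=
      max_le (by linarith [le_max_left (a - ε) 0]) (by linarith [le_max_right (a - ε) 0])
    linarith
  · have : max (a + ε) 0 ≤ max b 0 + 2 * ε :=
      max_le (by linarith [le_max_left b 0]) (by linarith [le_max_right b 0])
    linarith

/-- A scale between consecutive powers. -/
lemma exists_pow_bracket {θ a : ℝ} (hθ : 0 ≤ θ) (hθ1 : θ < 1) (ha : 0 < a) (ha1 : a < 1) :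
    ∃ k : ℕ, θ ^ (k + 1) ≤ a ∧ a < θ ^ k := by
  have hex : ∃ n : ℕ, θ ^ (n + 1) ≤ a := by
    obtain ⟨n, hn⟩ := exists_pow_lt_of_lt_one ha hθ1
    exact ⟨n, (pow_le_pow_of_le_one hθ hθ1.le n.le_succ).trans hn.le⟩
  classical
  refine ⟨Nat.find hex, Nat.find_spec hex, ?_⟩
  rcases h : Nat.find hex with _ | n
  · simpa using ha1
  · exact not_le.1 (Nat.find_min hex (h ▸ n.lt_succ_self))

/-- Iterated decay about one free boundary point. -/
lemma exists_normal_of_decay (d : ℕ) (L : ℝ≥0) {c : ℝ} (hc : 0 < c) {θ ε C : ℝ} (hθ : 0 < θ)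
    (hθ4 : θ ≤ 1 / 4) (hε : 0 < ε) (hC : 0 ≤ C)
    (hdec : ∀ (u : Euc d → ℝ) (e : Euc d), IsRegMin L c u → ‖e‖ = 1 → u 0 = 0 →
      (0 : Euc d) ∈ closure (posSet u) → ∫ x in Metric.ball 0 4, exDens u e x ≤ ε →
        ∃ e' : Euc d, ‖e'‖ = 1 ∧
          ‖e' - e‖ ≤ C * Real.sqrt (∫ x in Metric.ball 0 4, exDens u e x) ∧
          ∫ x in Metric.ball 0 (4 * θ), exDens u e' x ≤
            θ ^ (d + 1) * ∫ x in Metric.ball 0 4, exDens u e x) :
    ∃ ε₀ α A : ℝ, 0 < ε₀ ∧ 0 < α ∧ α < 1 ∧ 0 ≤ A ∧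
      ∀ (v : Euc d → ℝ) (e : Euc d), IsRegMin L c v → ‖e‖ = 1 → v 0 = 0 →
        (0 : Euc d) ∈ closure (posSet v) → ∫ x in Metric.ball 0 4, exDens v e x ≤ ε₀ →
          ∃ ν : Euc d, ‖ν‖ = 1 ∧
            ∀ z : Euc d, ‖z‖ < 1 → |v z - max ⟪ν, z⟫ 0| ≤ A * ‖z‖ ^ (1 + α) := by
  obtain ⟨K, hK, hflat⟩ := exists_flat_of_excess d L hc
  set n : ℕ := 2 * d + 2 with hn
  have hn0 : n ≠ 0 := by omega
  set α : ℝ := 1 / (n : ℝ) with hα
  have hn2 : (2 : ℝ) ≤ n := by
    rw [hn]; push_cast; linarith [(Nat.cast_nonneg d : (0 : ℝ) ≤ d)]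
  have hα0 : 0 < α := by positivity
  have hα1 : α ≤ 1 / 2 := one_div_le_one_div_of_le two_pos hn2
  have hθ1 : θ < 1 := by linarith
  set p : ℝ := θ ^ α with hp
  have hp0 : 0 < p := Real.rpow_pos_of_pos hθ α
  have hp1 : p < 1 := Real.rpow_lt_one hθ.le hθ1 hα0
  have hpn : p ^ n = θ := by
    rw [hp, ← Real.rpow_natCast, ← Real.rpow_mul hθ.le, hα, one_div,
      inv_mul_cancel₀ (by positivity), Real.rpow_one]
  set q : ℝ := Real.sqrt θ with hq
  have hq0 : 0 ≤ q := Real.sqrt_nonneg θ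
  have hqp : q ≤ p := by
    rw [hq, hp, Real.sqrt_eq_rpow]
    exact Real.rpow_le_rpow_of_exponent_ge hθ hθ1.le hα1
  have hq1 : q < 1 := hqp.trans_lt hp1
  set η₀ : ℝ := min 1 ε with hη₀
  have hη0 : 0 < η₀ := lt_min one_pos hε
  have hηn : η₀ ^ n ≤ ε := (pow_le_of_le_one hη0.le (min_le_left _ _) hn0).trans (min_le_right _ _)
  set D : ℝ := C * Real.sqrt (η₀ ^ n) / (1 - q) with hD
  have hD0 : 0 ≤ D := div_nonneg (mul_nonneg hC (Real.sqrt_nonneg _)) (by linarith)
  set B : ℝ := 2 * (K * η₀ + D) with hB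
  refine ⟨η₀ ^ n, α, B / θ ^ (1 + α), pow_pos hη0 n, hα0, by linarith,
    div_nonneg (by positivity) (Real.rpow_nonneg hθ.le _), fun v e hv he hv0 hcl hE => ?_⟩
  set w : ℕ → Euc d → ℝ := fun k => rescale v 0 (θ ^ k) with hw
  have hwr : ∀ k, IsRegMin L c (w k) := fun k => hv.rescale (pow_pos hθ k) 0
  have hw0 : ∀ k, w k 0 = 0 := fun k => by simp [hw, rescale, hv0]
  have hwcl : ∀ k, (0 : Euc d) ∈ closure (posSet (w k)) := fun k => by
    have := map_mem_closure (f := fun z : Euc d => (θ ^ k)⁻¹ • z) (by fun_prop) hcl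
      (t := posSet (w k)) fun z hz => by
        show 0 < w k _
        have : 0 < v z := hz
        simp [hw, rescale, smul_smul, hθ.ne', this, hθ]
    simpa using this
  set E : ℕ → Euc d → ℝ := fun k e => ∫ x in Metric.ball (0 : Euc d) 4, exDens (w k) e x
  let P : ℕ → Euc d → Prop := fun k f => ‖f‖ = 1 ∧ E k f ≤ θ ^ k * η₀ ^ n
  have hstep : ∀ k f, P k f → ∃ f', P (k + 1) f' ∧
      ‖f' - f‖ ≤ C * Real.sqrt (η₀ ^ n) * q ^ k := by
    rintro k f ⟨hf, hEf⟩
    have hk1 : θ ^ k ≤ 1 := pow_le_one₀ hθ.le hθ1.le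
    obtain ⟨f', hf', hd', hdec'⟩ := hdec (w k) f (hwr k) hf (hw0 k) (hwcl k)
      ((hEf.trans (mul_le_of_le_one_left (pow_nonneg hη0.le n) hk1)).trans hηn)
    refine ⟨f', ⟨hf', ?_⟩, hd'.trans ?_⟩
    · have e1 := setIntegral_exDens_rescale hv (pow_pos hθ (k + 1)) 0 f' 4
      have e2 := setIntegral_exDens_rescale hv (pow_pos hθ k) 0 f' (4 * θ)
      rw [show θ ^ (k + 1) * 4 = θ ^ k * (4 * θ) by ring] at e1
      set I := ∫ y in Metric.ball (0 : Euc d) (θ ^ k * (4 * θ)), exDens v f' y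
      have h1 : E (k + 1) f' =
          (θ ^ d)⁻¹ * ∫ x in Metric.ball 0 (4 * θ), exDens (w k) f' x := by
        simp only [E, hw]
        rw [e1, e2, pow_succ, mul_pow, mul_inv, mul_comm ((θ ^ k) ^ d)⁻¹, mul_assoc]
      rw [h1]
      calc _ ≤ (θ ^ d)⁻¹ * (θ ^ (d + 1) * (θ ^ k * η₀ ^ n)) := by
            refine mul_le_mul_of_nonneg_left (hdec'.trans ?_) (by positivity)
            exact mul_le_mul_of_nonneg_left hEf (by positivity)
        _ = _ := by rw [pow_succ θ d]; field_simp; ring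
    · rw [mul_assoc C]
      refine mul_le_mul_of_nonneg_left ?_ hC
      have : q ^ k = Real.sqrt (θ ^ k) := by
        rw [hq, ← Real.sqrt_sq (pow_nonneg (Real.sqrt_nonneg θ) k), ← pow_mul, mul_comm k 2,
          pow_mul, Real.sq_sqrt hθ.le]
      rw [this, ← Real.sqrt_mul (pow_nonneg hη0.le n)]
      exact Real.sqrt_le_sqrt (hEf.trans_eq (mul_comm _ _))
  choose g hg hgd using hstep
  have hE0 : E 0 e ≤ θ ^ 0 * η₀ ^ n := by
    have h0 : w 0 = v := funext fun z => by simp [hw, rescale]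
    simpa [E, h0] using hE
  let f : ∀ k, {f : Euc d // P k f} := fun k => Nat.rec (motive := fun k => {f : Euc d // P k f})
    ⟨e, he, hE0⟩ (fun k fk => ⟨g k fk.1 fk.2, hg k fk.1 fk.2⟩) k
  have hdist : ∀ k, dist ((f k).1) ((f (k + 1)).1) ≤ C * Real.sqrt (η₀ ^ n) * q ^ k := fun k => by
    rw [dist_comm, dist_eq_norm]
    exact hgd k _ (f k).2
  obtain ⟨ν, hν⟩ := cauchySeq_tendsto_of_complete
    (cauchySeq_of_le_geometric q _ hq1 hdist)
  refine ⟨ν, tendsto_nhds_unique hν.norm (tendsto_const_nhds.congr fun k => ((f k).2.1).symm),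
    fun z hz => ?_⟩
  rcases eq_or_ne z 0 with rfl | hz0
  · simp [hv0]
    positivity
  obtain ⟨k, hk1, hk2⟩ := exists_pow_bracket hθ.le hθ1 (norm_pos_iff.2 hz0) hz
  set z' : Euc d := (θ ^ k)⁻¹ • z
  have hθk := pow_pos hθ k
  have hz' : ‖z'‖ < 1 := by
    rw [norm_smul, norm_inv, Real.norm_eq_abs, abs_of_pos hθk, inv_mul_eq_div, div_lt_one hθk]
    exact hk2
  have hη : 0 < η₀ * p ^ k := by positivity
  have hfl := hflat (w k) (f k).1 (η₀ * p ^ k) (hwr k) (f k).2.1 (hw0 k) (hwcl k) hη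
    (mul_le_one₀ (min_le_left _ _) (pow_nonneg hp0.le k) (pow_le_one₀ hp0.le hp1.le))
    ((f k).2.2.trans (le_of_eq (by
      rw [mul_pow, ← pow_mul, mul_comm k n, pow_mul, hpn, mul_comm])))
    z' (by simpa using hz')
  simp only [sub_zero, mul_one] at hfl
  have hDk : ‖(f k).1 - ν‖ ≤ D * p ^ k := by
    have := dist_le_of_le_geometric_of_tendsto q _ hq1 hdist hν k
    rw [dist_eq_norm] at this
    refine this.trans (le_of_eq_of_le ?_ (mul_le_mul_of_nonneg_left
      (pow_le_pow_left₀ hq0 hqp k) hD0))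
    rw [hD]; ring
  have hin : |⟪(f k).1, z'⟫ - ⟪ν, z'⟫| ≤ D * p ^ k := by
    rw [← inner_sub_left]
    exact (abs_real_inner_le_norm _ _).trans
      ((mul_le_of_le_one_right (norm_nonneg _) hz'.le).trans hDk)
  have hKk : K * (η₀ * p ^ k) ≤ (K * η₀ + D) * p ^ k := by
    rw [add_mul, ← mul_assoc]
    linarith [mul_nonneg hD0 (pow_nonneg hp0.le k)]
  have hDle : D * p ^ k ≤ (K * η₀ + D) * p ^ k :=
    mul_le_mul_of_nonneg_right (le_add_of_nonneg_left (mul_nonneg hK.le hη0.le))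
      (pow_nonneg hp0.le k)
  have key := abs_max_sub_le (w k z') (ε := (K * η₀ + D) * p ^ k)
    ((max_le_max (by linarith) le_rfl).trans hfl.1) (hfl.2.trans (max_le_max (by linarith) le_rfl))
    (hin.trans hDle)
  have hwz : w k z' = v z / θ ^ k := by
    simp [hw, rescale, z', smul_smul, hθk.ne']
  rw [hwz, real_inner_smul_right, ← mul_assoc, ← hB] at key
  have hmax : max ((θ ^ k)⁻¹ * ⟪ν, z⟫) 0 = max ⟪ν, z⟫ 0 / θ ^ k := by
    rw [inv_mul_eq_div, ← max_div_div_right hθk.le, zero_div]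
  rw [hmax, ← sub_div, abs_div, abs_of_pos hθk, div_le_iff₀ hθk] at key
  refine key.trans ?_
  have hB0 : 0 ≤ B := by positivity
  rw [div_mul_eq_mul_div, le_div_iff₀ (Real.rpow_pos_of_pos hθ _), mul_assoc B, mul_assoc B]
  refine mul_le_mul_of_nonneg_left ?_ hB0
  calc p ^ k * θ ^ k * θ ^ (1 + α) = (θ ^ (k + 1)) ^ (1 + α) := by
        rw [← Real.rpow_natCast_mul hθ.le, hp, ← Real.rpow_mul_natCast hθ.le, ← Real.rpow_natCast,
          ← Real.rpow_add hθ, ← Real.rpow_add hθ]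
        congr 1
        push_cast
        ring
    _ ≤ ‖z‖ ^ (1 + α) := Real.rpow_le_rpow (by positivity) hk1 (by linarith)

end Vale.Agent.P098
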