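import Vale.Agent.P098.Regularity.Flatness.Excess

/-!
P098, block B4: the fundamental theorem of calculus along segments, and averages over parallel
segments.
-/

open MeasureTheory Filter
open scoped Topology ContDiff NNReal RealInnerProductSpace Gradient Interval

namespace Vale.Agent.P098

variable {d : ℕ} {L : ℝ≥0} {c : ℝ} {u F : Euc d → ℝ}

/-- The mean of `F` on the segment from `z` to `z + v`. -/
noncomputable def segInt (F : Euc d → ℝ) (z v : Euc d) : ℝ := ∫ s in (0 : ℝ)..1, F (z + s • v)

lemma intervalIntegrable_seg (hF : Measurable F) {M : ℝ} (hM : ∀ x, |F x| ≤ M) (z v : Euc d)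
    (a b : ℝ) : IntervalIntegrable (fun s : ℝ => F (z + s • v)) volume a b := by
  refine intervalIntegrable_iff.2 (Measure.integrableOn_of_bounded (M := M)
    measure_Ioc_lt_top.ne ?_ (Eventually.of_forall fun s => hM _))
  exact (hF.comp (measurable_const.add (measurable_id.smul_const v))).aestronglyMeasurable

lemma IsRegMin.hasDerivAt_line (hu : IsRegMin L c u) (z v : Euc d) {s : ℝ}
    (hs : z + s • v ∈ posSet u) :
    HasDerivAt (fun r : ℝ => u (z + r • v)) ⟪∇ u (z + s • v), v⟫ s := by
  rw [inner_gradient_left]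
  have hv : HasDerivAt (fun r : ℝ => z + r • v) v s := by
    simpa using ((hasDerivAt_id s).smul_const v).const_add z
  exact ((hu.contDiffAt_one hs).differentiableAt one_ne_zero).hasFDerivAt.comp_hasDerivAt s hv

lemma IsRegMin.deriv_line (hu : IsRegMin L c u) (z v : Euc d) (s : ℝ) :
    deriv (fun r : ℝ => u (z + r • v)) s = ⟪∇ u (z + s • v), v⟫ := by
  by_cases hs : z + s • v ∈ posSet u
  · exact (hu.hasDerivAt_line z v hs).deriv
  · have h0 : u (z + s • v) = 0 := le_antisymm (not_lt.1 hs) (hu.nonneg _)
    rw [gradient_eq_zero_of_eq_zero hu.nonneg h0, inner_zero_left]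
    exact IsLocalMin.deriv_eq_zero (Eventually.of_forall fun r => h0.trans_le (hu.nonneg _))

/-- The fundamental theorem of calculus on a segment. -/
theorem IsRegMin.sub_eq_integral_line (hu : IsRegMin L c u) (z v : Euc d) :
    u (z + v) - u z = ∫ s in (0 : ℝ)..1, ⟪∇ u (z + s • v), v⟫ := by
  have hlin : LipschitzWith ‖v‖₊ fun s : ℝ => z + s • v :=
    LipschitzWith.of_dist_le_mul fun a b => by
      simp [dist_eq_norm, ← sub_smul, norm_smul, mul_comm]
  have hlip := hu.lip.comp hlin
  have h := (hlip.lipschitzOnWith (s := Set.uIcc (0 : ℝ) 1)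
    ).absolutelyContinuousOnInterval.integral_deriv_eq_sub
  simp only [Function.comp_def, zero_smul, add_zero, one_smul, hu.deriv_line z v] at h
  exact h.symm

lemma exRoot_bound (hu : LipschitzWith L u) {e : Euc d} (he : ‖e‖ = 1) (x : Euc d) :
    |exRoot u e x| ≤ L + 1 :=
  (abs_of_nonneg (exRoot_nonneg u e x)).trans_le (exRoot_le hu he x)

lemma abs_inner_gradient_horizontal (hn : ∀ x, 0 ≤ u x) {e v : Euc d} (hv : ⟪e, v⟫ = 0)
    (x : Euc d) : |⟪∇ u x, v⟫| ≤ ‖v‖ * exRoot u e x := by
  by_cases hx : x ∈ posSet u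
  · rw [exRoot_of_mem e hx, show ⟪∇ u x, v⟫ = ⟪∇ u x - e, v⟫ by rw [inner_sub_left, hv, sub_zero],
      mul_comm]
    exact abs_real_inner_le_norm _ _
  · simp [gradient_eq_zero_of_notMem hn hx, exRoot_of_notMem e hx]

lemma abs_inner_gradient_sub_indicator (hn : ∀ x, 0 ≤ u x) {e : Euc d} (he : ‖e‖ = 1)
    (x : Euc d) : |⟪∇ u x, e⟫ - (posSet u).indicator 1 x| ≤ exRoot u e x := by
  by_cases hx : x ∈ posSet u
  · rw [exRoot_of_mem e hx, Set.indicator_of_mem hx, Pi.one_apply,
      show ⟪∇ u x, e⟫ - 1 = ⟪∇ u x - e, e⟫ by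
        rw [inner_sub_left, real_inner_self_eq_norm_sq, he, one_pow] ]
    have h := abs_real_inner_le_norm (∇ u x - e) e
    rwa [he, mul_one] at h
  · simp [hx, gradient_eq_zero_of_notMem hn hx, exRoot_of_notMem e hx]

lemma segInt_nonneg (h : ∀ x, 0 ≤ F x) (z v : Euc d) : 0 ≤ segInt F z v :=
  intervalIntegral.integral_nonneg zero_le_one fun _ _ => h _

/-- Increments in directions orthogonal to `e`. -/
theorem IsRegMin.abs_sub_horizontal (hu : IsRegMin L c u) {e : Euc d} (he : ‖e‖ = 1)
    {v : Euc d} (hv : ⟪e, v⟫ = 0) (z : Euc d) :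
    |u (z + v) - u z| ≤ ‖v‖ * segInt (exRoot u e) z v := by
  rw [hu.sub_eq_integral_line, segInt, ← intervalIntegral.integral_const_mul]
  refine (intervalIntegral.abs_integral_le_integral_abs zero_le_one).trans ?_
  refine intervalIntegral.integral_mono_on zero_le_one ?_ ?_ fun s _ =>
    abs_inner_gradient_horizontal hu.nonneg hv _
  · exact (intervalIntegrable_seg (F := fun x => ⟪∇ u x, v⟫)
      ((measurable_gradient u).inner measurable_const) (M := L * ‖v‖) (fun x =>
        (abs_real_inner_le_norm _ _).trans (mul_le_mul_of_nonneg_right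
          (norm_gradient_le hu.lip x) (norm_nonneg _))) z v 0 1).abs
  · exact (intervalIntegrable_seg (measurable_exRoot hu.lip.continuous e)
      (exRoot_bound hu.lip he) z v 0 1).const_mul _

/-- Increments in the direction `e`. -/
theorem IsRegMin.abs_sub_vertical (hu : IsRegMin L c u) {e : Euc d} (he : ‖e‖ = 1) (a : ℝ)
    (z : Euc d) :
    |u (z + a • e) - u z - a * segInt ((posSet u).indicator 1) z (a • e)|
      ≤ |a| * segInt (exRoot u e) z (a • e) := by
  have i1 := intervalIntegrable_seg (F := fun x => ⟪∇ u x, e⟫)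
    ((measurable_gradient u).inner measurable_const) (M := L) (fun x =>
      (abs_real_inner_le_norm _ _).trans (by rw [he, mul_one]; exact norm_gradient_le hu.lip x))
    z (a • e) 0 1
  have i2 := intervalIntegrable_seg (F := (posSet u).indicator 1)
    (measurable_one.indicator hu.isOpen_posSet.measurableSet) (M := 1) (fun x => by
      by_cases hx : x ∈ posSet u <;> simp [hx]) z (a • e) 0 1
  rw [hu.sub_eq_integral_line, segInt, segInt]
  simp only [real_inner_smul_right]
  rw [intervalIntegral.integral_const_mul, ← mul_sub, ← intervalIntegral.integral_sub i1 i2,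
    abs_mul]
  refine mul_le_mul_of_nonneg_left ?_ (abs_nonneg a)
  refine (intervalIntegral.abs_integral_le_integral_abs zero_le_one).trans ?_
  exact intervalIntegral.integral_mono_on zero_le_one (i1.sub i2).abs
    (intervalIntegrable_seg (measurable_exRoot hu.lip.continuous e) (exRoot_bound hu.lip he) _ _ 0 1)
    fun s _ => abs_inner_gradient_sub_indicator hu.nonneg he _

lemma segInt_indicator_mem_Icc (hu : Continuous u) (z v : Euc d) :
    segInt ((posSet u).indicator 1) z v ∈ Set.Icc (0 : ℝ) 1 := by
  have hb : ∀ x, (posSet u).indicator (1 : Euc d → ℝ) x ∈ Set.Icc (0 : ℝ) 1 := fun x => by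
    by_cases hx : x ∈ posSet u <;> simp [hx]
  refine ⟨segInt_nonneg (fun x => (hb x).1) z v, ?_⟩
  calc segInt ((posSet u).indicator 1) z v ≤ ∫ _s in (0 : ℝ)..1, (1 : ℝ) :=
        intervalIntegral.integral_mono_on zero_le_one
          (intervalIntegrable_seg (measurable_one.indicator
            (isOpen_lt continuous_const hu).measurableSet) (M := 1)
            (fun x => (abs_of_nonneg (hb x).1).trans_le (hb x).2) z v 0 1)
          intervalIntegrable_const fun s _ => (hb _).2
    _ = 1 := by simp

/-- The average of segment means is controlled by the integral on the swept set. -/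
theorem integrableOn_segInt_and_le (hF : Measurable F) {M : ℝ} (hM : ∀ x, |F x| ≤ M)
    (h0 : ∀ x, 0 ≤ F x) {S A : Set (Euc d)} (hS : MeasurableSet S)
    (hSb : Bornology.IsBounded S) (hA : MeasurableSet A) (hAb : Bornology.IsBounded A)
    (a v : Euc d) (hsub : ∀ z ∈ S, ∀ s ∈ Set.Icc (0 : ℝ) 1, z + a + s • v ∈ A) :
    IntegrableOn (fun z => segInt F (z + a) v) S ∧
      ∫ z in S, segInt F (z + a) v ≤ ∫ x in A, F x := by
  have := isFiniteMeasure_restrict hSb
  have hIfin : IsFiniteMeasure (volume.restrict (Set.Ioc (0 : ℝ) 1)) :=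
    ⟨by rw [Measure.restrict_apply_univ]; exact measure_Ioc_lt_top⟩
  have hFA : IntegrableOn F A := Measure.integrableOn_of_bounded (M := M) hAb.measure_lt_top.ne
    hF.aestronglyMeasurable (Eventually.of_forall hM)
  have hp : Integrable (Function.uncurry fun (z : Euc d) (s : ℝ) => F (z + a + s • v))
      ((volume.restrict S).prod (volume.restrict (Set.Ioc (0 : ℝ) 1))) :=
    Integrable.of_bound (hF.comp ((measurable_fst.add_const a).add
      (measurable_snd.smul_const v))).aestronglyMeasurable M
      (Eventually.of_forall fun p => hM _)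
  have e : ∀ z, segInt F (z + a) v = ∫ s in Set.Ioc (0 : ℝ) 1, F (z + a + s • v) := fun z =>
    intervalIntegral.integral_of_le zero_le_one
  refine ⟨hp.integral_prod_left.congr (Eventually.of_forall fun z => (e z).symm), ?_⟩
  simp only [e]
  rw [integral_integral_swap hp]
  calc ∫ s in Set.Ioc (0 : ℝ) 1, ∫ z in S, F (z + a + s • v)
      ≤ ∫ _s in Set.Ioc (0 : ℝ) 1, ∫ x in A, F x := by
        refine setIntegral_mono_on hp.integral_prod_right (integrable_const _)
          measurableSet_Ioc fun s hs => ?_
        rw [← integral_indicator hA, ← integral_add_right_eq_self (A.indicator F) (a + s • v),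
          ← integral_indicator hS]
        refine integral_mono_of_nonneg (Eventually.of_forall fun z =>
          Set.indicator_nonneg (fun y _ => h0 _) z)
          ((hFA.integrable_indicator hA).comp_add_right _) (Eventually.of_forall fun z => ?_)
        beta_reduce
        by_cases hz : z ∈ S
        · rw [Set.indicator_of_mem hz, Set.indicator_of_mem
            (by simpa [add_assoc] using hsub z hz s (Set.Ioc_subset_Icc_self hs)), add_assoc]
        · rw [Set.indicator_of_notMem hz]
          exact Set.indicator_nonneg (fun y _ => h0 _) _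
    _ = ∫ x in A, F x := by simp

/-- Some translate of a broken line has small mean of `exRoot` on both pieces. -/
theorem exists_small_segments (hu : LipschitzWith L u) {e : Euc d} (he : ‖e‖ = 1) {x : Euc d}
    {η : ℝ} (hη : 0 < η) {A : Set (Euc d)} (hA : MeasurableSet A) (hAb : Bornology.IsBounded A)
    (v₁ v₂ : Euc d)
    (h₁ : ∀ z ∈ Metric.ball x η, ∀ s ∈ Set.Icc (0 : ℝ) 1, z + s • v₁ ∈ A)
    (h₂ : ∀ z ∈ Metric.ball x η, ∀ s ∈ Set.Icc (0 : ℝ) 1, z + v₁ + s • v₂ ∈ A) :
    ∃ z ∈ Metric.ball x η,
      (segInt (exRoot u e) z v₁ + segInt (exRoot u e) (z + v₁) v₂)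
        * volume.real (Metric.ball x η) ≤ 2 * ∫ y in A, exRoot u e y := by
  have hm := measurable_exRoot hu.continuous e
  obtain ⟨i1, l1⟩ := integrableOn_segInt_and_le hm (exRoot_bound hu he) (exRoot_nonneg u e)
    (S := Metric.ball x η) measurableSet_ball Metric.isBounded_ball hA hAb 0 v₁
    (fun z hz s hs => by simpa using h₁ z hz s hs)
  obtain ⟨i2, l2⟩ := integrableOn_segInt_and_le hm (exRoot_bound hu he) (exRoot_nonneg u e)
    (S := Metric.ball x η) measurableSet_ball Metric.isBounded_ball hA hAb v₁ v₂ h₂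
  simp only [add_zero] at i1 l1
  obtain ⟨z, hz, hle⟩ := exists_le_setAverage (Metric.measure_ball_pos volume x hη).ne'
    Metric.isBounded_ball.measure_lt_top.ne (i1.add i2)
  refine ⟨z, hz, ?_⟩
  rw [setAverage_eq, smul_eq_mul] at hle
  simp only [Pi.add_apply] at hle
  rw [integral_add i1 i2] at hle
  have hpos : 0 < volume.real (Metric.ball x η) :=
    ENNReal.toReal_pos (Metric.measure_ball_pos volume x hη).ne'
      Metric.isBounded_ball.measure_lt_top.ne
  rw [← le_div_iff₀ hpos, div_eq_inv_mul]
  exact hle.trans (mul_le_mul_of_nonneg_left (by linarith) (inv_nonneg.2 hpos.le))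

end Vale.Agent.P098
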