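import Vale.Agent.P098.Regularity.Flatness.MainAux
import Vale.Agent.P098.Regularity.Flatness.Decay

/-!
P098, block B4: flatness at a free boundary point gives normals with a rate near it.
-/

open MeasureTheory Filter
open scoped Topology NNReal

namespace Vale.Agent.P098

/-- Flat free boundary points have normals with a rate. -/
theorem flatnessBlock (d : ℕ) : FlatnessBlock d :=
  flatnessBlock_of_decay d (fun L _ hc _ hε => exists_small_excess d L hc hε)
    fun L _ hc => exists_decay d L hc

end Vale.Agent.P098
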