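import Vale.Agent.P098.Regularity.Flatness.Iterate

/-!
P098, block B4: from flatness at one point to normals with a rate near it, given decay.
-/

open MeasureTheory Filter
open scoped Topology ContDiff NNReal RealInnerProductSpace Gradient

namespace Vale.Agent.P098

variable {d : ℕ} {L : ℝ≥0} {c : ℝ} {u : Euc d → ℝ}

lemma flat_recenter {x₀ e x : Euc d} {r ε : ℝ} (hε : 0 ≤ ε) (hr : 0 < r) (hn : ∀ y, 0 ≤ u y)
    (hflat : IsFlatIn u x₀ e r ε) (hx : x ∈ Metric.ball x₀ (r / 4))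
    (hcl : x ∈ closure (posSet u)) (hx0 : u x = 0) :
    IsFlatIn (rescale u x (r / 2)) 0 e 1 (4 * ε) := by
  have hxr : x ∈ Metric.ball x₀ r := Metric.ball_subset_ball (by linarith) hx
  have h1 : ⟪e, x - x₀⟫ ≤ ε * r := by
    have := (hflat x hxr).1
    rw [hx0] at this
    linarith [le_max_left (⟪e, x - x₀⟫ - ε * r) 0]
  have h2 : -(ε * r) ≤ ⟪e, x - x₀⟫ := by
    by_contra h
    have ho : ∀ᶠ y in 𝓝 x, ⟪e, y - x₀⟫ < -(ε * r) ∧ y ∈ Metric.ball x₀ r :=
      ((((continuous_const.inner (continuous_id.sub continuous_const)).continuousAt).eventually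
        (gt_mem_nhds (not_le.1 h))).and (Metric.isOpen_ball.mem_nhds hxr))
    obtain ⟨y, hy, hya, hyb⟩ := mem_closure_iff_frequently.1 hcl |>.and_eventually ho |>.exists
    have := (hflat y hyb).2
    rw [max_eq_right (by linarith)] at this
    exact absurd hy (not_lt.2 this)
  intro z hz
  rw [mem_ball_zero_iff] at hz
  set y := x + (r / 2) • z with hy
  have hyb : y ∈ Metric.ball x₀ r := by
    rw [Metric.mem_ball, dist_eq_norm] at hx ⊢
    calc ‖y - x₀‖ = ‖(x - x₀) + (r / 2) • z‖ := by rw [hy]; congr 1; abel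
      _ ≤ ‖x - x₀‖ + r / 2 * 1 := (norm_add_le _ _).trans (add_le_add le_rfl (by
          rw [norm_smul, Real.norm_eq_abs, abs_of_pos (by linarith : 0 < r / 2)]
          exact mul_le_mul_of_nonneg_left hz.le (by linarith)))
      _ < r := by linarith
  obtain ⟨a, b⟩ := hflat y hyb
  have hi : ⟪e, y - x₀⟫ = ⟪e, x - x₀⟫ + r / 2 * ⟪e, z⟫ := by
    rw [← real_inner_smul_right, ← inner_add_right, hy]
    congr 1
    abel
  have h0 : 0 ≤ ε * r := mul_nonneg hε hr.le
  have hv : rescale u x (r / 2) z = u y / (r / 2) := rfl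
  rw [sub_zero, mul_one, hv, max_le_iff, le_div_iff₀ (by linarith), le_div_iff₀ (by linarith)]
  refine ⟨⟨?_, by linarith [hn y]⟩, ?_⟩
  · linarith [le_max_left (⟪e, y - x₀⟫ - ε * r) 0, mul_comm (r / 2) ⟪e, z⟫]
  · rw [div_le_iff₀ (by linarith), max_mul_of_nonneg _ _ (by linarith : (0 : ℝ) ≤ r / 2), zero_mul]
    exact b.trans (max_le_max (by linarith [mul_comm (r / 2) ⟪e, z⟫]) le_rfl)

/-- Flatness gives normals, given smallness and decay of the excess. -/
theorem flatnessBlock_of_decay (d : ℕ)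
    (hsmall : ∀ (L : ℝ≥0) {c : ℝ}, 0 < c → ∀ {ε : ℝ}, 0 < ε → ∃ δ, 0 < δ ∧
      ∀ (u : Euc d → ℝ) (e : Euc d), IsRegMin L c u → ‖e‖ = 1 → IsFlatIn u 0 e 1 δ →
        ∫ x in Metric.ball 0 (1 / 8), exDens u e x ≤ ε)
    (hdecay : ∀ (L : ℝ≥0) {c : ℝ}, 0 < c → ∃ θ ε C : ℝ, 0 < θ ∧ θ ≤ 1 / 4 ∧ 0 < ε ∧ 0 ≤ C ∧
      ∀ (u : Euc d → ℝ) (e : Euc d), IsRegMin L c u → ‖e‖ = 1 → u 0 = 0 →
        (0 : Euc d) ∈ closure (posSet u) → ∫ x in Metric.ball 0 4, exDens u e x ≤ ε →
          ∃ e' : Euc d, ‖e'‖ = 1 ∧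
            ‖e' - e‖ ≤ C * Real.sqrt (∫ x in Metric.ball 0 4, exDens u e x) ∧
            ∫ x in Metric.ball 0 (4 * θ), exDens u e' x ≤
              θ ^ (d + 1) * ∫ x in Metric.ball 0 4, exDens u e x) :
    FlatnessBlock d := by
  intro L c hc
  obtain ⟨θ, ε, C, hθ, hθ4, hε, hC, hdec⟩ := hdecay L hc
  obtain ⟨ε₀, α, A, hε₀, hα, hα1, hA, hnorm⟩ := exists_normal_of_decay d L hc hθ hθ4 hε hC hdec
  obtain ⟨δ, hδ, hsm⟩ := hsmall L hc (div_pos hε₀ (pow_pos (by norm_num : (0 : ℝ) < 32) d))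
  refine ⟨δ / 4, by positivity, fun u x₀ e r hu _ he hr hflat => ?_⟩
  set s := r / 64 with hs
  have hs0 : 0 < s := by positivity
  have key : ∀ x ∈ Metric.ball x₀ (r / 128) ∩ frontier (posSet u), ∃ ν : Euc d, ‖ν‖ = 1 ∧
      ∀ z : Euc d, ‖z‖ < 1 → |rescale u x s z - max ⟪ν, z⟫ 0| ≤ A * ‖z‖ ^ (1 + α) := by
    rintro x ⟨hxb, hxf⟩
    have hcl : x ∈ closure (posSet u) := frontier_subset_closure hxf
    have hx0 : u x = 0 := le_antisymm
      (not_lt.1 fun h => by
        have ho : IsOpen (posSet u) := isOpen_lt continuous_const hu.lip.continuous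
        rw [ho.frontier_eq] at hxf
        exact hxf.2 h) (hu.nonneg x)
    have hfl := flat_recenter (by positivity) hr hu.nonneg hflat
      (Metric.ball_subset_ball (by linarith) hxb) hcl hx0
    rw [show 4 * (δ / 4) = δ by ring] at hfl
    have hr2 : 0 < r / 2 := by linarith
    have hE := hsm _ e (hu.rescale hr2 x) he hfl
    rw [setIntegral_exDens_rescale hu hr2] at hE
    refine hnorm _ e (hu.rescale hs0 x) he (by simp [rescale, hx0]) ?_ ?_
    · have := map_mem_closure (f := fun z : Euc d => s⁻¹ • (z - x)) (by fun_prop) hcl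
        (t := posSet (rescale u x s)) fun z hz => by
          show 0 < u _ / s
          rw [smul_smul, mul_inv_cancel₀ hs0.ne', one_smul, add_sub_cancel]
          exact div_pos hz hs0
      simpa using this
    · rw [setIntegral_exDens_rescale hu hs0, show s * 4 = r / 2 * (1 / 8) by rw [hs]; ring]
      have e1 : (s ^ d)⁻¹ = (32 : ℝ) ^ d * ((r / 2) ^ d)⁻¹ := by
        rw [show r / 2 = 32 * s by rw [hs]; ring, mul_pow, mul_inv, ← mul_assoc,
          mul_inv_cancel₀ (pow_ne_zero d (by norm_num : (32 : ℝ) ≠ 0)), one_mul]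
      rw [e1, mul_assoc]
      exact (mul_le_mul_of_nonneg_left hE (by positivity)).trans (le_of_eq (by field_simp))
  choose ν hν hνb using key
  classical
  refine ⟨r / 128, α, s * A / s ^ (1 + α),
    fun x => if h : x ∈ Metric.ball x₀ (r / 128) ∩ frontier (posSet u) then ν x h else e,
    by positivity, hα, hα1, by positivity, fun x hx => ?_⟩
  simp only [dif_pos hx]
  refine ⟨hν x hx, fun y hy => ?_⟩
  set z := s⁻¹ • (y - x)
  have hz : ‖z‖ = ‖y - x‖ / s := by
    rw [norm_smul, norm_inv, Real.norm_eq_abs, abs_of_pos hs0, inv_mul_eq_div]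
  have hz1 : ‖z‖ < 1 := by
    rw [hz, div_lt_one hs0]
    have h1 := Metric.mem_ball.1 hy
    have h2 := Metric.mem_ball.1 hx.1
    rw [← dist_eq_norm]
    linarith [dist_triangle y x₀ x, dist_comm x x₀]
  have h := hνb x hx z hz1
  have e1 : rescale u x s z = u y / s := by
    simp [rescale, z, smul_smul, hs0.ne']
  rw [e1, real_inner_smul_right, inv_mul_eq_div, show max (⟪ν x hx, y - x⟫ / s) 0 =
    max ⟪ν x hx, y - x⟫ 0 / s by rw [← max_div_div_right hs0.le, zero_div], ← sub_div, abs_div,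
    abs_of_pos hs0, div_le_iff₀ hs0, hz, Real.div_rpow (norm_nonneg _) hs0.le] at h
  exact h.trans (le_of_eq (by ring))

end Vale.Agent.P098
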