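import Vale.Agent.P098.Regularity.Flatness.Parts
import Vale.Agent.P098.Regularity.B5.Kernel

/-!
P098, block B4: mollified means of the components of `∇ u - e`, and the interior gradient bound.
-/

open MeasureTheory Filter
open scoped Topology ContDiff NNReal RealInnerProductSpace Gradient

namespace Vale.Agent.P098

open B5 (rho sig euler avg)

variable {d : ℕ} {L : ℝ≥0} {c : ℝ} {u : Euc d → ℝ}

/-- The component of `∇ u - e` along `v` on the positivity set. -/
noncomputable def compD (u : Euc d → ℝ) (e v y : Euc d) : ℝ :=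
  ⟪∇ u y, v⟫ - ⟪e, v⟫ * (posSet u).indicator 1 y

lemma compD_of_mem (e v : Euc d) {y : Euc d} (hy : y ∈ posSet u) :
    compD u e v y = ⟪∇ u y - e, v⟫ := by
  simp [compD, inner_sub_left, Set.indicator_of_mem hy]

lemma compD_of_notMem (hn : ∀ x, 0 ≤ u x) (e v : Euc d) {y : Euc d} (hy : y ∉ posSet u) :
    compD u e v y = 0 := by
  simp [compD, gradient_eq_zero_of_notMem hn hy, Set.indicator_of_notMem hy]

lemma abs_compD_le (hn : ∀ x, 0 ≤ u x) (e v y : Euc d) :
    |compD u e v y| ≤ ‖v‖ * exRoot u e y := by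
  by_cases hy : y ∈ posSet u
  · rw [compD_of_mem e v hy, exRoot_of_mem e hy, mul_comm]
    exact abs_real_inner_le_norm _ _
  · simp [compD_of_notMem hn e v hy, exRoot_of_notMem e hy]

lemma abs_compD_le_const (hu : IsRegMin L c u) {e : Euc d} (he : ‖e‖ = 1) (v y : Euc d) :
    |compD u e v y| ≤ ‖v‖ * (L + 1) :=
  (abs_compD_le hu.nonneg e v y).trans
    (mul_le_mul_of_nonneg_left (exRoot_le hu.lip he y) (norm_nonneg v))

lemma measurable_compD (hu : Continuous u) (e v : Euc d) : Measurable (compD u e v) :=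
  ((measurable_gradient u).inner measurable_const).sub
    (measurable_const.mul (measurable_one.indicator (isOpen_lt continuous_const hu).measurableSet))

/-- The potential of the mollifier at scale `τ` about `x`. -/
noncomputable def potAt (τ : ℝ) (x y : Euc d) : ℝ := sig (τ⁻¹ • (x - y))

lemma contDiff_potAt (τ : ℝ) (x : Euc d) : ContDiff ℝ ∞ (potAt τ x) :=
  B5.contDiff_sig.comp ((contDiff_const.sub contDiff_id).const_smul τ⁻¹)

lemma eq_zero_outside {k : Euc d → ℝ} (hk : B5.IsKernel k) {τ : ℝ} (hτ : 0 < τ) {x y : Euc d}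
    (hy : y ∉ Metric.closedBall x τ) : k (τ⁻¹ • (x - y)) = 0 := by
  refine hk.supp _ ?_
  rw [Metric.mem_closedBall, dist_eq_norm, norm_sub_rev, not_le] at hy
  rw [norm_smul, norm_inv, Real.norm_eq_abs, abs_of_pos hτ, lt_inv_mul_iff₀ hτ, mul_one]
  exact hy

lemma tsupport_potAt {τ : ℝ} (hτ : 0 < τ) (x : Euc d) :
    tsupport (potAt τ x) ⊆ Metric.closedBall x τ :=
  closure_minimal (fun _ hy => by
    by_contra h
    exact hy (eq_zero_outside B5.isKernel_sig hτ h)) Metric.isClosed_closedBall

lemma hasCompactSupport_potAt {τ : ℝ} (hτ : 0 < τ) (x : Euc d) :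
    HasCompactSupport (potAt τ x) :=
  (isCompact_closedBall x τ).of_isClosed_subset (isClosed_tsupport _) (tsupport_potAt hτ x)

lemma pd_comp_scale {k : Euc d → ℝ} (hk : ContDiff ℝ 1 k) (τ : ℝ) (x y : Euc d) (i : Fin d) :
    pd i (fun z => k (τ⁻¹ • (x - z))) y = -τ⁻¹ * pd i k (τ⁻¹ • (x - y)) := by
  have h : HasFDerivAt (fun z => k (τ⁻¹ • (x - z)))
      ((fderiv ℝ k (τ⁻¹ • (x - y))).comp (τ⁻¹ • -ContinuousLinearMap.id ℝ (Euc d))) y :=
    ((hk.differentiable one_ne_zero _).hasFDerivAt).comp y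
      (((hasFDerivAt_id y).const_sub x).const_smul τ⁻¹)
  rw [pd, h.fderiv]
  simp [pd]

lemma pd_pd_potAt (τ : ℝ) (x y : Euc d) (i j : Fin d) :
    pd i (pd j (potAt τ x)) y = τ⁻¹ ^ 2 * pd i (pd j sig) (τ⁻¹ • (x - y)) := by
  have h1 : ContDiff ℝ 1 (sig : Euc d → ℝ) := B5.contDiff_sig.of_le (by simp)
  have h2 : ContDiff ℝ ∞ (pd j (sig : Euc d → ℝ)) := contDiff_pd_of_smooth B5.contDiff_sig j
  have e : pd j (potAt τ x) = fun z => -τ⁻¹ * pd j sig (τ⁻¹ • (x - z)) :=
    funext fun z => pd_comp_scale h1 τ x z j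
  have h3 : DifferentiableAt ℝ (fun z => pd j sig (τ⁻¹ • (x - z))) y :=
    ((h2.comp ((contDiff_const.sub contDiff_id).const_smul τ⁻¹)).differentiable (by simp)) y
  rw [e, pd, fderiv_const_mul h3, _root_.smul_apply, smul_eq_mul]
  show -τ⁻¹ * pd i (fun z => pd j sig (τ⁻¹ • (x - z))) y = _
  rw [pd_comp_scale (h2.of_le (by simp)) τ x y i]
  ring

lemma lapl_potAt (τ : ℝ) (x y : Euc d) :
    lapl (potAt τ x) y = τ⁻¹ ^ 2 * euler rho (τ⁻¹ • (x - y)) := by
  rw [B5.euler_rho, Finset.mul_sum]
  exact Finset.sum_congr rfl fun i _ => pd_pd_potAt τ x y i i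

lemma exists_potAt_bound (d : ℕ) : ∃ B : ℝ, 0 ≤ B ∧
    ∀ (τ : ℝ) (x y : Euc d) (i j : Fin d), |pd i (pd j (potAt τ x)) y| ≤ τ⁻¹ ^ 2 * B := by
  have h : ∀ i j : Fin d, ∃ B, 0 ≤ B ∧ ∀ z : Euc d, |pd i (pd j sig) z| ≤ B := fun i j => by
    obtain ⟨D, hD⟩ := lipschitzWith_of_test (contDiff_pd_of_smooth B5.contDiff_sig j)
      (hasCompactSupport_pd (B5.isKernel_sig (d := d)).hasCompactSupport j)
    exact ⟨D, D.2, fun z => abs_pd_le hD i z⟩
  choose B hB0 hB using h
  refine ⟨∑ i, ∑ j, B i j, Finset.sum_nonneg fun i _ => Finset.sum_nonneg fun j _ => hB0 i j,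
    fun τ x y i j => ?_⟩
  rw [pd_pd_potAt, abs_mul, abs_of_nonneg (sq_nonneg τ⁻¹)]
  refine mul_le_mul_of_nonneg_left ((hB i j _).trans ?_) (sq_nonneg _)
  exact (Finset.single_le_sum (fun j _ => hB0 i j) (Finset.mem_univ j)).trans
    (Finset.single_le_sum (f := fun i => ∑ j, B i j)
      (fun i _ => Finset.sum_nonneg fun j _ => hB0 i j) (Finset.mem_univ i))

/-- The derivative of a mollified mean in the scale. -/
lemma hasDerivAt_mean {f : Euc d → ℝ} (hf : Measurable f) {M : ℝ} (hM : ∀ y, |f y| ≤ M) {τ : ℝ}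
    (hτ : 0 < τ) (x : Euc d) :
    HasDerivAt (fun s => avg rho f s x)
      (τ * (τ ^ d)⁻¹ * ∫ y, f y * lapl (potAt τ x) y) τ := by
  refine (B5.hasDerivAt_avg B5.isKernel_rho (B5.contDiff_rho.of_le (by simp)) hf hM hτ x).congr_deriv ?_
  rw [B5.avg_eq_scaled _ _ hτ, ← integral_const_mul, ← integral_const_mul, ← integral_const_mul]
  refine integral_congr_ae (Eventually.of_forall fun y => ?_)
  beta_reduce
  rw [lapl_potAt]
  field_simp

/-- On a ball inside the positivity set the components are orthogonal to Laplacians. -/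
lemma integral_compD_lapl_eq_zero (hu : IsRegMin L c u) (e v : Euc d) {S : Euc d → ℝ}
    (hS : ContDiff ℝ ∞ S) (hs : HasCompactSupport S) (hsub : tsupport S ⊆ posSet u) :
    ∫ y, compD u e v y * lapl S y = 0 := by
  have hl : ∀ y, y ∉ tsupport S → lapl S y = 0 := fun y hy =>
    Finset.sum_eq_zero fun i _ => pd_eq_zero_of_eventually (by
      filter_upwards [(notMem_tsupport_iff_eventuallyEq.1 hy).eventually_nhds] with z hz
      exact pd_eq_zero_of_eventually hz i) i
  have e0 : (fun y => compD u e v y * lapl S y)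
      = fun y => ⟪∇ u y, v⟫ * lapl S y - ⟪e, v⟫ * lapl S y := funext fun y => by
    by_cases hy : y ∈ tsupport S
    · rw [compD_of_mem e v (hsub hy), inner_sub_left, sub_mul]
    · simp [hl y hy]
  have i2 : Integrable (lapl S) :=
    (continuous_lapl hS).integrable_of_hasCompactSupport (hasCompactSupport_lapl hs)
  have z2 : ∫ y, lapl S y = 0 := by
    show ∫ y, ∑ i, pd i (pd i S) y = 0
    rw [integral_finsetSum _ fun i _ =>
      (continuous_pd ((contDiff_pd_of_smooth hS i).of_le (by simp)) i).integrable_of_hasCompactSupport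
        (hasCompactSupport_pd (hasCompactSupport_pd hs i) i)]
    exact Finset.sum_eq_zero fun i _ =>
      integral_pd_eq_zero ((contDiff_pd_of_smooth hS i).of_le (by simp)) (hasCompactSupport_pd hs i) i
  rw [e0, integral_sub (integrable_inner_gradient_mul hu.lip v (continuous_lapl hS)
    (hasCompactSupport_lapl hs)) (i2.const_mul _), integral_const_mul, z2, mul_zero, sub_zero,
    integral_inner_mul_lapl hu.lip hS hs v]
  set g := dirD v S with hg
  have hg1 : ContDiff ℝ ∞ g := contDiff_dirD hS v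
  have hgs : HasCompactSupport g := hasCompactSupport_dirD hs v
  have hgsub : tsupport g ⊆ posSet u := (tsupport_dirD v S).trans hsub
  set G : Fin d → Euc d → ℝ := fun i y => pd i u y * g y with hG
  have hGc : ∀ i, ContDiff ℝ 1 (G i) := fun i => contDiff_iff_contDiffAt.2 fun y => by
    by_cases hy : y ∈ tsupport g
    · exact ((((hu.smooth.fderiv_of_isOpen hu.isOpen_posSet (m := ∞) (by simp)).clm_apply
        contDiffOn_const).contDiffAt (hu.isOpen_posSet.mem_nhds (hgsub hy))).of_le (by simp)).mul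
        ((hg1.of_le (by simp)).contDiffAt)
    · refine (contDiffAt_const (c := (0 : ℝ))).congr_of_eventuallyEq ?_
      filter_upwards [notMem_tsupport_iff_eventuallyEq.1 hy] with z hz
      simp [hG, hz]
  have hsum : ∀ y, ⟪∇ u y, ∇ g y⟫ = ∑ i, pd i (G i) y := fun y => by
    by_cases hy : y ∈ tsupport g
    · have hd : ∀ i, DifferentiableAt ℝ (pd i u) y := fun i =>
        ((((hu.smooth.fderiv_of_isOpen hu.isOpen_posSet (m := ∞) (by simp)).clm_apply
          contDiffOn_const).contDiffAt (hu.isOpen_posSet.mem_nhds (hgsub hy))).differentiableAt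
            (by simp))
      simp only [hG, pd_mul _ (hd _) (hg1.differentiable (by simp) y), Finset.sum_add_distrib,
        ← Finset.sum_mul, hu.harmonic y (hgsub hy), zero_mul, zero_add, inner_gradient_eq_sum]
    · rw [gradient_eq_zero_of_notMem_tsupport hy, inner_zero_right]
      refine (Finset.sum_eq_zero fun i _ => pd_eq_zero_of_eventually ?_ i).symm
      filter_upwards [notMem_tsupport_iff_eventuallyEq.1 hy] with z hz
      simp [hG, hz]
  have hGs : ∀ i, HasCompactSupport (G i) := fun i => hgs.mul_left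
  simp only [hsum]
  rw [integral_finsetSum _ fun i _ =>
    (continuous_pd (hGc i) i).integrable_of_hasCompactSupport (hasCompactSupport_pd (hGs i) i)]
  exact Finset.sum_eq_zero fun i _ => integral_pd_eq_zero (hGc i) (hGs i) i

/-- Mean value property of the components. -/
theorem compD_eq_mean [NeZero d] (hu : IsRegMin L c u) {e : Euc d} (he : ‖e‖ = 1) (v : Euc d)
    {x : Euc d} {T : ℝ} (hT : 0 < T) (hsub : Metric.closedBall x T ⊆ posSet u) :
    avg rho (compD u e v) T x = compD u e v x := by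
  set f := compD u e v with hf
  have hfm : Measurable f := measurable_compD hu.lip.continuous e v
  set M := ‖v‖ * ((L : ℝ) + 1)
  have hM : ∀ y, |f y| ≤ M := abs_compD_le_const hu he v
  have hd : ∀ τ ∈ Set.Ioc 0 T, HasDerivAt (fun s => avg rho f s x) 0 τ := fun τ hτ => by
    refine (hasDerivAt_mean hfm hM hτ.1 x).congr_deriv ?_
    rw [integral_compD_lapl_eq_zero hu e v (contDiff_potAt τ x) (hasCompactSupport_potAt hτ.1 x)
      ((tsupport_potAt hτ.1 x).trans ((Metric.closedBall_subset_closedBall hτ.2).trans hsub)),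
      mul_zero]
  have hconst : ∀ τ ∈ Set.Ioo 0 T, avg rho f τ x = avg rho f T x := by
    intro τ hτ
    obtain ⟨s, hs, hs'⟩ := exists_deriv_eq_slope (fun s => avg rho f s x) hτ.2
      (fun s hs => (hd s ⟨hτ.1.trans_le hs.1, hs.2⟩).continuousAt.continuousWithinAt)
      (fun s hs => (hd s ⟨hτ.1.trans hs.1, hs.2.le⟩).differentiableAt.differentiableWithinAt)
    rw [(hd s ⟨hτ.1.trans hs.1, hs.2.le⟩).deriv, eq_comm, div_eq_zero_iff] at hs'
    rcases hs' with h | h
    · exact (sub_eq_zero.1 h).symm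
    · linarith [hτ.2]
  have hxΩ : x ∈ posSet u := hsub (Metric.mem_closedBall_self hT.le)
  have hfc : ContinuousAt f x := by
    have : f =ᶠ[𝓝 x] fun y => ⟪∇ u y - e, v⟫ := by
      filter_upwards [hu.isOpen_posSet.mem_nhds hxΩ] with y hy
      exact compD_of_mem e v hy
    refine ContinuousAt.congr ?_ this.symm
    have hg : ContinuousAt (∇ u) x :=
      (InnerProductSpace.toDual ℝ (Euc d)).symm.continuous.continuousAt.comp
        ((hu.contDiffOn_one.continuousOn_fderiv_of_isOpen hu.isOpen_posSet le_rfl).continuousAt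
          (hu.isOpen_posSet.mem_nhds hxΩ))
    exact (hg.sub continuousAt_const).inner continuousAt_const
  set A := ∫ z : Euc d, |rho z|
  have hA : 0 ≤ A := integral_nonneg fun z => abs_nonneg _
  refine sub_eq_zero.1 (abs_eq_zero.1 (le_antisymm (le_of_forall_pos_le_add fun ε hε => ?_)
    (abs_nonneg _)))
  obtain ⟨r, hr, hball⟩ := Metric.continuousAt_iff.1 hfc (ε / (A + 1)) (by positivity)
  set τ := min (T / 2) (r / 2) with hτdef
  have hτ0 : 0 < τ := lt_min (by linarith) (by linarith)
  rw [← hconst τ ⟨hτ0, (min_le_left _ _).trans_lt (by linarith)⟩]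
  have hri : Integrable (rho : Euc d → ℝ) :=
    B5.contDiff_rho.continuous.integrable_of_hasCompactSupport B5.isKernel_rho.hasCompactSupport
  have e1 : avg rho f τ x - f x = ∫ z, rho z * (f (x - τ • z) - f x) := by
    simp only [mul_sub]
    rw [integral_sub (B5.integrable_avg B5.isKernel_rho hfm hM τ x) (hri.mul_const _),
      integral_mul_const, B5.integral_rho, one_mul]
    rfl
  rw [zero_add, e1]
  refine (abs_integral_le_integral_abs).trans ?_
  have hb : ∀ z, |rho z * (f (x - τ • z) - f x)| ≤ |rho z| * (ε / (A + 1)) := fun z => by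
    rw [abs_mul]
    by_cases hz : ‖z‖ ≤ 1
    · refine mul_le_mul_of_nonneg_left ?_ (abs_nonneg _)
      refine (hball (?_ : dist (x - τ • z) x < r)).le
      rw [dist_eq_norm, sub_sub_cancel_left, norm_neg, norm_smul, Real.norm_eq_abs, abs_of_pos hτ0]
      have := mul_le_mul_of_nonneg_left hz hτ0.le
      linarith [min_le_right (T / 2) (r / 2)]
    · simp [B5.isKernel_rho.supp z (not_le.1 hz)]
  refine (integral_mono_of_nonneg (Eventually.of_forall fun z => abs_nonneg _)
    (hri.abs.mul_const _) (Eventually.of_forall hb)).trans ?_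
  rw [integral_mul_const, ← mul_div_assoc, div_le_iff₀ (by positivity)]
  nlinarith

/-- The gradient is near `e` inside a flat region. -/
theorem exists_gradient_bound (d : ℕ) [NeZero d] :
    ∃ C : ℝ, 0 ≤ C ∧ ∀ (L : ℝ≥0) (c : ℝ) (u : Euc d → ℝ) (e x : Euc d) (T δ : ℝ),
      IsRegMin L c u → ‖e‖ = 1 → 0 < T → Metric.closedBall x T ⊆ posSet u →
      (∀ y ∈ Metric.closedBall x T, |u y - ⟪e, y⟫| ≤ δ) → ‖∇ u x - e‖ ≤ C * δ / T := by
  obtain ⟨D, hD⟩ := lipschitzWith_of_test (B5.contDiff_rho (d := d))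
    B5.isKernel_rho.hasCompactSupport
  set V := volume.real (Metric.closedBall (0 : Euc d) 1)
  refine ⟨d * (D * V), by positivity, fun L c u e x T δ hu he hT hsub hflat => ?_⟩
  have hδ : 0 ≤ δ := (abs_nonneg _).trans (hflat x (Metric.mem_closedBall_self hT.le))
  set w : Euc d → ℝ := fun y => u y - ⟪e, y⟫ with hw
  have hwlip : LipschitzWith (L + ‖innerSL ℝ e‖₊) w := hu.lip.sub (innerSL ℝ e).lipschitz
  have hxΩ : x ∈ posSet u := hsub (Metric.mem_closedBall_self hT.le)
  have hcoord : ∀ i, |(∇ u x - e) i| ≤ D * V * δ / T := fun i => by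
    set k : Euc d → ℝ := fun y => rho (T⁻¹ • (x - y)) with hk
    have hkc : ContDiff ℝ ∞ k := B5.contDiff_rho.comp ((contDiff_const.sub contDiff_id).const_smul T⁻¹)
    have hk0 : ∀ y, y ∉ Metric.closedBall x T → k y = 0 ∧ pd i k y = 0 := fun y hy => by
      refine ⟨eq_zero_outside B5.isKernel_rho hT hy, ?_⟩
      rw [hk, pd_comp_scale (B5.contDiff_rho.of_le (by simp)) T x y i]
      rw [eq_zero_outside (B5.isKernel_rho.pd (B5.contDiff_rho.of_le (by simp)) i) hT hy, mul_zero]
    have hks : HasCompactSupport k :=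
      HasCompactSupport.intro (isCompact_closedBall x T) fun y hy => (hk0 y hy).1
    obtain ⟨D', hD'⟩ := lipschitzWith_of_test hkc hks
    have hibp := integral_mul_pd hwlip hD' hks i
    have e1 : (fun y => pd i w y * k y)
        = fun y => compD u e (EuclideanSpace.single i 1) y * k y := funext fun y => by
      by_cases hy : y ∈ Metric.closedBall x T
      · rw [compD_of_mem e _ (hsub hy), inner_sub_left, inner_gradient_left, pd]
        congr 1
        have h : HasFDerivAt w (fderiv ℝ u y - innerSL ℝ e) y :=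
          ((hu.contDiffAt_one (hsub hy)).differentiableAt one_ne_zero).hasFDerivAt.sub
            (innerSL ℝ e).hasFDerivAt
        rw [h.fderiv]
        simp
      · simp [(hk0 y hy).1]
    have e2 : (∇ u x - e) i = (T ^ d)⁻¹ * ∫ y, pd i w y * k y := by
      rw [e1, ← show compD u e (EuclideanSpace.single i 1) x = (∇ u x - e) i by
        rw [compD_of_mem e _ hxΩ, EuclideanSpace.inner_single_right]
        simp, ← compD_eq_mean hu he _ hT hsub, B5.avg_eq_scaled _ _ hT]
      simp only [hk, mul_comm]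
    have hb : |∫ y, w y * pd i k y| ≤ δ * (T⁻¹ * D) * (T ^ d * V) := by
      rw [← setIntegral_eq_integral_of_forall_compl_eq_zero (s := Metric.closedBall x T)
        fun y hy => by rw [(hk0 y hy).2, mul_zero]]
      refine (norm_setIntegral_le_of_norm_le_const (f := fun y => w y * pd i k y)
        (C := δ * (T⁻¹ * D)) measure_closedBall_lt_top fun y hy => ?_).trans (le_of_eq ?_)
      · rw [norm_mul]
        refine mul_le_mul (hflat y hy) ?_ (norm_nonneg _) hδ
        rw [hk, pd_comp_scale (B5.contDiff_rho.of_le (by simp)) T x y i, Real.norm_eq_abs, abs_mul,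
          abs_neg, abs_of_pos (inv_pos.2 hT)]
        exact mul_le_mul_of_nonneg_left (abs_pd_le hD i _) (inv_nonneg.2 hT.le)
      · congr 1
        rw [Measure.addHaar_real_closedBall' volume x hT.le, finrank_euclideanSpace_fin]
    rw [e2, show ∫ y, pd i w y * k y = -∫ y, w y * pd i k y by linarith, abs_mul, abs_neg,
      abs_of_pos (inv_pos.2 (pow_pos hT d))]
    refine (mul_le_mul_of_nonneg_left hb (by positivity)).trans (le_of_eq ?_)
    field_simp
  refine (norm_le_sum_abs _).trans ((Finset.sum_le_card_nsmul _ _ _ fun i _ => hcoord i).trans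
    (le_of_eq ?_))
  simp
  ring

end Vale.Agent.P098
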