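import Vale.Agent.P098.Regularity.Flatness.FromExcess

/-!
P098, block B4: integration by parts against second derivatives of a test function.
-/

open MeasureTheory Filter
open scoped Topology ContDiff NNReal RealInnerProductSpace Gradient

namespace Vale.Agent.P098

variable {d : ℕ} {L : ℝ≥0} {u S g : Euc d → ℝ}

/-- The derivative of `S` in the direction `v`. -/
noncomputable def dirD (v : Euc d) (S : Euc d → ℝ) (y : Euc d) : ℝ := ⟪∇ S y, v⟫

/-- The Laplacian. -/
noncomputable def lapl (S : Euc d → ℝ) (y : Euc d) : ℝ := ∑ i, pd i (pd i S) y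

lemma contDiff_pd_of_smooth (hS : ContDiff ℝ ∞ S) (i : Fin d) : ContDiff ℝ ∞ (pd i S) :=
  (hS.fderiv_right (by simp)).clm_apply contDiff_const

lemma continuous_lapl (hS : ContDiff ℝ ∞ S) : Continuous (lapl S) :=
  continuous_finsetSum _ fun i _ => continuous_pd ((contDiff_pd_of_smooth hS i).of_le (by simp)) i

lemma hasCompactSupport_lapl (hs : HasCompactSupport S) : HasCompactSupport (lapl S) := by
  refine HasCompactSupport.of_support_subset_isCompact hs.isCompact fun x hx => ?_
  by_contra h
  refine hx (Finset.sum_eq_zero fun i _ => ?_)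
  refine pd_eq_zero_of_eventually ?_ i
  filter_upwards [(notMem_tsupport_iff_eventuallyEq.1 h).eventually_nhds] with y hy
  exact pd_eq_zero_of_eventually hy i

lemma dirD_eq_sum (v : Euc d) (S : Euc d → ℝ) :
    dirD v S = fun y => ∑ i, v i * pd i S y := by
  funext y
  rw [dirD, inner_gradient_left_sum]
  exact Finset.sum_congr rfl fun i _ => mul_comm _ _

lemma contDiff_dirD (hS : ContDiff ℝ ∞ S) (v : Euc d) : ContDiff ℝ ∞ (dirD v S) := by
  rw [dirD_eq_sum]
  exact ContDiff.sum fun i _ => contDiff_const.mul (contDiff_pd_of_smooth hS i)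

lemma dirD_eq_zero_of_notMem {v y : Euc d} (hy : y ∉ tsupport S) : dirD v S y = 0 := by
  simp [dirD, gradient_eq_zero_of_notMem_tsupport hy]

lemma tsupport_dirD (v : Euc d) (S : Euc d → ℝ) : tsupport (dirD v S) ⊆ tsupport S :=
  closure_minimal (fun y hy => by
    by_contra h
    exact hy (dirD_eq_zero_of_notMem h)) (isClosed_tsupport S)

lemma hasCompactSupport_dirD (hs : HasCompactSupport S) (v : Euc d) :
    HasCompactSupport (dirD v S) :=
  hs.isCompact.of_isClosed_subset (isClosed_tsupport _) (tsupport_dirD v S)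

lemma pd_dirD (hS : ContDiff ℝ ∞ S) (v : Euc d) (j : Fin d) (y : Euc d) :
    pd j (dirD v S) y = ∑ i, v i * pd j (pd i S) y := by
  have h : ∀ i, HasFDerivAt (pd i S) (fderiv ℝ (pd i S) y) y := fun i =>
    ((contDiff_pd_of_smooth hS i).differentiable (by simp) y).hasFDerivAt
  have h2 : HasFDerivAt (fun y => ∑ i, v i * pd i S y) (∑ i, v i • fderiv ℝ (pd i S) y) y :=
    HasFDerivAt.fun_sum fun i _ => (h i).const_mul (v i)
  rw [dirD_eq_sum, pd, h2.fderiv]
  simp [pd]

lemma dirD_comm (hS : ContDiff ℝ ∞ S) (v w y : Euc d) :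
    dirD w (dirD v S) y = dirD v (dirD w S) y := by
  rw [dirD_eq_sum w, dirD_eq_sum v (dirD w S)]
  simp only [pd_dirD hS, Finset.mul_sum]
  rw [Finset.sum_comm]
  refine Finset.sum_congr rfl fun i _ => Finset.sum_congr rfl fun j _ => ?_
  rw [pd_comm ((hS.of_le (WithTop.coe_le_coe.2 le_top)).contDiffAt) j i]
  ring

lemma norm_le_sum_abs (z : Euc d) : ‖z‖ ≤ ∑ j, |z j| := by
  conv_lhs => rw [← (EuclideanSpace.basisFun (Fin d) ℝ).sum_repr z]
  refine (norm_sum_le _ _).trans (le_of_eq ?_)
  simp [norm_smul]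

/-- A bound on second derivatives bounds the gradient of a directional derivative. -/
lemma norm_gradient_dirD_le (hS : ContDiff ℝ ∞ S) {M : ℝ} (hM : ∀ i j y, |pd i (pd j S) y| ≤ M)
    (v y : Euc d) : ‖∇ (dirD v S) y‖ ≤ (d : ℝ) ^ 2 * ‖v‖ * M := by
  refine (norm_le_sum_abs _).trans ?_
  have h : ∀ j, |(∇ (dirD v S) y) j| ≤ d * ‖v‖ * M := fun j => by
    rw [gradient_coord, pd_dirD hS]
    refine (Finset.abs_sum_le_sum_abs _ _).trans ((Finset.sum_le_card_nsmul _ _ (‖v‖ * M)
      fun i _ => ?_).trans_eq (by simp [mul_assoc]))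
    rw [abs_mul]
    refine mul_le_mul ?_ (hM j i y) (abs_nonneg _) (norm_nonneg _)
    simpa using PiLp.norm_apply_le v i
  exact (Finset.sum_le_card_nsmul _ _ _ fun j _ => h j).trans_eq (by simp; ring)

/-- Mixed integration by parts. -/
lemma integral_pd_swap (hu : LipschitzWith L u) (hg : ContDiff ℝ ∞ g) (hgs : HasCompactSupport g)
    (i j : Fin d) : ∫ x, pd i u x * pd j g x = ∫ x, pd j u x * pd i g x := by
  obtain ⟨D, hD⟩ := lipschitzWith_of_test (contDiff_pd_of_smooth hg j) (hasCompactSupport_pd hgs j)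
  obtain ⟨D', hD'⟩ :=
    lipschitzWith_of_test (contDiff_pd_of_smooth hg i) (hasCompactSupport_pd hgs i)
  have h1 := integral_mul_pd hu hD (hasCompactSupport_pd hgs j) i
  have h2 := integral_mul_pd hu hD' (hasCompactSupport_pd hgs i) j
  have e : (fun x => u x * pd i (pd j g) x) = fun x => u x * pd j (pd i g) x := funext fun x => by
    rw [pd_comm ((hg.of_le (WithTop.coe_le_coe.2 le_top)).contDiffAt) i j]
  rw [e] at h1
  linarith

lemma integrable_inner_gradient_mul (hu : LipschitzWith L u) (v : Euc d) (hg : Continuous g)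
    (hgs : HasCompactSupport g) : Integrable fun x => ⟪∇ u x, v⟫ * g x :=
  integrable_bdd_mul ((measurable_gradient u).inner measurable_const) (M := L * ‖v‖) hg hgs
    fun x _ => (abs_real_inner_le_norm _ _).trans
      (mul_le_mul_of_nonneg_right (norm_gradient_le hu x) (norm_nonneg _))

/-- A derivative of `u` against a Laplacian is the gradient of `u` against a gradient. -/
theorem integral_inner_mul_lapl (hu : LipschitzWith L u) (hS : ContDiff ℝ ∞ S)
    (hs : HasCompactSupport S) (v : Euc d) :
    ∫ x, ⟪∇ u x, v⟫ * lapl S x = ∫ x, ⟪∇ u x, ∇ (dirD v S) x⟫ := by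
  have hc : ∀ i j, Continuous (pd i (pd j S)) := fun i j =>
    continuous_pd ((contDiff_pd_of_smooth hS j).of_le (by simp)) i
  have hcs : ∀ i j, HasCompactSupport (pd i (pd j S)) := fun i j =>
    hasCompactSupport_pd (hasCompactSupport_pd hs j) i
  have iA : ∀ i j k l, Integrable fun x => v k * (pd l u x * pd i (pd j S) x) := fun i j k l =>
    (integrable_pd_mul hu l (hc i j) (hcs i j)).const_mul _
  have e1 : (fun x => ⟪∇ u x, v⟫ * lapl S x)
      = fun x => ∑ i, ∑ j, v i * (pd i u x * pd j (pd j S) x) := funext fun x => by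
    rw [inner_gradient_left_sum, lapl, Finset.sum_mul_sum]
    exact Finset.sum_congr rfl fun i _ => Finset.sum_congr rfl fun j _ => by ring
  have e2 : (fun x => ⟪∇ u x, ∇ (dirD v S) x⟫)
      = fun x => ∑ i, ∑ j, v i * (pd j u x * pd i (pd j S) x) := funext fun x => by
    rw [inner_gradient_eq_sum, Finset.sum_comm]
    refine Finset.sum_congr rfl fun j _ => ?_
    rw [pd_dirD hS, Finset.mul_sum]
    refine Finset.sum_congr rfl fun i _ => ?_
    rw [pd_comm ((hS.of_le (WithTop.coe_le_coe.2 le_top)).contDiffAt) j i]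
    ring
  rw [e1, e2, integral_finsetSum _ fun i _ => integrable_finsetSum _ fun j _ => iA j j i i,
    integral_finsetSum _ fun i _ => integrable_finsetSum _ fun j _ => iA i j i j]
  refine Finset.sum_congr rfl fun i _ => ?_
  rw [integral_finsetSum _ fun j _ => iA j j i i, integral_finsetSum _ fun j _ => iA i j i j]
  refine Finset.sum_congr rfl fun j _ => ?_
  rw [integral_const_mul, integral_const_mul,
    integral_pd_swap hu (contDiff_pd_of_smooth hS j) (hasCompactSupport_pd hs j) i j]

/-- Derivatives of `u` in two directions may be exchanged under the integral. -/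
theorem integral_inner_swap (hu : LipschitzWith L u) (hg : ContDiff ℝ ∞ g)
    (hgs : HasCompactSupport g) (v w : Euc d) :
    ∫ x, ⟪∇ u x, v⟫ * dirD w g x = ∫ x, ⟪∇ u x, w⟫ * dirD v g x := by
  have hg1 : ContDiff ℝ 1 g := hg.of_le (by simp)
  have iA : ∀ i j (a : ℝ), Integrable fun x => a * (pd i u x * pd j g x) := fun i j a =>
    (integrable_pd_mul hu i (continuous_pd hg1 j) (hasCompactSupport_pd hgs j)).const_mul _
  have e : ∀ v w : Euc d, (fun x => ⟪∇ u x, v⟫ * dirD w g x)
      = fun x => ∑ i, ∑ j, v i * w j * (pd i u x * pd j g x) := fun v w => funext fun x => by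
    rw [inner_gradient_left_sum, dirD_eq_sum, Finset.sum_mul_sum]
    exact Finset.sum_congr rfl fun i _ => Finset.sum_congr rfl fun j _ => by ring
  rw [e v w, e w v, integral_finsetSum _ fun i _ => integrable_finsetSum _ fun j _ => iA i j _,
    integral_finsetSum _ fun i _ => integrable_finsetSum _ fun j _ => iA i j _]
  simp only [integral_finsetSum _ fun j _ => iA _ j _, integral_const_mul]
  rw [Finset.sum_comm]
  refine Finset.sum_congr rfl fun i _ => Finset.sum_congr rfl fun j _ => ?_
  rw [integral_pd_swap hu hg hgs j i]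
  ring

end Vale.Agent.P098
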