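import Vale.Agent.P098.Regularity.Flatness.Horizontal
import Vale.Agent.P098.Regularity.Flatness.MeanValue

/-!
P098, block B4: a component of `∇ u - e` against the Laplacian of a test function with the
symmetry of the component is small with the excess and the flatness.
-/

open MeasureTheory Filter
open scoped Topology ContDiff NNReal RealInnerProductSpace Gradient

namespace Vale.Agent.P098

variable {d : ℕ} {L : ℝ≥0} {c : ℝ} {u S : Euc d → ℝ}

lemma pd_add_smul {a b : Euc d → ℝ} (ha : Differentiable ℝ a) (hb : Differentiable ℝ b) (s : ℝ)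
    (i : Fin d) : pd i (fun y => a y + s * b y) = fun y => pd i a y + s * pd i b y := by
  funext y
  have h : HasFDerivAt (fun y => a y + s * b y) (fderiv ℝ a y + s • fderiv ℝ b y) y :=
    (ha y).hasFDerivAt.add ((hb y).hasFDerivAt.const_mul s)
  rw [pd, h.fderiv]
  simp [pd]

/-- The excess term. -/
lemma IsRegMin.abs_excess_term (hu : IsRegMin L c u) {e : Euc d} (he : ‖e‖ = 1) {g : Euc d → ℝ}
    (hg : ContDiff ℝ ∞ g) (hsupp : tsupport g ⊆ Metric.closedBall 0 (3 / 4)) {K : ℝ} (hK : 0 ≤ K)
    (hgK : ∀ y, ‖∇ g y‖ ≤ K) :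
    |∫ y in posSet u, ⟪∇ u y - e, ∇ g y⟫|
      ≤ 3 / 2 * (K * ∫ y in Metric.ball 0 1, exDens u e y) := by
  have hgs : HasCompactSupport g :=
    (isCompact_closedBall (0 : Euc d) (3 / 4)).of_isClosed_subset (isClosed_tsupport _) hsupp
  refine (hu.abs_integral_inner_le he hg hgs).trans ?_
  refine mul_le_mul_of_nonneg_left ?_ (by norm_num)
  rw [← setIntegral_eq_integral_of_forall_compl_eq_zero (s := Metric.ball (0 : Euc d) 1) fun y hy => ?_,
    ← integral_const_mul]
  · refine setIntegral_mono_on ?_ ((integrableOn_exDens hu.lip he Metric.isBounded_ball).const_mul K)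
      measurableSet_ball fun y _ => ?_
    · exact (integrable_exDens_mul hu.lip he (continuous_gradient (hg.of_le (by simp))).norm
        (hasCompactSupport_gradient hgs).norm).integrableOn
    · rw [mul_comm K]
      exact mul_le_mul_of_nonneg_left (hgK y) (exDens_nonneg u e y)
  · have : y ∉ tsupport g := fun h => hy (by
      have := mem_closedBall_zero_iff.1 (hsupp h)
      rw [mem_ball_zero_iff]
      linarith)
    simp [gradient_eq_zero_of_notMem_tsupport this]

/-- The horizontal second derivatives are the Laplacian less the second derivative along `e`. -/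
lemma sum_dirD_dirD (hS : ContDiff ℝ ∞ S) {e : Euc d} (he : ‖e‖ = 1) (y : Euc d) :
    ∑ k, dirD (EuclideanSpace.single k 1 - e k • e) (dirD (EuclideanSpace.single k 1 - e k • e) S) y
      = lapl S y - dirD e (dirD e S) y := by
  have hlin : ∀ (w : Fin d → Euc d → ℝ) (k : Fin d) (g : Euc d → ℝ),
      dirD (EuclideanSpace.single k 1 - e k • e) g y
        = dirD (EuclideanSpace.single k 1) g y - e k * dirD e g y := fun w k g => by
    simp [dirD, inner_sub_right, real_inner_smul_right]
  have hb : ∀ (k : Fin d) (g : Euc d → ℝ), dirD (EuclideanSpace.single k 1) g y = pd k g y :=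
    fun k g => inner_gradient_left
  have hexp : ∀ k, dirD (EuclideanSpace.single k 1 - e k • e)
      (dirD (EuclideanSpace.single k 1 - e k • e) S) y
      = pd k (pd k S) y - 2 * (e k * pd k (dirD e S) y) + e k * e k * dirD e (dirD e S) y := by
    intro k
    have hbfun : dirD (EuclideanSpace.single k 1) S = pd k S := funext fun z => inner_gradient_left
    rw [hlin 0 k, dirD_comm hS, dirD_comm hS _ e, hlin 0 k, hlin 0 k, hb, hb, hbfun,
      show dirD e (pd k S) y = pd k (dirD e S) y by
        rw [← hbfun, dirD_comm hS, hb]]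
    ring
  have h1 : ∑ k, e k * pd k (dirD e S) y = dirD e (dirD e S) y := by
    rw [dirD_eq_sum e (dirD e S)]
  have h2 : ∑ k, e k * e k = 1 := by
    have := real_inner_self_eq_norm_sq e
    rw [he, one_pow, PiLp.inner_apply] at this
    simpa [mul_comm, sq] using this
  simp only [hexp, Finset.sum_add_distrib, Finset.sum_sub_distrib, ← Finset.mul_sum,
    ← Finset.sum_mul, h1, h2, lapl]
  ring

/-- Smallness against Laplacians: horizontal and vertical components. -/
theorem exists_lapl_bound (d : ℕ) :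
    ∃ C : ℝ, 0 ≤ C ∧ ∀ (L : ℝ≥0) (c : ℝ) (u S : Euc d → ℝ) (e : Euc d) (δ M : ℝ),
      IsRegMin L c u → ‖e‖ = 1 → 0 < δ → IsFlatIn u 0 e 1 δ →
      ContDiff ℝ ∞ S → tsupport S ⊆ Metric.closedBall 0 (3 / 4) →
      (∀ i j y, |pd i (pd j S) y| ≤ M) →
      ((∀ y, ⟪e, y⟫ = 0 → dirD e S y = 0) → ∀ v, ⟪e, v⟫ = 0 →
        |∫ y, compD u e v y * lapl S y| ≤ C * M * ‖v‖ *
          ((∫ y in Metric.ball 0 1, exDens u e y)
            + Real.sqrt δ * Real.sqrt (∫ y in Metric.ball 0 1, exDens u e y))) ∧
      ((∀ y, ⟪e, y⟫ = 0 → ∀ v, ⟪e, v⟫ = 0 → dirD v S y = 0) →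
        |∫ y, compD u e e y * lapl S y| ≤ C * M *
          ((∫ y in Metric.ball 0 1, exDens u e y)
            + Real.sqrt δ * Real.sqrt (∫ y in Metric.ball 0 1, exDens u e y))) := by
  obtain ⟨C₁, hC₁, hH⟩ := exists_horizontal_bound d
  set C := (3 / 2 + C₁ + 4 * C₁ * d) * (d : ℝ) ^ 2 with hC
  refine ⟨C, by positivity, fun L c u S e δ M hu he hδ hflat hS hsupp hM => ?_⟩
  have hM0 : 0 ≤ M := by
    have hd := dim_pos_of_norm_one he
    exact (abs_nonneg _).trans (hM ⟨0, hd⟩ ⟨0, hd⟩ 0)
  have hs : HasCompactSupport S :=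
    (isCompact_closedBall (0 : Euc d) (3 / 4)).of_isClosed_subset (isClosed_tsupport _) hsupp
  set E := ∫ y in Metric.ball (0 : Euc d) 1, exDens u e y with hE
  set R := Real.sqrt δ * Real.sqrt E with hR
  have hE0 : 0 ≤ E := integral_nonneg fun y => exDens_nonneg u e y
  have hR0 : 0 ≤ R := by positivity
  have hsub : ∀ w, tsupport (dirD w S) ⊆ Metric.closedBall (0 : Euc d) (3 / 4) := fun w =>
    (tsupport_dirD w S).trans hsupp
  have hcont : ∀ w w' : Euc d, Integrable (dirD w (dirD w' S)) := fun w w' =>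
    (contDiff_dirD (contDiff_dirD hS w') w).continuous.integrable_of_hasCompactSupport
      (hasCompactSupport_dirD (hasCompactSupport_dirD hs w') w)
  have hlint : Integrable (lapl S) :=
    (continuous_lapl hS).integrable_of_hasCompactSupport (hasCompactSupport_lapl hs)
  -- the reduction of a component to excess and a derivative along `e`
  have hred : ∀ v : Euc d, ∫ y, compD u e v y * lapl S y
      = (∫ y in posSet u, ⟪∇ u y - e, ∇ (dirD v S) y⟫)
        + ∫ y in posSet u, (dirD e (dirD v S) y - ⟪e, v⟫ * lapl S y) := by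
    intro v
    have i1 := integrable_inner_gradient_mul hu.lip v (continuous_lapl hS) (hasCompactSupport_lapl hs)
    have hgv := contDiff_dirD hS v
    have i2 : Integrable fun y => ⟪∇ u y, ∇ (dirD v S) y⟫ := by
      rw [show (fun y => ⟪∇ u y, ∇ (dirD v S) y⟫) = fun y => ∑ i, pd i u y * pd i (dirD v S) y from
        funext fun y => inner_gradient_eq_sum _ _ _]
      exact integrable_finsetSum _ fun i _ => integrable_pd_mul hu.lip i
        (continuous_pd (hgv.of_le (by simp)) i)
        (hasCompactSupport_pd (hasCompactSupport_dirD hs v) i)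
    have i3 : Integrable fun y => ⟪∇ u y - e, ∇ (dirD v S) y⟫ :=
      (i2.sub (hcont e v)).congr (Eventually.of_forall fun y => by
        simp [dirD, inner_sub_left, real_inner_comm])
    rw [← integral_add (g := fun y => dirD e (dirD v S) y - ⟪e, v⟫ * lapl S y) i3.integrableOn
      ((hcont e v).sub (hlint.const_mul _)).integrableOn]
    have h1 : ∫ y, compD u e v y * lapl S y
        = ∫ y in posSet u, (⟪∇ u y, v⟫ * lapl S y - ⟪e, v⟫ * lapl S y) := by
      rw [← setIntegral_posSet_eq hu.nonneg fun y hy => by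
        rw [compD_of_notMem hu.nonneg e v (fun h => (show 0 < u y from h).ne' hy), zero_mul]]
      refine setIntegral_congr_fun hu.isOpen_posSet.measurableSet fun y hy => ?_
      simp only [compD_of_mem e v hy, inner_sub_left]
      ring
    rw [h1, integral_sub i1.integrableOn (hlint.const_mul _).integrableOn,
      setIntegral_posSet_eq hu.nonneg (fun y hy => by
        simp [gradient_eq_zero_of_eq_zero hu.nonneg hy]),
      integral_inner_mul_lapl hu.lip hS hs v, ← setIntegral_posSet_eq hu.nonneg (fun y hy => by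
        simp [gradient_eq_zero_of_eq_zero hu.nonneg hy]),
      ← integral_sub i2.integrableOn (hlint.const_mul _).integrableOn]
    refine integral_congr_ae (Eventually.of_forall fun y => ?_)
    beta_reduce
    rw [inner_sub_left, show dirD e (dirD v S) y = ⟪e, ∇ (dirD v S) y⟫ from real_inner_comm _ _]
    ring
  have hgrad : ∀ w y, ‖∇ (dirD w S) y‖ ≤ (d : ℝ) ^ 2 * ‖w‖ * M := fun w =>
    norm_gradient_dirD_le hS hM w
  have hex : ∀ v : Euc d, |∫ y in posSet u, ⟪∇ u y - e, ∇ (dirD v S) y⟫|
      ≤ 3 / 2 * ((d : ℝ) ^ 2 * ‖v‖ * M * E) := fun v =>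
    hu.abs_excess_term he (contDiff_dirD hS v) (hsub v) (by positivity) (hgrad v)
  constructor
  · intro h0 v hv
    rw [hred v]
    have h2 : |∫ y in posSet u, (dirD e (dirD v S) y - ⟪e, v⟫ * lapl S y)|
        ≤ C₁ * ((d : ℝ) ^ 2 * M) * ‖v‖ * R := by
      simp only [hv, zero_mul, sub_zero, dirD_comm hS v e]
      have := hH L c u (dirD e S) e v δ ((d : ℝ) ^ 2 * ‖e‖ * M) hu he hv hδ hflat
        (contDiff_dirD hS e) (hsub e) h0 (hgrad e)
      rw [he, mul_one, mul_assoc] at this
      exact this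
    refine (abs_add_le _ _).trans ((add_le_add (hex v) h2).trans ?_)
    rw [hC]
    have : 0 ≤ (d : ℝ) ^ 2 * M * ‖v‖ := by positivity
    nlinarith [mul_nonneg this hE0, mul_nonneg this hR0,
      mul_nonneg (mul_nonneg this hC₁) hE0, mul_nonneg (mul_nonneg this hC₁) hR0,
      mul_nonneg (mul_nonneg (mul_nonneg this hC₁) (Nat.cast_nonneg d : (0 : ℝ) ≤ d)) hE0,
      mul_nonneg (mul_nonneg (mul_nonneg this hC₁) (Nat.cast_nonneg d : (0 : ℝ) ≤ d)) hR0]
  · intro h0
    rw [hred e]
    set v : Fin d → Euc d := fun k => EuclideanSpace.single k 1 - e k • e with hvdef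
    have hv : ∀ k, ⟪e, v k⟫ = 0 := fun k => by
      rw [hvdef]
      simp [inner_sub_right, real_inner_smul_right, real_inner_self_eq_norm_sq, he,
        EuclideanSpace.inner_single_right]
    have hvn : ∀ k, ‖v k‖ ≤ 2 := fun k => by
      refine (norm_sub_le _ _).trans ?_
      rw [PiLp.norm_single, norm_one, norm_smul, he, mul_one, Real.norm_eq_abs]
      have : |e k| ≤ 1 := by
        have h := PiLp.norm_apply_le e k
        rwa [Real.norm_eq_abs, he] at h
      linarith
    have h2 : |∫ y in posSet u, (dirD e (dirD e S) y - ⟪e, e⟫ * lapl S y)|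
        ≤ d * (C₁ * ((d : ℝ) ^ 2 * M) * 4 * R) := by
      rw [real_inner_self_eq_norm_sq, he, one_pow]
      rw [show (fun y => dirD e (dirD e S) y - 1 * lapl S y)
        = fun y => -∑ k, dirD (v k) (dirD (v k) S) y from funext fun y => by
          rw [sum_dirD_dirD hS he]; ring, integral_neg, abs_neg,
        integral_finsetSum _ fun k _ => (hcont (v k) (v k)).integrableOn]
      refine (Finset.abs_sum_le_sum_abs _ _).trans ((Finset.sum_le_card_nsmul _ _
        (C₁ * ((d : ℝ) ^ 2 * M) * 4 * R) fun k _ => ?_).trans_eq (by simp))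
      refine (hH L c u (dirD (v k) S) e (v k) δ ((d : ℝ) ^ 2 * ‖v k‖ * M) hu he (hv k) hδ hflat
        (contDiff_dirD hS _) (hsub _) (fun y hy => h0 y hy _ (hv k)) (hgrad _)).trans ?_
      rw [hR, mul_assoc _ (Real.sqrt δ)]
      refine mul_le_mul_of_nonneg_right ?_ hR0
      have h4 : ‖v k‖ * ‖v k‖ ≤ 4 := by nlinarith [hvn k, norm_nonneg (v k)]
      have : 0 ≤ C₁ * ((d : ℝ) ^ 2 * M) := by positivity
      nlinarith
    have h1 := hex e
    rw [he, mul_one] at h1
    refine (abs_add_le _ _).trans ((add_le_add h1 h2).trans ?_)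
    rw [hC]
    have : 0 ≤ (d : ℝ) ^ 2 * M := by positivity
    nlinarith [mul_nonneg this hE0, mul_nonneg this hR0,
      mul_nonneg (mul_nonneg this hC₁) hE0, mul_nonneg (mul_nonneg this hC₁) hR0,
      mul_nonneg (mul_nonneg (mul_nonneg this hC₁) (Nat.cast_nonneg d : (0 : ℝ) ≤ d)) hE0,
      mul_nonneg (mul_nonneg (mul_nonneg this hC₁) (Nat.cast_nonneg d : (0 : ℝ) ≤ d)) hR0]

end Vale.Agent.P098
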