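import Vale.Agent.P098.Regularity.Flatness.VaryMul
import Vale.Agent.P098.Regularity.Flatness.Expand

/-!
P098, block B4: the inner variation, and the Caccioppoli inequality for the excess.
-/

open MeasureTheory Filter Matrix
open scoped Topology ContDiff NNReal RealInnerProductSpace Gradient

namespace Vale.Agent.P098

variable {d : ℕ} {L : ℝ≥0} {c : ℝ} {u f H : Euc d → ℝ}

lemma IsRegMin.contDiffOn_one (hu : IsRegMin L c u) : ContDiffOn ℝ 1 u (posSet u) :=
  hu.smooth.of_le (by simp)

lemma IsRegMin.isOpen_posSet (hu : IsRegMin L c u) : IsOpen (posSet u) :=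
  isOpen_lt continuous_const hu.lip.continuous

lemma IsRegMin.contDiffAt_one (hu : IsRegMin L c u) {x : Euc d} (hx : x ∈ posSet u) :
    ContDiffAt ℝ 1 u x :=
  hu.contDiffOn_one.contDiffAt (hu.isOpen_posSet.mem_nhds hx)

lemma IsRegMin.energy_lt_top (hu : IsRegMin L c u) {B : Set (Euc d)}
    (hb : Bornology.IsBounded B) : energy u B < ⊤ := by
  refine lt_of_le_of_lt (setLIntegral_mono measurable_const
    (g := fun _ => ENNReal.ofReal ((L : ℝ) ^ 2 + 1)) fun x _ => ENNReal.ofReal_le_ofReal ?_) ?_
  · linarith [pow_le_pow_left₀ (norm_nonneg _) (norm_fderiv_le_of_lipschitz ℝ hu.lip (x₀ := x)) 2]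
  · rw [setLIntegral_const]
    exact ENNReal.mul_lt_top ENNReal.ofReal_lt_top
      ((hb.subset Set.inter_subset_left).measure_lt_top)

/-- Minimality among continuous competitors which are `C¹` where positive. -/
lemma IsRegMin.energy_le (hu : IsRegMin L c u) {w : Euc d → ℝ} (hwc : Continuous w)
    (hwn : ∀ x, 0 ≤ w x) (hw : ContDiffOn ℝ 1 w (posSet w)) {z : Euc d} {R : ℝ}
    {K : Set (Euc d)} (hK : IsCompact K) (hKB : K ⊆ Metric.ball z R)
    (hKeq : ∀ x, x ∉ K → w x = u x) :
    energy u (Metric.ball z R) ≤ energy w (Metric.ball z R) := by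
  rcases eq_top_or_lt_top (energy w (Metric.ball z R)) with ht | ht
  · rw [ht]
    exact le_top
  have h := (hu.minim.2 z R).2 w (posGrad u) (posGrad w)
    (hasWeakGrad_posGrad hu.lip.continuous hu.nonneg hu.contDiffOn_one Metric.isOpen_ball
      Metric.isBounded_ball (hu.energy_lt_top Metric.isBounded_ball))
    (memLp_ball hwc z R)
    (hasWeakGrad_posGrad hwc hwn hw Metric.isOpen_ball Metric.isBounded_ball ht)
    (Eventually.of_forall hwn) ⟨K, hK, hKB, Eventually.of_forall hKeq⟩
  rwa [sobolevEnergy_posGrad hu.lip.continuous measurableSet_ball,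
    sobolevEnergy_posGrad hwc measurableSet_ball] at h

lemma eventually_det_pos_of_contDiff {X : Fin d → Euc d → ℝ} (hX : ∀ i, ContDiff ℝ 1 (X i))
    (hs : ∀ i, HasCompactSupport (X i)) :
    ∀ᶠ t : ℝ in 𝓝 0, ∀ x, 0 < det (1 + t • jac X x) := by
  have hS : IsCompact (⋃ i, tsupport (X i)) := isCompact_iUnion fun i => (hs i).isCompact
  have hc : Continuous fun p : ℝ × Euc d => det (1 + p.1 • jac X p.2) := by
    refine (continuous_const.add (continuous_fst.smul ?_)).matrix_det
    exact (continuous_pi fun i => continuous_pi fun j =>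
      continuous_pd (hX i) j).comp continuous_snd
  filter_upwards [hS.eventually_forall_of_forall_eventually (x₀ := (0 : ℝ))
    (P := fun t x => 0 < det (1 + t • jac X x)) fun y _ =>
      (hc.tendsto (0, y)).eventually (lt_mem_nhds (by simp))] with t ht x
  by_cases hx : x ∈ ⋃ i, tsupport (X i)
  · exact ht x hx
  · simp [jac_eq_zero hx]

lemma gradVec_dot_self (u : Euc d → ℝ) (x : Euc d) :
    gradVec u x ⬝ᵥ gradVec u x = ‖∇ u x‖ ^ 2 := by
  rw [norm_gradient_sq]
  simp [gradVec, dotProduct, sq]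

lemma IsRegMin.isCompact_params (L : ℝ≥0) {X : Fin d → Euc d → ℝ} (hX : ∀ i, ContDiff ℝ 1 (X i))
    (hs : ∀ i, HasCompactSupport (X i)) :
    IsCompact (Metric.closedBall (0 : Fin d → ℝ) L ×ˢ
      insert (0 : Matrix (Fin d) (Fin d) ℝ) (jac X '' ⋃ i, tsupport (X i))) :=
  (isCompact_closedBall _ _).prod (((isCompact_iUnion fun i => (hs i).isCompact).image
    (continuous_pi fun i => continuous_pi fun j => continuous_pd (hX i) j)).insert 0)

lemma IsRegMin.params_mem (hu : IsRegMin L c u) (X : Fin d → Euc d → ℝ) (x : Euc d) :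
    (gradVec u x, jac X x) ∈ Metric.closedBall (0 : Fin d → ℝ) L ×ˢ
      insert (0 : Matrix (Fin d) (Fin d) ℝ) (jac X '' ⋃ i, tsupport (X i)) := by
  refine ⟨?_, ?_⟩
  · rw [Metric.mem_closedBall, dist_zero_right, pi_norm_le_iff_of_nonneg L.coe_nonneg]
    exact fun i => abs_pd_le hu.lip i x
  · by_cases hx : x ∈ ⋃ i, tsupport (X i)
    · exact Set.mem_insert_of_mem _ ⟨x, hx, rfl⟩
    · rw [jac_eq_zero hx]
      exact Set.mem_insert _ _

lemma IsRegMin.continuousOn_gradVec (hu : IsRegMin L c u) :
    ContinuousOn (gradVec u) (posSet u) :=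
  continuousOn_pi.2 fun _ => (hu.contDiffOn_one.continuousOn_fderiv_of_isOpen
    hu.isOpen_posSet le_rfl).clm_apply continuousOn_const

lemma IsRegMin.integrableOn_sq_add_one (hu : IsRegMin L c u) {S : Set (Euc d)}
    (hb : Bornology.IsBounded S) :
    IntegrableOn (fun x => gradVec u x ⬝ᵥ gradVec u x + 1) S := by
  have := isFiniteMeasure_restrict hb
  have hg : Measurable (gradVec u) := measurable_pi_lambda _ fun i => measurable_pd u i
  refine Integrable.of_bound ?_ ((L : ℝ) ^ 2 + 1) (Eventually.of_forall fun x => ?_)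
  · exact (((continuous_id.dotProduct continuous_id).measurable.comp hg).add
      measurable_const).aestronglyMeasurable
  · rw [gradVec_dot_self, Real.norm_eq_abs, abs_of_nonneg (by positivity)]
    linarith [pow_le_pow_left₀ (norm_nonneg _) (norm_gradient_le hu.lip x) 2]

lemma continuous_firstOrd :
    Continuous fun p : (Fin d → ℝ) × Matrix (Fin d) (Fin d) ℝ => firstOrd p.1 p.2 := by
  have hgB := continuous_fst.matrix_vecMul (continuous_snd :
    Continuous (Prod.snd : (Fin d → ℝ) × Matrix (Fin d) (Fin d) ℝ → _))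
  unfold firstOrd
  exact ((continuous_snd.matrix_trace).mul
    ((continuous_fst.dotProduct continuous_fst).add continuous_const)).sub
    (continuous_const.mul (continuous_fst.dotProduct hgB))

lemma IsRegMin.integrableOn_firstOrd (hu : IsRegMin L c u) {X : Fin d → Euc d → ℝ}
    (hX : ∀ i, ContDiff ℝ 1 (X i)) (hs : ∀ i, HasCompactSupport (X i)) {S : Set (Euc d)}
    (hb : Bornology.IsBounded S) :
    IntegrableOn (fun x => firstOrd (gradVec u x) (jac X x)) S := by
  have := isFiniteMeasure_restrict hb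
  have hco := continuous_firstOrd (d := d)
  obtain ⟨M, hM⟩ := (isCompact_params L hX hs).exists_bound_of_continuousOn hco.continuousOn
  have hp : ∀ i, Measurable fun x => pd i u x := fun i => measurable_pd u i
  have hq : ∀ i j, Measurable fun x => pd j (X i) x := fun i j => measurable_pd (X i) j
  have hm : AEStronglyMeasurable (fun x => firstOrd (gradVec u x) (jac X x))
      (volume.restrict S) := by
    refine Measurable.aestronglyMeasurable ?_
    simp only [firstOrd, Matrix.trace, Matrix.diag_apply, dotProduct, Matrix.vecMul, jac,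
      Matrix.of_apply, gradVec]
    exact ((Finset.measurable_sum _ fun i _ => hq i i).mul
      ((Finset.measurable_sum _ fun i _ => (hp i).mul (hp i)).add measurable_const)).sub
      (measurable_const.mul (Finset.measurable_sum _ fun j _ =>
        (hp j).mul (Finset.measurable_sum _ fun i _ => (hp i).mul (hq i j))))
  exact Integrable.of_bound hm M
    (Eventually.of_forall fun x => hM _ (hu.params_mem X x))

lemma IsRegMin.qTail_bound (hu : IsRegMin L c u) {X : Fin d → Euc d → ℝ}
    (hX : ∀ i, ContDiff ℝ 1 (X i)) (hs : ∀ i, HasCompactSupport (X i)) :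
    ∃ δ Q : ℝ, 0 < δ ∧ ∀ t : ℝ, |t| ≤ δ → (∀ x, 0 < det (1 + t • jac X x)) ∧
      (∀ x, |qTail (gradVec u x) (jac X x) t| ≤ Q) ∧
      ContinuousOn (fun x => qTail (gradVec u x) (jac X x) t) (posSet u) := by
  obtain ⟨δ, hδ, hdet⟩ := Metric.eventually_nhds_iff.1 (eventually_det_pos_of_contDiff hX hs)
  have hd : ∀ t : ℝ, |t| ≤ δ / 2 → ∀ x, 0 < det (1 + t • jac X x) := fun t ht =>
    hdet (by rw [Real.dist_eq, sub_zero]; linarith)
  have hKd : Set.Icc (-(δ / 2)) (δ / 2) ×ˢ (Metric.closedBall (0 : Fin d → ℝ) L ×ˢ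
      insert (0 : Matrix (Fin d) (Fin d) ℝ) (jac X '' ⋃ i, tsupport (X i)))
      ⊆ {p | det (1 + p.1 • p.2.2) ≠ 0} := by
    rintro ⟨t, g, M⟩ ⟨ht, -, hM⟩
    rcases hM with rfl | ⟨x, -, rfl⟩
    · simp
    · exact (hd t (abs_le.2 ht) x).ne'
  obtain ⟨Q, hQ⟩ := (isCompact_Icc.prod (isCompact_params L hX hs)).exists_bound_of_continuousOn
    (continuousOn_qTail.mono hKd)
  refine ⟨δ / 2, Q, by linarith, fun t ht => ⟨hd t ht, fun x => ?_, ?_⟩⟩
  · exact hQ (t, gradVec u x, jac X x) ⟨abs_le.1 ht, hu.params_mem X x⟩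
  · exact continuousOn_qTail.comp (f := fun x => (t, gradVec u x, jac X x))
      (continuousOn_const.prodMk (hu.continuousOn_gradVec.prodMk
        (continuous_pi fun i => continuous_pi fun j => continuous_pd (hX i) j).continuousOn))
      fun x _ => hKd ⟨abs_le.1 ht, hu.params_mem X x⟩

lemma IsRegMin.energy_eq (hu : IsRegMin L c u) {B : Set (Euc d)} (hB : MeasurableSet B)
    (hb : Bornology.IsBounded B) :
    energy u B = ENNReal.ofReal (∫ x in B ∩ posSet u, (gradVec u x ⬝ᵥ gradVec u x + 1)) := by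
  rw [ofReal_integral_eq_lintegral_ofReal
    (hu.integrableOn_sq_add_one (hb.subset Set.inter_subset_left))
    (Eventually.of_forall fun x => by simp only [gradVec_dot_self, Pi.zero_apply]; positivity)]
  refine setLIntegral_congr_fun (hB.inter hu.isOpen_posSet.measurableSet) fun x _ => ?_
  simp only [gradVec_dot_self, norm_gradient_eq]

/-- Minimality against one deformation, expanded to first order. -/
lemma IsRegMin.deform_ineq (hu : IsRegMin L c u) {X : Fin d → Euc d → ℝ}
    (hX : ∀ i, ContDiff ℝ 1 (X i)) (hs : ∀ i, HasCompactSupport (X i)) {R : ℝ}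
    (hR : (⋃ i, tsupport (X i)) ⊆ Metric.ball 0 R) {t Q : ℝ} {e : Euc d ≃ₜ Euc d}
    (he : ⇑e = deform X t) (hd : ∀ x, 0 < det (1 + t • jac X x))
    (hQ : ∀ x, |qTail (gradVec u x) (jac X x) t| ≤ Q)
    (hQc : ContinuousOn (fun x => qTail (gradVec u x) (jac X x) t) (posSet u)) :
    0 ≤ t * (∫ x in Metric.ball 0 R ∩ posSet u, firstOrd (gradVec u x) (jac X x))
      + t ^ 2 * (Q * volume.real (Metric.ball (0 : Euc d) R ∩ posSet u)) := by
  set Ω := Metric.ball (0 : Euc d) R ∩ posSet u with hΩdef
  have hΩm : MeasurableSet Ω := measurableSet_ball.inter hu.isOpen_posSet.measurableSet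
  have hΩb : Bornology.IsBounded Ω := Metric.isBounded_ball.subset Set.inter_subset_left
  have := isFiniteMeasure_restrict hΩb
  have hfix : ∀ x, x ∉ ⋃ i, tsupport (X i) → vecField X x = 0 := fun x hx => by
    refine PiLp.ext fun i => ?_
    exact image_eq_zero_of_notMem_tsupport (f := X i) fun hi => hx (Set.mem_iUnion.2 ⟨i, hi⟩)
  have hle := hu.energy_le (w := fun y => u (e.symm y))
    (hu.lip.continuous.comp e.symm.continuous) (fun y => hu.nonneg _)
    (contDiffOn_deformed he hX hd fun x hx => hu.contDiffAt_one hx)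
    (isCompact_iUnion fun i => (hs i).isCompact) hR fun x hx => by
      simp [(fix_of_zero he (hfix x hx)).2]
  rw [energy_deformed he hX hd hu.lip.continuous (fun x hx => hu.contDiffAt_one hx)
    (fun _ _ => rfl) Metric.isOpen_ball (fun x hx => hfix x fun h => hx (hR h)),
    hu.energy_eq measurableSet_ball Metric.isBounded_ball] at hle
  have hexp : ∀ x, dens (gradVec u x) (jac X x) t = (gradVec u x ⬝ᵥ gradVec u x + 1)
      + (t * firstOrd (gradVec u x) (jac X x) + t ^ 2 * qTail (gradVec u x) (jac X x) t) :=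
    fun x => by
      rw [dens_expansion _ _ _ (hd x).ne']
      ring
  have h0i := hu.integrableOn_sq_add_one hΩb
  have h1i := hu.integrableOn_firstOrd hX hs hΩb
  have hQi : IntegrableOn (fun x => qTail (gradVec u x) (jac X x) t) Ω :=
    Integrable.of_bound ((hQc.mono Set.inter_subset_right).aestronglyMeasurable hΩm) Q
      (Eventually.of_forall hQ)
  have h12 : IntegrableOn (fun x => t * firstOrd (gradVec u x) (jac X x)
      + t ^ 2 * qTail (gradVec u x) (jac X x) t) Ω :=
    (h1i.const_mul _).add (hQi.const_mul _)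
  have hdi : IntegrableOn (fun x => dens (gradVec u x) (jac X x) t) Ω := by
    simp only [hexp]
    exact h0i.add h12
  rw [← ofReal_integral_eq_lintegral_ofReal hdi
    (Eventually.of_forall fun x => dens_nonneg _ (hd x)),
    ENNReal.ofReal_le_ofReal_iff (setIntegral_nonneg hΩm
      fun x _ => dens_nonneg _ (hd x))] at hle
  simp only [hexp] at hle
  rw [integral_add h0i h12, integral_add (h1i.const_mul _) (hQi.const_mul _),
    integral_const_mul, integral_const_mul] at hle
  have hq : ∫ x in Ω, qTail (gradVec u x) (jac X x) t ≤ Q * volume.real Ω :=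
    (le_abs_self _).trans
      (norm_setIntegral_le_of_norm_le_const (μ := volume) (C := Q)
      (f := fun x => qTail (gradVec u x) (jac X x) t) hΩb.measure_lt_top fun x _ => hQ x)
  nlinarith [mul_le_mul_of_nonneg_left hq (sq_nonneg t)]

/-- The first variation along a compactly supported vector field vanishes. -/
theorem IsRegMin.inner_variation (hu : IsRegMin L c u) {X : Fin d → Euc d → ℝ}
    (hX : ∀ i, ContDiff ℝ 1 (X i)) (hs : ∀ i, HasCompactSupport (X i)) :
    ∫ x in posSet u, firstOrd (gradVec u x) (jac X x) = 0 := by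
  obtain ⟨R, hR⟩ := (isCompact_iUnion fun i => (hs i).isCompact).isBounded.subset_ball (0 : Euc d)
  obtain ⟨δ, Q, hδ, hQ⟩ := hu.qTail_bound hX hs
  have key : (∫ x in Metric.ball 0 R ∩ posSet u, firstOrd (gradVec u x) (jac X x)) = 0 := by
    refine eq_zero_of_quad_nonneg
      (b := Q * volume.real (Metric.ball (0 : Euc d) R ∩ posSet u)) ?_
    filter_upwards [eventually_homeomorph hX hs, Metric.ball_mem_nhds (0 : ℝ) hδ]
      with t ⟨e, he⟩ ht
    rw [Metric.mem_ball, Real.dist_eq, sub_zero] at ht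
    obtain ⟨h1, h2, h3⟩ := hQ t ht.le
    exact hu.deform_ineq hX hs hR he h1 h2 h3
  rw [← key]
  refine (setIntegral_eq_of_subset_of_forall_sdiff_eq_zero hu.isOpen_posSet.measurableSet
    Set.inter_subset_right fun x hx => ?_)
  simp [firstOrd, jac_eq_zero fun h => hx.2 ⟨hR h, hx.1⟩]

/-- The inner variation along `f e` for a fixed vector `e`. -/
theorem IsRegMin.inner_variation_dir (hu : IsRegMin L c u) (e : Euc d) (hf : ContDiff ℝ ∞ f)
    (hfs : HasCompactSupport f) :
    ∫ x in posSet u, (⟪∇ f x, e⟫ * (‖∇ u x‖ ^ 2 + 1)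
      - 2 * ⟪∇ u x, e⟫ * ⟪∇ u x, ∇ f x⟫) = 0 := by
  have hf1 : ContDiff ℝ 1 f := hf.of_le (by simp)
  rw [← hu.inner_variation (X := fun i x => e i * f x) (fun i => contDiff_const.mul hf1)
    (fun i => hfs.mul_left)]
  refine integral_congr_ae (Eventually.of_forall fun x => ?_)
  have hj : ∀ i j, jac (fun i x => e i * f x) x i j = e i * pd j f x := fun i j => by
    simp only [jac, Matrix.of_apply]
    rw [pd, pd, fderiv_const_mul (hf1.differentiable one_ne_zero x) (e i)]
    simp
  have h1 : trace (jac (fun i x => e i * f x) x) = ⟪∇ f x, e⟫ := by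
    rw [inner_gradient_left_sum]
    simp only [Matrix.trace, Matrix.diag_apply, hj]
    exact Finset.sum_congr rfl fun i _ => mul_comm _ _
  have h2 : gradVec u x ⬝ᵥ (gradVec u x ᵥ* jac (fun i x => e i * f x) x)
      = ⟪∇ u x, e⟫ * ⟪∇ u x, ∇ f x⟫ := by
    rw [inner_gradient_left_sum, inner_gradient_eq_sum, Finset.sum_mul_sum, Finset.sum_comm]
    simp only [dotProduct, Matrix.vecMul, hj, gradVec, Finset.mul_sum]
    exact Finset.sum_congr rfl fun j _ => Finset.sum_congr rfl fun i _ => by ring
  simp only [firstOrd, h1, h2, gradVec_dot_self]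
  ring

end Vale.Agent.P098
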