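import Vale.Agent.P098.Regularity.Flatness.Basic

/-!
P098, block B4: the variation `u (1 + s H)` of a Lipschitz global minimizer, and integration
by parts on the positivity set.
-/

open MeasureTheory Filter
open scoped Topology ContDiff NNReal RealInnerProductSpace Gradient

namespace Vale.Agent.P098

variable {d : ℕ} {L : ℝ≥0} {c : ℝ} {u H : Euc d → ℝ} {B : Set (Euc d)}

lemma integrable_pd_mul (hu : LipschitzWith L u) (i : Fin d) {g : Euc d → ℝ} (hg : Continuous g)
    (hgs : HasCompactSupport g) : Integrable fun x => pd i u x * g x :=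
  integrable_bdd_mul (measurable_pd u i) hg hgs fun x _ => abs_pd_le hu i x

/-- Weak gradient of a Lipschitz function times a test function. -/
lemma hasWeakGrad_mul_test (hu : LipschitzWith L u) (hb : Bornology.IsBounded B)
    (hH : ContDiff ℝ ∞ H) (hHs : HasCompactSupport H) :
    HasWeakGrad B (fun x => u x * H x) fun i x => pd i u x * H x + u x * pd i H x := by
  have := isFiniteMeasure_restrict hb
  have hH1 : ContDiff ℝ 1 H := hH.of_le (by simp)
  refine ⟨fun i => ?_, fun i φ hφ hs hsub => ?_⟩
  · refine MemLp.add ?_ ?_
    · obtain ⟨M, hM⟩ := hH.continuous.bounded_above_of_compact_support hHs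
      refine MemLp.of_bound ((measurable_pd u i).mul hH.continuous.measurable).aestronglyMeasurable
        (L * M) (Eventually.of_forall fun x => ?_)
      rw [norm_mul]
      exact mul_le_mul (abs_pd_le hu i x) (hM x) (norm_nonneg _) L.coe_nonneg
    · obtain ⟨M, hM⟩ := (hu.continuous.mul (continuous_pd hH1 i)).bounded_above_of_compact_support
        (hasCompactSupport_pd hHs i).mul_left
      exact MemLp.of_bound (hu.continuous.mul (continuous_pd hH1 i)).aestronglyMeasurable M
        (Eventually.of_forall hM)
  · have hφ1 : ContDiff ℝ 1 φ := hφ.of_le (by simp)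
    have hz : ∀ x, x ∉ B → φ x = 0 ∧ pd i φ x = 0 := fun x hx => by
      have h1 := notMem_tsupport_iff_eventuallyEq.1 fun h => hx (hsub h)
      exact ⟨h1.eq_of_nhds, pd_eq_zero_of_eventually h1 i⟩
    rw [setIntegral_eq_integral_of_forall_compl_eq_zero fun x hx => by simp [(hz x hx).2],
      setIntegral_eq_integral_of_forall_compl_eq_zero fun x hx => by simp [(hz x hx).1]]
    obtain ⟨D, hD⟩ := lipschitzWith_of_test (hH.mul hφ) hHs.mul_right
    have h := integral_mul_pd hu hD hHs.mul_right i
    have hpd : ∀ x, pd i (fun y => H y * φ y) x = pd i H x * φ x + H x * pd i φ x := fun x =>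
      pd_mul i (hH1.differentiable one_ne_zero x) (hφ1.differentiable one_ne_zero x)
    have i1 : Integrable fun x => u x * (H x * pd i φ x) :=
      (hu.continuous.mul (hH.continuous.mul (continuous_pd hφ1 i))).integrable_of_hasCompactSupport
        hHs.mul_right.mul_left
    have i2 : Integrable fun x => u x * (pd i H x * φ x) :=
      (hu.continuous.mul ((continuous_pd hH1 i).mul hφ.continuous)).integrable_of_hasCompactSupport
        hs.mul_left.mul_left
    have i3 : Integrable fun x => pd i u x * (H x * φ x) :=
      integrable_pd_mul hu i (hH.continuous.mul hφ.continuous) hHs.mul_right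
    simp only [hpd, mul_add] at h
    rw [integral_add i2 i1] at h
    have e1 : (fun x => u x * H x * pd i φ x) = fun x => u x * (H x * pd i φ x) := by
      funext x; ring
    have e2 : (fun x => (pd i u x * H x + u x * pd i H x) * φ x)
        = fun x => pd i u x * (H x * φ x) + u x * (pd i H x * φ x) := by
      funext x; ring
    rw [e1, e2, integral_add i3 i2]
    linarith

/-- Integration by parts on the positivity set. -/
theorem IsRegMin.integral_grad_mul (hu : IsRegMin L c u) (v : Euc d) (hH : ContDiff ℝ ∞ H)
    (hHs : HasCompactSupport H) :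
    ∫ x in posSet u, (⟪∇ u x, v⟫ * H x + u x * ⟪∇ H x, v⟫) = 0 := by
  have hH1 : ContDiff ℝ 1 H := hH.of_le (by simp)
  obtain ⟨D, hD⟩ := lipschitzWith_of_test hH hHs
  have iA : ∀ i, Integrable fun x => v i * (pd i u x * H x) := fun i =>
    (integrable_pd_mul hu.lip i hH.continuous hHs).const_mul _
  have iB : ∀ i, Integrable fun x => v i * (u x * pd i H x) := fun i =>
    ((hu.lip.continuous.mul (continuous_pd hH1 i)).integrable_of_hasCompactSupport
      (hasCompactSupport_pd hHs i).mul_left).const_mul _
  rw [setIntegral_posSet_eq hu.nonneg fun x hx => by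
    simp [gradient_eq_zero_of_eq_zero hu.nonneg hx, hx]]
  have e : (fun x => ⟪∇ u x, v⟫ * H x + u x * ⟪∇ H x, v⟫)
      = fun x => ∑ i, (v i * (pd i u x * H x) + v i * (u x * pd i H x)) := by
    funext x
    rw [inner_gradient_left_sum, inner_gradient_left_sum, Finset.sum_mul, Finset.mul_sum,
      ← Finset.sum_add_distrib]
    exact Finset.sum_congr rfl fun i _ => by ring
  rw [e, integral_finsetSum (f := fun i x => v i * (pd i u x * H x) + v i * (u x * pd i H x)) _
    fun i _ => (iA i).add (iB i)]
  refine Finset.sum_eq_zero fun i _ => ?_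
  rw [integral_add (iA i) (iB i), integral_const_mul, integral_const_mul,
    integral_mul_pd hu.lip hD hHs i]
  ring

/-- The variation `u (1 + s H)`. -/
theorem IsRegMin.mul_variation (hu : IsRegMin L c u) (hH : ContDiff ℝ ∞ H)
    (hHs : HasCompactSupport H) :
    ∫ x in posSet u, (H x * ‖∇ u x‖ ^ 2 + u x * ⟪∇ u x, ∇ H x⟫) = 0 := by
  obtain ⟨R, hR⟩ := hHs.isCompact.isBounded.subset_ball (0 : Euc d)
  set S := Metric.ball (0 : Euc d) R with hS
  have hb : Bornology.IsBounded S := Metric.isBounded_ball
  have := isFiniteMeasure_restrict hb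
  set A : Fin d → Euc d → ℝ := fun i x => pd i u x * H x + u x * pd i H x with hA
  have hP := hasWeakGrad_pd hu.lip hb
  have hW := hasWeakGrad_mul_test hu.lip hb hH hHs
  obtain ⟨M, hM⟩ := hH.continuous.bounded_above_of_compact_support hHs
  have hPA : ∀ i, IntegrableOn (fun x => pd i u x * A i x) S := fun i =>
    (hP.1 i).integrable_mul (hW.1 i)
  have hAA : IntegrableOn (fun x => ∑ i, A i x ^ 2) S := integrableOn_sum_sq hW.1
  have hPP : IntegrableOn (fun x => ∑ i, pd i u x ^ 2) S := integrableOn_sum_sq hP.1
  have hPAs : IntegrableOn (fun x => ∑ i, pd i u x * A i x) S :=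
    integrable_finsetSum _ fun i _ => hPA i
  have key : (∫ x in S, ∑ i, pd i u x * A i x) = 0 := by
    suffices h : 2 * (∫ x in S, ∑ i, pd i u x * A i x) = 0 by linarith
    refine eq_zero_of_quad_nonneg (b := ∫ x in S, ∑ i, A i x ^ 2) ?_
    have hsmall : ∀ᶠ s : ℝ in 𝓝 0, |s| * M < 1 := by
      have : Tendsto (fun s : ℝ => |s| * M) (𝓝 0) (𝓝 (|(0 : ℝ)| * M)) :=
        (continuous_abs.mul continuous_const).tendsto 0
      exact this.eventually (gt_mem_nhds (by simp))
    filter_upwards [hsmall] with s hs
    have hpos : ∀ x, 0 < 1 + s * H x := fun x => by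
      have h1 : |s * H x| ≤ |s| * M := by
        rw [abs_mul]
        exact mul_le_mul_of_nonneg_left (hM x) (abs_nonneg s)
      linarith [neg_abs_le (s * H x)]
    have hW' : HasWeakGrad S (fun x => u x * (s * H x))
        fun i x => pd i u x * (s * H x) + u x * pd i (fun y => s * H y) x :=
      hasWeakGrad_mul_test hu.lip hb (contDiff_const.mul hH) hHs.mul_left
    have hsH : ∀ i x, pd i (fun y => s * H y) x = s * pd i H x := fun i x => by
      rw [pd, pd, fderiv_const_mul ((hH.of_le (m := 1) (by simp)).differentiable one_ne_zero x) s]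
      simp
    have hG : HasWeakGrad S (fun x => u x + u x * (s * H x))
        fun i x => pd i u x + s * A i x := by
      have h := hP.add hW' hb (memLp_lipschitz hu.lip 0 R)
        (memLp_ball (hu.lip.continuous.mul (continuous_const.mul hH.continuous)) 0 R)
      convert h using 2 with i
      funext x
      rw [hsH]
      simp only [hA]
      ring
    have h := hu.minim.energyR_le hu.lip (c := 0) (R := R)
      (v := fun x => u x + u x * (s * H x))
      (memLp_ball (hu.lip.continuous.add
        (hu.lip.continuous.mul (continuous_const.mul hH.continuous))) 0 R) hG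
      (Eventually.of_forall fun x => by
        have := mul_nonneg (hu.nonneg x) (hpos x).le
        nlinarith)
      ⟨tsupport H, hHs.isCompact, hR, Eventually.of_forall fun x hx => by
        simp [image_eq_zero_of_notMem_tsupport hx]⟩
    have hps : posSet (fun x => u x + u x * (s * H x)) = posSet u := by
      ext x
      have : u x + u x * (s * H x) = u x * (1 + s * H x) := by ring
      simp only [posSet, Set.mem_ofPred_eq, this]
      exact ⟨fun hx => pos_of_mul_pos_left hx (hpos x).le, fun hx => mul_pos hx (hpos x)⟩
    rw [energyR, energyR, hps] at h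
    have e : (fun x => ∑ i, (pd i u x + s * A i x) ^ 2) = fun x =>
        (∑ i, pd i u x ^ 2) + (2 * s * (∑ i, pd i u x * A i x) + s ^ 2 * ∑ i, A i x ^ 2) := by
      funext x
      rw [Finset.mul_sum, Finset.mul_sum, ← Finset.sum_add_distrib, ← Finset.sum_add_distrib]
      exact Finset.sum_congr rfl fun i _ => by ring
    have h1 : IntegrableOn
        (fun x => 2 * s * (∑ i, pd i u x * A i x) + s ^ 2 * ∑ i, A i x ^ 2) S :=
      (hPAs.const_mul _).add (hAA.const_mul _)
    rw [e, integral_add hPP h1,
      integral_add (hPAs.const_mul _) (hAA.const_mul _), integral_const_mul,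
      integral_const_mul] at h
    linarith
  rw [setIntegral_posSet_eq hu.nonneg fun x hx => by
    simp [gradient_eq_zero_of_eq_zero hu.nonneg hx, hx]]
  rw [← key, ← setIntegral_eq_integral_of_forall_compl_eq_zero (s := S) fun x hx => by
    have hx' : x ∉ tsupport H := fun h => hx (hR h)
    simp [image_eq_zero_of_notMem_tsupport hx', gradient_eq_zero_of_notMem_tsupport hx']]
  refine integral_congr_ae (Eventually.of_forall fun x => ?_)
  simp only [hA]
  rw [norm_gradient_sq, inner_gradient_eq_sum, Finset.mul_sum, Finset.mul_sum,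
    ← Finset.sum_add_distrib]
  exact Finset.sum_congr rfl fun i _ => by ring

end Vale.Agent.P098
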